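import Vale.Agent.P101.HalfFlipDrop

/-!
# P095: the half flip of a dimension drop algebra is connected to the identity

Fields of unitaries on the square with the four boundary conditions are unitaries of the doubled
algebra; contracting the path and then the two parameters joins the half flip to `1`.
-/

open scoped ComplexOrder unitInterval CStarAlgebra
open Vale.Agent.P101 Vale.Agent.P101.HalfFlip
open Vale.Agent.P101.HalfFlip.FlipData (p1Par p2Par sigPar)

set_option maxSynthPendingDepth 5

noncomputable section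

namespace Vale.Agent.P095.NU.HalfFlipPath

variable {p q : ℕ} [NeZero p] [NeZero q]

/-- A field of unitaries on the square satisfying the boundary conditions. -/
structure IsField (F : I → I → RR p q) : Prop where
  mem : ∀ s t, F s t ∈ unitary (RR p q)
  s0 : ∀ t, ∀ y ∈ legQ p q, Commute (F 0 t) (legL y)
  s1 : ∀ t, ∀ x ∈ legP p q, Commute (F 1 t) (legL x)
  t0 : ∀ s, ∀ y ∈ legQ p q, Commute (F s 0) (legR y)
  t1 : ∀ s, ∀ x ∈ legP p q, Commute (F s 1) (legR x)

/-- A continuous family of such fields. -/
structure Family (p q : ℕ) [NeZero p] [NeZero q] where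
  F : I → I → I → RR p q
  cont : Continuous fun x : I × I × I => F x.1 x.2.1 x.2.2
  field : ∀ r, IsField (F r)

namespace Family

variable (Γ : Family p q)

/-- The coefficient functions. -/
def coef (r s : I) (i j : Idx p q) : Drop.dropAlg p q ℂ :=
  ⟨⟨fun t => Γ.F r s t i j, (continuous_apply j).comp ((continuous_apply i).comp
      (Γ.cont.comp (continuous_const.prodMk (continuous_const.prodMk continuous_id))))⟩, by
    constructor
    · rw [P101.Drop.isLeft_iff]
      exact fun k l => apply_of_commute_legR_Q (fun y hy => (Γ.field r).t0 s y hy) 0 i j k l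
    · rw [P101.Drop.isRight_iff]
      exact fun k l => apply_of_commute_legR_P (fun y hy => (Γ.field r).t1 s y hy) 0 i j k l⟩

theorem continuous_coef (i j : Idx p q) : Continuous fun x : I × I => Γ.coef x.1 x.2 i j := by
  refine Continuous.subtype_mk (ContinuousMap.continuous_of_continuous_uncurry _ ?_) _
  exact (continuous_apply j).comp ((continuous_apply i).comp
    (Γ.cont.comp ((continuous_fst.comp continuous_fst).prodMk
      ((continuous_snd.comp continuous_fst).prodMk continuous_snd))))

variable [PartialOrder (Drop.dropAlg p q ℂ)] [StarOrderedRing (Drop.dropAlg p q ℂ)]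

/-- The element of the doubled algebra. -/
def elem (r : I) : Drop.dropAlg p q (Drop.dropAlg p q ℂ) :=
  ⟨⟨fun s => CStarMatrix.ofMatrix fun i j => Γ.coef r s i j,
    continuous_pi fun i => continuous_pi fun j =>
      ((Γ.continuous_coef i j).comp (continuous_const.prodMk continuous_id) :)⟩, by
    constructor
    · refine ⟨fun a b => Γ.coef r 0 (a, 0) (b, 0), fun i j => Subtype.ext (ContinuousMap.ext
        fun t => ?_)⟩
      have h := apply_of_commute_legL_Q (fun y hy => (Γ.field r).s0 t y hy) 0 i j
      rcases eq_or_ne i.2 j.2 with hij | hij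
      · rw [if_pos hij] at h ⊢; exact h
      · rw [if_neg hij] at h ⊢; exact h
    · refine ⟨fun k l => Γ.coef r 1 (0, k) (0, l), fun i j => Subtype.ext (ContinuousMap.ext
        fun t => ?_)⟩
      have h := apply_of_commute_legL_P (fun y hy => (Γ.field r).s1 t y hy) 0 i j
      rcases eq_or_ne i.1 j.1 with hij | hij
      · rw [if_pos hij] at h ⊢; exact h
      · rw [if_neg hij] at h ⊢; exact h⟩

theorem continuous_elem : Continuous Γ.elem := by
  refine Continuous.subtype_mk (ContinuousMap.continuous_of_continuous_uncurry _ ?_) _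
  exact continuous_pi fun i => continuous_pi fun j => (Γ.continuous_coef i j :)




theorem evalAt_elem (r s t : I) : evalAt (dropEval (p := p) (q := q)) (Γ.elem r) s t = Γ.F r s t :=
  CStarMatrix.ext fun _ _ => rfl

omit [NeZero p] [NeZero q] [PartialOrder (Drop.dropAlg p q ℂ)]
  [StarOrderedRing (Drop.dropAlg p q ℂ)] in
theorem sep (a b : Drop.dropAlg p q ℂ) (h : ∀ t, dropEval t a = dropEval t b) : a = b :=
  Subtype.ext (ContinuousMap.ext h)

theorem elem_mem (r : I) : Γ.elem r ∈ unitary (Drop.dropAlg p q (Drop.dropAlg p q ℂ)) := by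
  have h : ∀ X : Drop.dropAlg p q (Drop.dropAlg p q ℂ),
      (∀ s t, evalAt (dropEval (p := p) (q := q)) X s t = 1) → X = 1 := fun X hX =>
    eq_of_evalAt (dropEval (p := p) (q := q)) sep fun s t => by rw [hX, evalAt_one]
  refine Unitary.mem_iff.2 ⟨h _ fun s t => ?_, h _ fun s t => ?_⟩
  · rw [evalAt_mul, evalAt_star, evalAt_elem]
    exact Unitary.star_mul_self_of_mem ((Γ.field r).mem s t)
  · rw [evalAt_mul, evalAt_star, evalAt_elem]
    exact Unitary.mul_star_self_of_mem ((Γ.field r).mem s t)

/-- The unitary of the doubled algebra. -/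
def unit (r : I) : unitary (Drop.dropAlg p q (Drop.dropAlg p q ℂ)) := ⟨Γ.elem r, Γ.elem_mem r⟩

theorem joined : Joined (Γ.unit 0) (Γ.unit 1) :=
  ⟨{ toFun := Γ.unit
     continuous_toFun := Γ.continuous_elem.subtype_mk _
     source' := rfl
     target' := rfl }⟩

theorem unit_ext (Δ : Family p q) {r r' : I} (h : ∀ s t, Γ.F r s t = Δ.F r' s t) :
    Γ.unit r = Δ.unit r' :=
  Subtype.ext (eq_of_evalAt (dropEval (p := p) (q := q)) sep fun s t => by
    show evalAt _ (Γ.elem r) s t = evalAt _ (Δ.elem r') s t
    rw [evalAt_elem, evalAt_elem]; exact h s t)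

theorem unit_eq_one {r : I} (h : ∀ s t, Γ.F r s t = 1) : Γ.unit r = 1 :=
  Subtype.ext (eq_of_evalAt (dropEval (p := p) (q := q)) sep fun s t => by
    show evalAt _ (Γ.elem r) s t = evalAt _ 1 s t
    rw [evalAt_elem, evalAt_one]; exact h s t)

theorem norm_conj_elem (r : I) (f : Drop.dropAlg p q ℂ) {c : ℝ} (hc : 0 ≤ c)
    (h : ∀ s t, ‖star (Γ.F r s t) * legR ((f : C(I, MM p q)) t) * Γ.F r s t -
      legL ((f : C(I, MM p q)) s)‖ ≤ c) :
    ‖star (Γ.elem r) * Drop.tensor f (1 : Drop.dropAlg p q ℂ) * Γ.elem r -
      Drop.tensor (1 : Drop.dropAlg p q ℂ) f‖ ≤ c := by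
  refine norm_le_of_evalAt (dropEval (p := p) (q := q)) sep
    (fun a => (a : C(I, MM p q)).continuous) hc fun s t => ?_
  rw [evalAt_sub, evalAt_mul, evalAt_mul, evalAt_star, evalAt_elem, evalAt_tensor_left,
    evalAt_tensor_right]
  exact h s t

theorem joined_one (h : ∀ s t, Γ.F 0 s t = 1) : Joined 1 (Γ.unit 1) :=
  ⟨{ toFun := Γ.unit
     continuous_toFun := Γ.continuous_elem.subtype_mk _
     source' := Γ.unit_eq_one h
     target' := rfl }⟩

theorem joined_of (Δ : Family p q) (h : ∀ s t, Γ.F 0 s t = Δ.F 1 s t) :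
    Joined (Δ.unit 1) (Γ.unit 1) :=
  ⟨{ toFun := Γ.unit
     continuous_toFun := Γ.continuous_elem.subtype_mk _
     source' := Γ.unit_ext Δ h
     target' := rfl }⟩

theorem exists_of_joined (Δ : Family p q) (h0 : ∀ s t, Δ.F 0 s t = 1)
    (h1 : ∀ s t, Γ.F 0 s t = Δ.F 1 s t) : Γ.unit 1 ∈ pathComponent 1 :=
  (Δ.joined_one h0).trans (Γ.joined_of Δ h1)

end Family

theorem continuous_flipW {X M R : Type*} [TopologicalSpace X] [CStarAlgebra M] [CStarAlgebra R]
    (D : FlipData M R) {a b c : X → M} {x y z : X → ℝ} (ha : Continuous a) (hb : Continuous b)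
    (hc : Continuous c) (hx : Continuous x) (hy : Continuous y) (hz : Continuous z) :
    Continuous fun w => D.flipW (a w) (b w) (c w) (x w) (y w) (z w) := by
  have hR : Continuous D.Rt :=
    AddMonoidHomClass.continuous_of_bound D.Rt 1 fun m => by simpa using D.norm_Rt_le m
  have hP := continuous_invPath D.fP
  have hQ := continuous_invPath D.fQ
  unfold FlipData.flipW
  fun_prop

/-- Contracting the path. -/
def shrink (v : C(I, MM p q)) (hv : ∀ t, v t ∈ unitary (MM p q)) (h0 : v 0 = 1) : Family p q where
  F r s t := (flipData p q).squareW (fun u => v (r * u)) s t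
  cont := by
    have hm : Continuous fun x : I × I => x.1 * x.2 := continuous_mul
    unfold FlipData.squareW
    refine continuous_flipW (flipData p q)
      (v.continuous.comp (hm.comp (continuous_fst.prodMk continuous_const)))
      (v.continuous.comp (hm.comp (continuous_fst.prodMk (continuous_snd.comp continuous_snd))))
      (v.continuous.comp (hm.comp (continuous_fst.prodMk (continuous_fst.comp continuous_snd))))
      ?_ ?_ ?_
    · unfold p1Par; fun_prop
    · unfold sigPar; fun_prop
    · unfold p2Par p1Par; fun_prop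
  field r :=
    { mem := (flipData p q).squareW_mem fun u => hv _
      s0 := fun t y hy => (flipData p q).squareW_s0 (fun u => hv _) (by simpa using h0) t hy
      s1 := fun t x hx => (flipData p q).squareW_s1 (fun u => hv _) t hx
      t0 := fun s y hy => (flipData p q).squareW_t0 (fun u => hv _) (by simpa using h0) s hy
      t1 := fun s x hx => (flipData p q).squareW_t1 (fun u => hv _) s hx }

theorem p1Par_add_p2Par (s t : ℝ) (h : t = 1 ∨ s = 1) : p1Par s t + p2Par s t = 1 := by
  rcases h with rfl | rfl
  · rcases le_total s (1 / 2) with h | h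
    · simp only [p2Par, p1Par, min_eq_left (show (1 : ℝ) ≤ 2 - 2 * s by linarith)]
      ring
    · simp only [p2Par, p1Par, min_eq_left (show (1 : ℝ) ≤ 2 * s by linarith)]
      ring
  · simp only [p2Par, p1Par, min_eq_left (show (1 : ℝ) ≤ 2 * 1 by norm_num)]
    ring

theorem sigPar_eq_one (s t : I) (h : s = 0 ∨ t = 0) : sigPar s t = 1 := by
  rcases h with h | h
  · simp [sigPar, h, t.2.1]
  · simp [sigPar, h, s.2.1]

/-- Contracting the two parameters. -/
def straighten (p q : ℕ) [NeZero p] [NeZero q] : Family p q where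
  F r s t := invPath (flipData p q).fP ((r : ℝ) * (p1Par s t + p2Par s t - 1)) *
    invPath (flipData p q).fQ ((r : ℝ) * (sigPar s t - 1))
  cont := by
    have hP := continuous_invPath (flipData p q).fP
    have hQ := continuous_invPath (flipData p q).fQ
    unfold p2Par p1Par sigPar
    fun_prop
  field r :=
    { mem := fun s t => mul_mem
        (invPath_mem_unitary (flipData p q).fP_sa (flipData p q).fP_sq _)
        (invPath_mem_unitary (flipData p q).fQ_sa (flipData p q).fQ_sq _)
      s0 := fun t y hy => by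
        rw [sigPar_eq_one 0 t (Or.inl rfl), sub_self, mul_zero, invPath_zero, mul_one]
        exact commute_invPath ((flipData p q).fP_L_SQ y hy) _
      s1 := fun t x hx => by
        rw [Set.Icc.coe_one, p1Par_add_p2Par _ _ (Or.inr rfl), sub_self, mul_zero, invPath_zero, one_mul]
        exact commute_invPath ((flipData p q).fQ_L_SP x hx) _
      t0 := fun s y hy => by
        rw [sigPar_eq_one s 0 (Or.inr rfl), sub_self, mul_zero, invPath_zero, mul_one]
        exact commute_invPath ((flipData p q).fP_Rt_SQ y hy) _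
      t1 := fun s x hx => by
        rw [Set.Icc.coe_one, p1Par_add_p2Par _ _ (Or.inl rfl), sub_self, mul_zero, invPath_zero, one_mul]
        exact commute_invPath ((flipData p q).fQ_Rt_SP x hx) _ }

theorem invPath_neg_one {R : Type*} [CStarAlgebra R] {u : R} (hu : IsSelfAdjoint u) :
    invPath u (-1) = u := by
  rw [← star_invPath hu, invPath_one, hu.star_eq]

theorem flipW_one {M R : Type*} [CStarAlgebra M] [CStarAlgebra R] (D : FlipData M R) (a b c : ℝ) :
    D.flipW 1 1 1 a b c = invPath D.fP (a + c - 1) * invPath D.fQ (b - 1) := by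
  have e1 : invPath D.fQ b * invPath D.fP c = invPath D.fP c * invPath D.fQ b :=
    ((commute_invPath (commute_invPath D.fP_fQ c).symm b)).eq
  have e2 : invPath D.fQ b * D.fP = D.fP * invPath D.fQ b :=
    (commute_invPath D.fP_fQ.symm b).eq
  simp only [FlipData.flipW, FlipData.flip, star_one, map_one, mul_one, one_mul, sub_eq_add_neg,
    ← invPath_mul D.fP_sq, ← invPath_mul D.fQ_sq, invPath_neg_one D.fP_sa, invPath_neg_one D.fQ_sa]
  simp only [mul_assoc]
  rw [← mul_assoc (invPath D.fQ b), e1, mul_assoc, ← mul_assoc (invPath D.fQ b) D.fP, e2, mul_assoc]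

theorem shrink_zero (v : C(I, MM p q)) (hv : ∀ t, v t ∈ unitary (MM p q)) (h0 : v 0 = 1) (s t : I) :
    (shrink v hv h0).F 0 s t = (straighten p q).F 1 s t := by
  show (flipData p q).squareW (fun u => v (0 * u)) s t =
      invPath _ (((1 : I) : ℝ) * _) * invPath _ (((1 : I) : ℝ) * _)
  simp only [FlipData.squareW, zero_mul, h0, flipW_one]
  simp

theorem straighten_zero (s t : I) : (straighten p q).F 0 s t = 1 := by
  show invPath _ (((0 : I) : ℝ) * _) * invPath _ (((0 : I) : ℝ) * _) = 1
  simp [invPath_zero]

theorem shrink_one (v : C(I, MM p q)) (hv : ∀ t, v t ∈ unitary (MM p q)) (h0 : v 0 = 1) (s t : I) :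
    (shrink v hv h0).F 1 s t = (flipData p q).squareW (fun u => v u) s t := by
  show (flipData p q).squareW (fun u => v (1 * u)) s t = _
  simp only [one_mul]

/-- **The half flip, in the component of the identity.** -/
theorem exists_halfFlip_joined [PartialOrder (Drop.dropAlg p q ℂ)]
    [StarOrderedRing (Drop.dropAlg p q ℂ)]
    (v : C(I, MM p q)) (hv : ∀ t, v t ∈ unitary (MM p q)) (h0 : v 0 = 1) :
    ∃ W : unitary (Drop.dropAlg p q (Drop.dropAlg p q ℂ)), W ∈ pathComponent 1 ∧
      ∀ (f : Drop.dropAlg p q ℂ) (ε : ℝ),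
        (∀ t, ‖(f : C(I, MM p q)) t - v t * (f : C(I, MM p q)) 0 * star (v t)‖ ≤ ε) →
          ‖star (W : Drop.dropAlg p q (Drop.dropAlg p q ℂ)) *
              Drop.tensor f (1 : Drop.dropAlg p q ℂ) * (W : Drop.dropAlg p q (Drop.dropAlg p q ℂ)) -
            Drop.tensor (1 : Drop.dropAlg p q ℂ) f‖ ≤ 6 * ε := by
  refine ⟨(shrink v hv h0).unit 1, ?_, fun f ε hf => ?_⟩
  · exact Family.exists_of_joined (shrink v hv h0) (straighten p q) straighten_zero
      (shrink_zero v hv h0)
  · have h := Family.norm_conj_elem (shrink v hv h0) 1 f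
      (c := 6 * ε) (mul_nonneg (by norm_num) (le_trans (norm_nonneg _) (hf 0))) fun s t => by
        rw [shrink_one]
        exact (flipData p q).norm_squareW_conj hv (f := fun t => (f : C(I, MM p q)) t)
          f.2.1 f.2.2 hf s t
    exact h

end Vale.Agent.P095.NU.HalfFlipPath
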