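import Mathlib

/-!
# P095: one-sided intertwining inside an ideal, by almost invariant unitaries of the ambient algebra

The limit is an isomorphism onto the ideal conjugating the actions up to a cocycle with values in
the unitary group of the multiplier algebra of the ideal.
-/

open Filter Topology
open scoped ComplexOrder

noncomputable section

namespace Vale.Agent.P095.NU.Intertwine

variable {S : Type*} [CStarAlgebra S]

/-- Products of a bounded sequence with a convergent one. -/
theorem tendsto_mul_of_bounded {V y : ℕ → S} {z L : S} (hV : ∀ n, ‖V n‖ ≤ 1)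
    (hy : Tendsto y atTop (𝓝 z)) (hL : Tendsto (fun n => V n * z) atTop (𝓝 L)) :
    Tendsto (fun n => V n * y n) atTop (𝓝 L) := by
  have h0 : Tendsto (fun n => V n * (y n - z)) atTop (𝓝 0) := by
    refine squeeze_zero_norm (fun n => ?_) (tendsto_iff_norm_sub_tendsto_zero.1 hy)
    exact (norm_mul_le _ _).trans (mul_le_of_le_one_left (norm_nonneg _) (hV n))
  simpa [mul_sub] using h0.add hL

/-- The same with the bounded sequence on the right. -/
theorem tendsto_bounded_mul {V y : ℕ → S} {z L : S} (hV : ∀ n, ‖V n‖ ≤ 1)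
    (hy : Tendsto y atTop (𝓝 z)) (hL : Tendsto (fun n => z * V n) atTop (𝓝 L)) :
    Tendsto (fun n => y n * V n) atTop (𝓝 L) := by
  have h0 : Tendsto (fun n => (y n - z) * V n) atTop (𝓝 0) := by
    refine squeeze_zero_norm (fun n => ?_) (tendsto_iff_norm_sub_tendsto_zero.1 hy)
    exact (norm_mul_le _ _).trans (mul_le_of_le_one_right (norm_nonneg _) (hV n))
  simpa [sub_mul] using h0.add hL

theorem norm_unitary_le (u : unitary S) : ‖(u : S)‖ ≤ 1 := by
  rcases subsingleton_or_nontrivial S with h | h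
  · rw [Subsingleton.elim (u : S) 0, norm_zero]; exact zero_le_one
  · exact (CStarRing.norm_coe_unitary u).le

/-- A double centralizer is determined by its action from the left. -/
theorem ext_fst {B : Type*} [NonUnitalCStarAlgebra B] {a b : DoubleCentralizer ℂ B}
    (h : a.fst = b.fst) : a = b := by
  refine DoubleCentralizer.ext ℂ B _ _ (Prod.ext h (ContinuousLinearMap.ext fun x => ?_))
  have hz : ∀ y, (a.snd x - b.snd x) * y = 0 := fun y => by
    rw [sub_mul, a.central, b.central]
    show x * a.fst y - x * b.fst y = 0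
    rw [h, sub_self]
  have := hz (star (a.snd x - b.snd x))
  rw [CStarRing.mul_star_self_eq_zero_iff] at this
  exact sub_eq_zero.1 this

variable (Bs : NonUnitalStarSubalgebra ℂ S) [IsClosed (Bs : Set S)]
  (hBl : ∀ (m : S) (b : S), b ∈ Bs → m * b ∈ Bs) (hBr : ∀ (m : S) (b : S), b ∈ Bs → b * m ∈ Bs)

include hBl hBr in
/-- A sequence of contractions converging strictly on `B` gives a double centralizer of `B`. -/
theorem exists_multiplier (V : ℕ → S) (hV : ∀ n, ‖V n‖ ≤ 1)
    (hl : ∀ b ∈ Bs, CauchySeq fun n => V n * b) (hr : ∀ b ∈ Bs, CauchySeq fun n => b * V n) :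
    ∃ w : DoubleCentralizer ℂ Bs, ∀ b : Bs,
      Tendsto (fun n => V n * (b : S)) atTop (𝓝 ((w.fst b : Bs) : S)) ∧
        Tendsto (fun n => (b : S) * V n) atTop (𝓝 ((w.snd b : Bs) : S)) := by
  have hc : IsClosed (Bs : Set S) := inferInstance
  choose L hL using fun b : Bs => cauchySeq_tendsto_of_complete (hl b b.2)
  choose R hR using fun b : Bs => cauchySeq_tendsto_of_complete (hr b b.2)
  have hLm : ∀ b, L b ∈ Bs := fun b =>
    hc.mem_of_tendsto (hL b) (Eventually.of_forall fun n => hBl _ _ b.2)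
  have hRm : ∀ b, R b ∈ Bs := fun b =>
    hc.mem_of_tendsto (hR b) (Eventually.of_forall fun n => hBr _ _ b.2)
  let Ll : Bs →ₗ[ℂ] Bs :=
    { toFun := fun b => ⟨L b, hLm b⟩
      map_add' := fun a b => Subtype.ext (tendsto_nhds_unique (hL (a + b))
        (((hL a).add (hL b)).congr fun n => (mul_add _ _ _).symm))
      map_smul' := fun c a => Subtype.ext (tendsto_nhds_unique (hL (c • a))
        (((hL a).const_smul c).congr fun n => (mul_smul_comm c _ _).symm)) }
  let Rl : Bs →ₗ[ℂ] Bs :=
    { toFun := fun b => ⟨R b, hRm b⟩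
      map_add' := fun a b => Subtype.ext (tendsto_nhds_unique (hR (a + b))
        (((hR a).add (hR b)).congr fun n => (add_mul _ _ _).symm))
      map_smul' := fun c a => Subtype.ext (tendsto_nhds_unique (hR (c • a))
        (((hR a).const_smul c).congr fun n => (smul_mul_assoc c _ _).symm)) }
  have hLn : ∀ b, ‖Ll b‖ ≤ 1 * ‖b‖ := fun b => by
    rw [one_mul]
    exact le_of_tendsto (hL b).norm (Eventually.of_forall fun n =>
      (norm_mul_le _ _).trans (mul_le_of_le_one_left (norm_nonneg _) (hV n)))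
  have hRn : ∀ b, ‖Rl b‖ ≤ 1 * ‖b‖ := fun b => by
    rw [one_mul]
    exact le_of_tendsto (hR b).norm (Eventually.of_forall fun n =>
      (norm_mul_le _ _).trans (mul_le_of_le_one_right (norm_nonneg _) (hV n)))
  refine ⟨⟨(Ll.mkContinuous 1 hLn, Rl.mkContinuous 1 hRn), fun x y => ?_⟩, fun b => ⟨hL b, hR b⟩⟩
  exact Subtype.ext (tendsto_nhds_unique ((hR x).mul_const (y : S))
    (((hL y).const_mul (x : S)).congr fun n => (mul_assoc _ _ _).symm))

variable {G : Type*} {A : Type*} [NonUnitalCStarAlgebra A]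

/-- Almost invariant, almost commuting unitaries of `S` move any element of `B` close to the range
of `ι`. -/
def CanIntertwine (ι : A →⋆ₙₐ[ℂ] S) (τ : G → S ≃⋆ₐ[ℂ] S) : Prop :=
  ∀ (F : Finset A) (D : Finset S), (↑D : Set S) ⊆ Bs → ∀ (K : Finset G), ∀ ε > (0 : ℝ),
    ∃ u : unitary S, (∀ a ∈ F, ‖(u : S) * ι a - ι a * u‖ < ε) ∧
      (∀ b ∈ D, ∃ a : A, ‖(star u : S) * b * u - ι a‖ < ε) ∧
      ∀ k ∈ K, ∀ b ∈ D, ‖star b * (τ k (u : S) - (u : S))‖ < ε

variable [Group G]

include hBl hBr in
/-- **Equivariant one-sided intertwining with a multiplier cocycle.** -/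
theorem exists_cocycle_equiv [Countable G] [TopologicalSpace.SeparableSpace A]
    [TopologicalSpace.SeparableSpace Bs] (ι : A →⋆ₙₐ[ℂ] S) (hι : ∀ a, ‖ι a‖ = ‖a‖)
    (hιB : ∀ a, ι a ∈ Bs) (α : G → A ≃⋆ₐ[ℂ] A) (τ : G → S ≃⋆ₐ[ℂ] S)
    (hmul : ∀ g h s, τ (g * h) s = τ g (τ h s)) (heq : ∀ g a, τ g (ι a) = ι (α g a))
    (β : G → Bs ≃⋆ₐ[ℂ] Bs) (hβ : ∀ g b, ((β g b : Bs) : S) = τ g (b : S))
    (h : CanIntertwine Bs ι τ) :
    ∃ (Φ : A ≃⋆ₐ[ℂ] Bs) (w : G → DoubleCentralizer ℂ Bs),
      (∀ g, w g ∈ unitary (DoubleCentralizer ℂ Bs)) ∧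
      (∀ g k x, (w (g * k)).fst (β g x) = (w g).fst (β g ((w k).fst x))) ∧
      ∀ g a, ((Φ (α g a) : Bs) : DoubleCentralizer ℂ Bs) =
        w g * ((β g (Φ a) : Bs) : DoubleCentralizer ℂ Bs) * star (w g) := by
  classical
  obtain ⟨x, hx⟩ := TopologicalSpace.exists_dense_seq A
  obtain ⟨y, hy⟩ := TopologicalSpace.exists_dense_seq Bs
  obtain ⟨enum, henum⟩ := exists_surjective_nat G
  have hcl : IsClosed (Bs : Set S) := inferInstance
  have hτB : ∀ g b, b ∈ Bs → τ g b ∈ Bs := fun g b hb => hβ g ⟨b, hb⟩ ▸ (β g ⟨b, hb⟩).2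
  have step : ∀ (n : ℕ) (s : unitary S × Finset A), ∃ s' : unitary S × Finset A,
      s.2 ⊆ s'.2 ∧ x n ∈ s'.2 ∧
        (∀ a ∈ s.2, ‖(s'.1 : S) * ι a * star (s'.1 : S) - (s.1 : S) * ι a * star (s.1 : S)‖ ≤
          (1 / 2 : ℝ) ^ n) ∧
        (∀ i ≤ n, ∃ a ∈ s'.2,
          ‖(y i : S) - (s'.1 : S) * ι a * star (s'.1 : S)‖ ≤ (1 / 2 : ℝ) ^ n) ∧
        ∀ i ≤ n, ∀ j ≤ n,
          ‖((s'.1 : S) * τ (enum i) (star (s'.1 : S))) * (y j : S) -
            ((s.1 : S) * τ (enum i) (star (s.1 : S))) * (y j : S)‖ ≤ (1 / 2 : ℝ) ^ n ∧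
          ‖(y j : S) * ((s'.1 : S) * τ (enum i) (star (s'.1 : S))) -
            (y j : S) * ((s.1 : S) * τ (enum i) (star (s.1 : S)))‖ ≤ (1 / 2 : ℝ) ^ n := by
    rintro n ⟨v, F⟩
    set r := Finset.range (n + 1)
    set D : Finset S := (r.image fun i => star (v : S) * y i * v) ∪
      ((r ×ˢ r).image fun p => τ (enum p.1) (star (v : S)) * y p.2) ∪
      r.image fun j => star ((y j : S) * v) with hD
    have hDB : (↑D : Set S) ⊆ Bs := by
      intro b hb
      simp only [hD, Finset.coe_union, Finset.coe_image, Set.mem_union, Set.mem_image] at hb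
      rcases hb with (⟨i, -, rfl⟩ | ⟨p, -, rfl⟩) | ⟨j, -, rfl⟩
      · exact hBr _ _ (hBl _ _ (y i).2)
      · exact hBl _ _ (y p.2).2
      · exact star_mem (hBr _ _ (y j).2)
    obtain ⟨u, hu, hG, hK⟩ := h F D hDB (r.image enum) ((1 / 2 : ℝ) ^ n) (by positivity)
    have hmem : ∀ i, i ≤ n → i ∈ r := fun i hi => Finset.mem_range.2 (Nat.lt_succ_of_le hi)
    have hG' : ∀ i : Fin (n + 1), ∃ a : A,
        ‖(star u : S) * (star (v : S) * y i * v) * u - ι a‖ < (1 / 2 : ℝ) ^ n := fun i =>
      hG _ (Finset.mem_union_left _ (Finset.mem_union_left _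
        (Finset.mem_image.2 ⟨i, hmem i (Nat.le_of_lt_succ i.2), rfl⟩)))
    choose a ha using hG'
    refine ⟨⟨v * u, insert (x n) F ∪ Finset.univ.image a⟩,
      fun b hb => Finset.mem_union_left _ (Finset.mem_insert_of_mem hb),
      Finset.mem_union_left _ (Finset.mem_insert_self _ _), fun b hb => ?_, fun i hi => ?_,
      fun i hi j hj => ?_⟩
    · have e : ((v * u : unitary S) : S) * ι b * star ((v * u : unitary S) : S) -
          (v : S) * ι b * star (v : S) =
            (v : S) * (((u : S) * ι b - ι b * u) * star (u : S)) * ((star v : unitary S) : S) := by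
        simp only [Submonoid.coe_mul, star_mul, Unitary.coe_star, sub_mul, mul_sub, mul_assoc]
        rw [← mul_assoc (u : S) (star (u : S)), Unitary.mul_star_self_of_mem u.2, one_mul]
      rw [e, CStarRing.norm_mul_coe_unitary, CStarRing.norm_coe_unitary_mul,
        show star (u : S) = ((star u : unitary S) : S) from rfl,
        CStarRing.norm_mul_coe_unitary]
      exact (hu b hb).le
    · refine ⟨a ⟨i, by omega⟩,
        Finset.mem_union_right _ (Finset.mem_image_of_mem _ (Finset.mem_univ _)), ?_⟩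
      have h1 : ((v * u : unitary S) : S) * ((star (v * u) : unitary S) : S) = 1 :=
        Unitary.mul_star_self_of_mem (v * u).2
      have e1 : (star u : S) * (star (v : S) * y i * v) * u =
          ((star (v * u) : unitary S) : S) * y i * ((v * u : unitary S) : S) := by
        simp [mul_assoc]
      have e : (y i : S) - ((v * u : unitary S) : S) * ι (a ⟨i, by omega⟩) *
          star ((v * u : unitary S) : S) = ((v * u : unitary S) : S) *
            ((star u : S) * (star (v : S) * y i * v) * u - ι (a ⟨i, by omega⟩)) *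
              ((star (v * u) : unitary S) : S) := by
        rw [e1, show star ((v * u : unitary S) : S) = ((star (v * u) : unitary S) : S) from rfl,
          mul_sub, sub_mul, ← mul_assoc, ← mul_assoc, h1, one_mul, mul_assoc (y i : S), h1, mul_one]
      rw [e, CStarRing.norm_mul_coe_unitary, CStarRing.norm_coe_unitary_mul]
      exact (ha ⟨i, by omega⟩).le
    · set k := enum i
      set d := τ k (u : S) - (u : S) with hd
      have hku : τ k (u : S) ∈ unitary S := Unitary.map_mem (τ k) u.2
      have hkv : τ k (star (v : S)) ∈ unitary S := Unitary.map_mem (τ k) (Unitary.star_mem v.2)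
      have hk : k ∈ r.image enum := Finset.mem_image_of_mem _ (hmem i hi)
      have b1 := (hK k hk _ (Finset.mem_union_left _ (Finset.mem_union_right _
        (Finset.mem_image.2 ⟨(i, j), Finset.mem_product.2 ⟨hmem i hi, hmem j hj⟩, rfl⟩)))).le
      have b2 := (hK k hk _ (Finset.mem_union_right _
        (Finset.mem_image_of_mem _ (hmem j hj)))).le
      rw [← hd] at b1 b2
      rw [star_star] at b2
      constructor
      · set c := τ k (star (v : S)) * (y j : S)
        have e : ((v * u : unitary S) : S) * τ k (star ((v * u : unitary S) : S)) * y j -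
            (v : S) * τ k (star (v : S)) * y j = (v : S) * ((u : S) * (star d * c)) := by
          simp only [c, hd, Submonoid.coe_mul, star_mul, map_mul, map_star, star_sub, sub_mul,
            mul_sub, mul_assoc]
          rw [← mul_assoc (u : S) (star (u : S)), Unitary.mul_star_self_of_mem u.2, one_mul]
        rw [e, CStarRing.norm_coe_unitary_mul, CStarRing.norm_coe_unitary_mul, ← norm_star,
          star_mul, star_star]
        exact b1
      · have e : (y j : S) * (((v * u : unitary S) : S) * τ k (star ((v * u : unitary S) : S))) -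
            (y j : S) * ((v : S) * τ k (star (v : S))) =
              -((y j : S) * (v : S) * d * star (τ k (u : S))) * τ k (star (v : S)) := by
          simp only [hd, Submonoid.coe_mul, star_mul, map_mul, map_star, sub_mul, mul_sub,
            neg_sub, mul_assoc]
          rw [← mul_assoc (τ k (u : S)) (star (τ k (u : S))), Unitary.mul_star_self_of_mem hku,
            one_mul]
        rw [e, CStarRing.norm_mul_mem_unitary _ hkv, norm_neg,
          CStarRing.norm_mul_mem_unitary _ (Unitary.star_mem hku)]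
        exact b2
  choose next hsub hx' hC hD hW using step
  obtain ⟨s, hs0, hs⟩ : ∃ s : ℕ → unitary S × Finset A, s 0 = (1, ∅) ∧
      ∀ n, s (n + 1) = next n (s n) := ⟨fun n => Nat.rec (1, ∅) next n, rfl, fun _ => rfl⟩
  obtain ⟨f, hf⟩ : ∃ f : ℕ → A → S, ∀ n a, f n a =
      ((s n).1 : S) * ι a * star ((s n).1 : S) := ⟨_, fun _ _ => rfl⟩
  have hmono : Monotone fun n => (s n).2 :=
    monotone_nat_of_le_succ fun n => by rw [hs]; exact hsub n _
  have hstep : ∀ n, ∀ a ∈ (s n).2, dist (f n a) (f (n + 1) a) ≤ (1 / 2 : ℝ) ^ n := by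
    intro n a ha
    rw [dist_comm, dist_eq_norm, hf, hf, hs]
    exact hC n _ a ha
  have hiso : ∀ n a b, dist (f n a) (f n b) = dist a b := by
    intro n a b
    rw [dist_eq_norm, dist_eq_norm, hf, hf,
      show star ((s n).1 : S) = ((star (s n).1 : unitary S) : S) from rfl, ← sub_mul, ← mul_sub,
      CStarRing.norm_mul_coe_unitary, CStarRing.norm_coe_unitary_mul, ← map_sub, hι]
  have hcauchy : ∀ a, CauchySeq fun n => f n a := by
    intro a
    refine Metric.cauchySeq_iff'.2 fun ε hε => ?_
    obtain ⟨i, hi⟩ := hx.exists_dist_lt a (show (0 : ℝ) < ε / 4 by positivity)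
    have hc : CauchySeq fun k => f (k + (i + 1)) (x i) :=
      cauchySeq_of_le_geometric (1 / 2 : ℝ) ((1 / 2 : ℝ) ^ (i + 1)) (by norm_num) fun k => by
        rw [← pow_add, add_comm (i + 1) k, show k + 1 + (i + 1) = k + (i + 1) + 1 by omega]
        refine hstep _ _ (hmono (show i + 1 ≤ k + (i + 1) by omega) ?_)
        show x i ∈ (s (i + 1)).2
        rw [hs]
        exact hx' i _
    obtain ⟨N, hN⟩ := Metric.cauchySeq_iff'.1 hc (ε / 4) (by positivity)
    refine ⟨N + (i + 1), fun n hn => ?_⟩
    have h2 := hN (n - (i + 1)) (by omega)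
    rw [show n - (i + 1) + (i + 1) = n by omega] at h2
    have h3 := dist_triangle4 (f n a) (f n (x i)) (f (N + (i + 1)) (x i)) (f (N + (i + 1)) a)
    rw [hiso, hiso (N + (i + 1)), dist_comm (x i) a] at h3
    linarith
  choose θ hθ using fun a => cauchySeq_tendsto_of_complete (hcauchy a)
  have hu : ∀ n, star ((s n).1 : S) * (s n).1 = 1 := fun n => Unitary.star_mul_self_of_mem (s n).1.2
  have hfB : ∀ n a, f n a ∈ Bs := fun n a => by rw [hf]; exact hBr _ _ (hBl _ _ (hιB a))
  have hθB : ∀ a, θ a ∈ Bs := fun a =>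
    hcl.mem_of_tendsto (hθ a) (Eventually.of_forall fun n => hfB n a)
  let Θ : A →⋆ₙₐ[ℂ] Bs :=
    { toFun := fun a => ⟨θ a, hθB a⟩
      map_mul' := fun a b => Subtype.ext (tendsto_nhds_unique (hθ _)
        (((hθ a).mul (hθ b)).congr fun n => by
          rw [hf, hf, hf, map_mul]
          simp only [mul_assoc]
          rw [← mul_assoc (star ((s n).1 : S)) ((s n).1 : S), hu, one_mul]))
      map_zero' := Subtype.ext (tendsto_nhds_unique (hθ 0) (by simp [hf]))
      map_add' := fun a b => Subtype.ext (tendsto_nhds_unique (hθ _)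
        (((hθ a).add (hθ b)).congr fun n => by simp [hf, mul_add, add_mul]))
      map_smul' := fun c a => Subtype.ext (tendsto_nhds_unique (hθ _)
        (((hθ a).const_smul c).congr fun n => by simp [hf, map_smul]))
      map_star' := fun a => Subtype.ext (tendsto_nhds_unique (hθ _) ((hθ a).star.congr fun n => by
        simp [hf, map_star, mul_assoc])) }
  have hΘ : Isometry Θ := Isometry.of_dist_eq fun a b =>
    tendsto_nhds_unique ((hθ a).dist (hθ b)) (by simp [hiso])
  have hsurj : Function.Surjective Θ := by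
    rw [← Set.range_eq_univ, ← hΘ.isClosedEmbedding.isClosed_range.closure_eq,
      ← dense_iff_closure_eq]
    refine fun b => Metric.mem_closure_iff.2 fun ε hε => ?_
    obtain ⟨i, hi⟩ := hy.exists_dist_lt b (show (0 : ℝ) < ε / 2 by positivity)
    obtain ⟨n, hn⟩ := exists_pow_lt_of_lt_one (show (0 : ℝ) < ε / 4 by positivity)
      (show (1 / 2 : ℝ) < 1 by norm_num)
    obtain ⟨a, ha, hb⟩ := hD (n + i) (s (n + i)) i (by omega)
    rw [← hs] at ha hb
    have h1 : dist (y i : S) (f (n + i + 1) a) ≤ (1 / 2 : ℝ) ^ (n + i) := by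
      rw [dist_eq_norm, hf]; exact hb
    have h2 : dist (f (n + i + 1) a) (θ a) ≤ (1 / 2 : ℝ) ^ (n + i + 1) / (1 - 1 / 2) := by
      have := dist_le_of_le_geometric_of_tendsto₀ (1 / 2 : ℝ) ((1 / 2 : ℝ) ^ (n + i + 1))
        (by norm_num) (fun k => ?_) ((tendsto_add_atTop_iff_nat (n + i + 1)).2 (hθ a))
      · simpa using this
      rw [← pow_add, add_comm (n + i + 1) k,
        show k + 1 + (n + i + 1) = k + (n + i + 1) + 1 by omega]
      exact hstep _ _ (hmono (show n + i + 1 ≤ k + (n + i + 1) by omega) ha)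
    refine ⟨Θ a, ⟨a, rfl⟩, ?_⟩
    have hp : (1 / 2 : ℝ) ^ (n + i) ≤ (1 / 2 : ℝ) ^ n :=
      pow_le_pow_of_le_one (by norm_num) (by norm_num) (by omega)
    rw [pow_succ] at h2
    norm_num at h2
    show dist (b : S) (θ a) < ε
    have hi' : dist (b : S) (y i : S) < ε / 2 := hi
    have := dist_triangle4 (b : S) (y i : S) (f (n + i + 1) a) (θ a)
    linarith
  -- the cocycle
  obtain ⟨W, hW'⟩ : ∃ W : ℕ → G → S, ∀ n g, W n g =
      ((s n).1 : S) * τ g (star ((s n).1 : S)) := ⟨_, fun _ _ => rfl⟩
  have hWu : ∀ n g, W n g ∈ unitary S := fun n g => by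
    rw [hW']
    exact mul_mem (s n).1.2 (Unitary.map_mem (τ g) (Unitary.star_mem (s n).1.2))
  have hWn : ∀ n g, ‖W n g‖ ≤ 1 := fun n g => norm_unitary_le ⟨_, hWu n g⟩
  have hWn' : ∀ n g, ‖star (W n g)‖ ≤ 1 := fun n g => by rw [norm_star]; exact hWn n g
  have hgen : ∀ T : ℕ → S →+ S, (∀ n z, ‖T n z‖ ≤ ‖z‖) →
      (∀ j, ∃ i, CauchySeq fun k => T (k + i) (y j : S)) →
      ∀ b ∈ Bs, CauchySeq fun n => T n b := by
    intro T hT hyT b hb
    refine Metric.cauchySeq_iff'.2 fun ε hε => ?_
    obtain ⟨j, hj⟩ := hy.exists_dist_lt ⟨b, hb⟩ (show (0 : ℝ) < ε / 4 by positivity)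
    obtain ⟨i, hi⟩ := hyT j
    obtain ⟨N, hN⟩ := Metric.cauchySeq_iff'.1 hi (ε / 4) (by positivity)
    refine ⟨N + i, fun n hn => ?_⟩
    have h2 := hN (n - i) (by omega)
    rw [show n - i + i = n by omega] at h2
    have hd : ∀ m, dist (T m b) (T m (y j : S)) < ε / 4 := fun m => by
      rw [dist_eq_norm, ← map_sub]
      refine (hT m _).trans_lt ?_
      have hj' : dist b (y j : S) < ε / 4 := hj
      rwa [dist_eq_norm] at hj'
    have h3 := dist_triangle4 (T n b) (T n (y j : S)) (T (N + i) (y j : S)) (T (N + i) b)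
    have h4 := hd n
    have h5 := hd (N + i)
    rw [dist_comm] at h5
    linarith
  have hWl : ∀ g, ∀ b ∈ Bs, CauchySeq fun n => W n g * b := fun g =>
    hgen (fun n => AddMonoidHom.mulLeft (W n g))
      (fun n z => (norm_mul_le _ _).trans (mul_le_of_le_one_left (norm_nonneg _) (hWn n g)))
      fun j => by
        obtain ⟨e, rfl⟩ := henum g
        refine ⟨e + j, cauchySeq_of_le_geometric (1 / 2 : ℝ) ((1 / 2 : ℝ) ^ (e + j)) (by norm_num)
          fun k => ?_⟩
        rw [← pow_add, show k + 1 + (e + j) = k + (e + j) + 1 by omega, add_comm (e + j) k,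
          dist_comm, dist_eq_norm]
        simp only [AddMonoidHom.coe_mulLeft, hW', hs]
        exact (hW (k + (e + j)) _ e (by omega) j (by omega)).1
  have hWr : ∀ g, ∀ b ∈ Bs, CauchySeq fun n => b * W n g := fun g =>
    hgen (fun n => AddMonoidHom.mulRight (W n g))
      (fun n z => (norm_mul_le _ _).trans (mul_le_of_le_one_right (norm_nonneg _) (hWn n g)))
      fun j => by
        obtain ⟨e, rfl⟩ := henum g
        refine ⟨e + j, cauchySeq_of_le_geometric (1 / 2 : ℝ) ((1 / 2 : ℝ) ^ (e + j)) (by norm_num)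
          fun k => ?_⟩
        rw [← pow_add, show k + 1 + (e + j) = k + (e + j) + 1 by omega, add_comm (e + j) k,
          dist_comm, dist_eq_norm]
        simp only [AddMonoidHom.coe_mulRight, hW', hs]
        exact (hW (k + (e + j)) _ e (by omega) j (by omega)).2
  choose w hw using fun g => exists_multiplier Bs hBl hBr (fun n => W n g) (fun n => hWn n g)
    (hWl g) (hWr g)
  have hstar : ∀ g (b : Bs), Tendsto (fun n => star (W n g) * (b : S)) atTop
      (𝓝 (((star (w g)).fst b : Bs) : S)) := fun g b => by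
    rw [DoubleCentralizer.star_fst]
    exact ((hw g (star b)).2.star).congr fun n => by
      show star (star (b : S) * W n g) = _
      rw [star_mul, star_star]
  have hcont : ∀ g, Continuous (τ g) := fun g => (StarAlgEquiv.isometry (τ g)).continuous
  have hWm : ∀ n g k, W n (g * k) = W n g * τ g (W n k) := fun n g k => by
    simp only [hW', hmul, map_mul, mul_assoc]
    rw [← mul_assoc (τ g (star ((s n).1 : S))), ← map_mul, hu, map_one, one_mul]
  have hWf : ∀ n g a, f n (α g a) = W n g * τ g (f n a) * star (W n g) := fun n g a => by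
    have h1 : τ g (star ((s n).1 : S)) * τ g ((s n).1 : S) = 1 := by rw [← map_mul, hu, map_one]
    simp only [hW', hf, star_mul, ← map_star, star_star, map_mul, ← heq, mul_assoc]
    rw [← mul_assoc (τ g (star ((s n).1 : S))) (τ g ((s n).1 : S)), h1, one_mul,
      ← mul_assoc (τ g (star ((s n).1 : S))) (τ g ((s n).1 : S)), h1, one_mul]
  refine ⟨StarAlgEquiv.ofBijective Θ ⟨hΘ.injective, hsurj⟩, w, fun g => ?_, fun g k b => ?_,
    fun g a => ext_fst (ContinuousLinearMap.ext fun b => ?_)⟩
  · refine Unitary.mem_iff.2 ⟨ext_fst (ContinuousLinearMap.ext fun b => ?_),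
      ext_fst (ContinuousLinearMap.ext fun b => ?_)⟩
    · rw [DoubleCentralizer.mul_fst, DoubleCentralizer.one_fst]
      refine Subtype.ext (tendsto_nhds_unique
        (tendsto_mul_of_bounded (fun n => hWn' n g) (hw g b).1 (hstar g _)) ?_)
      refine tendsto_const_nhds.congr fun n => ?_
      rw [← mul_assoc, Unitary.star_mul_self_of_mem (hWu n g), one_mul]; rfl
    · rw [DoubleCentralizer.mul_fst, DoubleCentralizer.one_fst]
      refine Subtype.ext (tendsto_nhds_unique
        (tendsto_mul_of_bounded (fun n => hWn n g) (hstar g b) (hw g _).1) ?_)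
      refine tendsto_const_nhds.congr fun n => ?_
      rw [← mul_assoc, Unitary.mul_star_self_of_mem (hWu n g), one_mul]; rfl
  · refine Subtype.ext (tendsto_nhds_unique (hw (g * k) (β g b)).1 ?_)
    refine (tendsto_mul_of_bounded (y := fun n => τ g (W n k * (b : S))) (fun n => hWn n g) ?_
      (hw g (β g ((w k).fst b))).1).congr fun n => ?_
    · rw [hβ]; exact ((hcont g).tendsto _).comp (hw k b).1
    · rw [hWm, hβ, map_mul, mul_assoc]
  · rw [DoubleCentralizer.mul_fst, DoubleCentralizer.mul_fst]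
    refine Subtype.ext (tendsto_nhds_unique ((hθ (α g a)).mul_const (b : S)) ?_)
    refine (tendsto_mul_of_bounded (fun n => hWn n g)
      (y := fun n => τ g (f n a) * (star (W n g) * (b : S))) ?_
      (hw g (β g (Θ a) * (star (w g)).fst b)).1).congr fun n => ?_
    · show Tendsto _ atTop (𝓝 ((β g (Θ a) : S) * _))
      rw [hβ]
      exact (((hcont g).tendsto _).comp (hθ a)).mul (hstar g b)
    · rw [hWf]; simp only [mul_assoc]

end Vale.Agent.P095.NU.Intertwine
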