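import Mathlib

/-!
# P095: unitaries in the component of the identity lift along surjections
-/

open scoped ComplexOrder
open NormedSpace

noncomputable section

namespace Vale.Agent.P095.NU.UnitaryLift

variable {S Q D : Type*} [CStarAlgebra S] [CStarAlgebra Q] [CStarAlgebra D]

/-- An image of an exponential unitary is the exponential of the image. -/
theorem map_expUnitary (π : S →⋆ₐ[ℂ] Q) (x : selfAdjoint S) (y : selfAdjoint Q)
    (h : π (x : S) = y) : π (selfAdjoint.expUnitary x : S) = (selfAdjoint.expUnitary y : Q) := by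
  have hc : Continuous π :=
    AddMonoidHomClass.continuous_of_bound π 1 fun z => by
      simpa using NonUnitalStarAlgHom.norm_apply_le π z
  rw [selfAdjoint.expUnitary_coe, selfAdjoint.expUnitary_coe,
    map_exp_of_mem_ball (𝕂 := ℂ) π hc _
      ((expSeries_radius_eq_top ℂ S).symm ▸ edist_lt_top _ _), map_smul, h]

/-- A selfadjoint element of the image lifts to a selfadjoint element. -/
theorem exists_selfAdjoint (π : S →⋆ₐ[ℂ] Q) (hπ : Function.Surjective π) (y : selfAdjoint Q) :
    ∃ x : selfAdjoint S, π (x : S) = y := by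
  obtain ⟨z, hz⟩ := hπ y
  refine ⟨selfAdjointPart ℝ z, ?_⟩
  rw [selfAdjointPart_apply_coe, ← Complex.coe_smul, map_smul, map_add, map_star, hz, y.2.star_eq,
    ← two_smul ℂ, smul_smul]
  simp

/-- **Lifting.** The image of a unitary in the component of the identity lifts to a unitary. -/
theorem exists_lift (π : S →⋆ₐ[ℂ] Q) (hπ : Function.Surjective π) (μ : D →⋆ₐ[ℂ] Q)
    {W : unitary D} (hW : W ∈ pathComponent 1) : ∃ v : unitary S, π (v : S) = μ (W : D) := by
  obtain ⟨l, rfl⟩ := Unitary.mem_pathComponentOne_iff.1 hW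
  induction l with
  | nil => exact ⟨1, by simp⟩
  | cons y l ih =>
    obtain ⟨v, hv⟩ := ih (Unitary.mem_pathComponentOne_iff.2 ⟨l, rfl⟩)
    obtain ⟨x, hx⟩ := exists_selfAdjoint π hπ
      ⟨μ (y : D), by rw [selfAdjoint.mem_iff, ← map_star, y.2.star_eq]⟩
    refine ⟨selfAdjoint.expUnitary x * v, ?_⟩
    simp only [List.map_cons, List.prod_cons, Submonoid.coe_mul, map_mul, hv]
    congr 1
    exact (map_expUnitary π x _ hx).trans (map_expUnitary μ y _ rfl).symm

end Vale.Agent.P095.NU.UnitaryLift
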