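import Vale.Agent.P095.NU.FA
import Vale.Agent.P095.NU.UnitaryLift

/-!
# P095: tools for relative central sequence algebras

Norm criterion, functoriality, constant classes and unitary lifting.
-/

open Filter Topology
open scoped ComplexOrder

set_option maxSynthPendingDepth 3

noncomputable section

namespace Vale.Agent.P095.NU.SeqTools

open P101.SeqAlg (SQ bseq toSQ)

section Factor

variable {X Y W : Type*} [Ring X] [StarRing X] [Algebra ℂ X] [Ring Y] [StarRing Y] [Algebra ℂ Y]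
  [Ring W] [StarRing W] [Algebra ℂ W]

/-- Factoring through a surjection. -/
def factor (π : X →⋆ₐ[ℂ] Y) (hπ : Function.Surjective π) (f : X →⋆ₐ[ℂ] W)
    (hker : ∀ x, π x = 0 → f x = 0) : Y →⋆ₐ[ℂ] W :=
  have key : ∀ x x', π x = π x' → f x = f x' := fun x x' h => by
    rw [← sub_eq_zero, ← map_sub]; exact hker _ (by rw [map_sub, h, sub_self])
  have hf : ∀ x, f (hπ (π x)).choose = f x := fun x => key _ _ (hπ (π x)).choose_spec
  { toFun := fun y => f (hπ y).choose
    map_one' := by have h := hf 1; rwa [map_one π, map_one f] at h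
    map_mul' := fun a b => by
      have h := key (hπ (a * b)).choose ((hπ a).choose * (hπ b).choose) (by
        rw [map_mul, (hπ a).choose_spec, (hπ b).choose_spec, (hπ (a * b)).choose_spec])
      rwa [map_mul] at h
    map_zero' := by have h := hf 0; rwa [map_zero π, map_zero f] at h
    map_add' := fun a b => by
      have h := key (hπ (a + b)).choose ((hπ a).choose + (hπ b).choose) (by
        rw [map_add, (hπ a).choose_spec, (hπ b).choose_spec, (hπ (a + b)).choose_spec])
      rwa [map_add] at h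
    commutes' := fun c => by
      have h := hf (algebraMap ℂ X c)
      rwa [AlgHomClass.commutes π c, AlgHomClass.commutes f c] at h
    map_star' := fun a => by
      have h := key (hπ (star a)).choose (star (hπ a).choose) (by
        rw [map_star, (hπ a).choose_spec, (hπ (star a)).choose_spec])
      rwa [map_star] at h }

theorem factor_apply (π : X →⋆ₐ[ℂ] Y) (hπ : Function.Surjective π) (f : X →⋆ₐ[ℂ] W)
    (hker : ∀ x, π x = 0 → f x = 0) (x : X) : factor π hπ f hker (π x) = f x := by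
  show f (hπ (π x)).choose = f x
  rw [← sub_eq_zero, ← map_sub]
  exact hker _ (by rw [map_sub, (hπ (π x)).choose_spec, sub_self])

end Factor

variable {M : Type*} [CStarAlgebra M] {J : Set M} {ω : Ultrafilter ℕ}
  {hJs : ∀ a ∈ J, star a ∈ J}

theorem norm_const_mul_le (hJm : ∀ a ∈ J, ∀ b ∈ J, a * b ∈ J) {t : SQ M ω}
    (ht : t ∈ relComm J ω) (hJs : ∀ a ∈ J, star a ∈ J) {c : M} (hc : c ∈ J) :
    ‖P101.SeqAlg.const ω c * t‖ ≤ ‖cornerHom J ω ⟨t, ht⟩‖ * ‖c‖ := by
  set k := P101.SeqAlg.const ω c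
  set y := t * k with hy
  have hd : k * (star y * y) ∈ corner J ω := by
    refine subset_closure (NonUnitalStarAlgebra.subset_adjoin ℂ _
      ⟨c * star c, hJm c hc _ (hJs c hc), star t * t, c, hc, ?_⟩)
    simp only [hy, k, star_mul, map_mul, map_star, mul_assoc]
  have h1 : ‖y‖ ^ 3 ≤ ‖cornerHom J ω ⟨t, ht⟩‖ * ‖c‖ * ‖y‖ ^ 2 := by
    have h2 := ((cornerHom J ω ⟨t, ht⟩).fst).le_opNorm ⟨_, hd⟩
    rw [DoubleCentralizer.norm_fst] at h2
    have h3 : ‖y * (star y * y)‖ = ‖y‖ ^ 3 := by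
      have h4 : ‖y * (star y * y)‖ ^ 2 = (‖y‖ ^ 3) ^ 2 := by
        have e : star (y * (star y * y)) * (y * (star y * y)) =
            star (star y * y) * (star y * y) * (star y * y) := by
          simp only [star_mul, star_star, mul_assoc]
        have hsa : IsSelfAdjoint (star y * y) := .star_mul_self y
        rw [sq, ← CStarRing.norm_star_mul_self, e, hsa.star_eq,
          show star y * y * (star y * y) * (star y * y) = (star y * y) ^ 3 by
            simp only [pow_succ, pow_zero, one_mul, mul_assoc]]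
        set z := star y * y with hz
        have hz4 : ‖z ^ 4‖ = ‖z‖ ^ 4 := by
          rw [show z ^ 4 = (z * z) * (z * z) by simp only [pow_succ, pow_zero, one_mul, mul_assoc],
            IsSelfAdjoint.norm_mul_self (hsa.commute_iff hsa |>.1 (Commute.refl z)),
            IsSelfAdjoint.norm_mul_self hsa]
          ring
        have hz3 : ‖z ^ 3‖ = ‖z‖ ^ 3 := by
          refine le_antisymm (norm_pow_le' z (by norm_num)) ?_
          rcases (norm_nonneg z).eq_or_lt with h | h
          · rw [← h]; simp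
          · refine le_of_mul_le_mul_right ?_ h
            rw [← pow_succ, ← hz4, pow_succ z 3]
            exact norm_mul_le _ _
        rw [hz3, hz, CStarRing.norm_star_mul_self]
        ring
      exact (sq_eq_sq₀ (norm_nonneg _) (by positivity)).1 h4
    have h5 : ‖k * (star y * y)‖ ≤ ‖c‖ * ‖y‖ ^ 2 :=
      (norm_mul_le _ _).trans_eq (by rw [CStarRing.norm_star_mul_self, P101.SeqAlg.norm_const, sq])
    calc ‖y‖ ^ 3 = ‖t * (k * (star y * y))‖ := by rw [← h3, hy]; simp only [mul_assoc]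
      _ ≤ _ := h2
      _ ≤ ‖cornerHom J ω ⟨t, ht⟩‖ * (‖c‖ * ‖y‖ ^ 2) := mul_le_mul_of_nonneg_left h5 (norm_nonneg _)
      _ = _ := by ring
  rw [const_commute ht hc, ← hy]
  rcases (norm_nonneg y).eq_or_lt with h0 | h0
  · rw [← h0]; positivity
  · exact le_of_mul_le_mul_right (by nlinarith) (pow_pos h0 2)

/-- **Norm criterion.** -/
theorem eventually_norm_lt (hJm : ∀ a ∈ J, ∀ b ∈ J, a * b ∈ J) (x : relSeq J ω hJs) {c : M}
    (hc : c ∈ J) {r : ℝ} (hr : ‖toC hJs x‖ * ‖c‖ < r) :
    ∀ᶠ n in (ω : Filter ℕ), ‖c * ((x : bseq M ω) : ℕ → M) n‖ < r := by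
  let K : bseq M ω := ⟨fun _ => c, ‖c‖, fun _ => le_rfl⟩
  have h : ‖toSQ (K * (x : bseq M ω))‖ < r := by
    rw [P101.SeqAlg.toSQ_mul]
    exact (norm_const_mul_le hJm (toSQ_mem_relComm x) hJs hc).trans_lt hr
  exact (P101.SeqAlg.tendsto_norm_toSQ (K * (x : bseq M ω))).eventually (eventually_lt_nhds h)

theorem nullOn_star {l : Filter ℕ} {x : ℕ → M} (hJs : ∀ a ∈ J, star a ∈ J) (h : NullOn J l x) :
    NullOn J l fun n => star (x n) := fun c hc =>
  ⟨by simpa using ((h (star c) (hJs c hc)).2).star, by simpa using ((h (star c) (hJs c hc)).1).star⟩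

/-- The class of a constant commuting with `J`. -/
def constSeq (hJs : ∀ a ∈ J, star a ∈ J) (t : M) (ht : ∀ a ∈ J, Commute a t) :
    relSeq J ω hJs :=
  ⟨⟨fun _ => t, ‖t‖, fun _ => le_rfl⟩, fun a ha => by
    simp [(ht a ha).eq]⟩

/-- A homomorphism into the commutant of `J`, as constant classes. -/
def constHom {D : Type*} [Ring D] [StarRing D] [Algebra ℂ D] (hJs : ∀ a ∈ J, star a ∈ J)
    (f : D →⋆ₐ[ℂ] M) (hf : ∀ a ∈ J, ∀ z, Commute a (f z)) : D →⋆ₐ[ℂ] CSeq J ω :=
  (toC (ω := ω) hJs).comp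
    { toFun := fun z => constSeq hJs (f z) fun a ha => hf a ha z
      map_one' := Subtype.ext (Subtype.ext (funext fun _ => map_one f))
      map_mul' := fun a b => Subtype.ext (Subtype.ext (funext fun _ => map_mul f a b))
      map_zero' := Subtype.ext (Subtype.ext (funext fun _ => map_zero f))
      map_add' := fun a b => Subtype.ext (Subtype.ext (funext fun _ => map_add f a b))
      commutes' := fun c => Subtype.ext (Subtype.ext (funext fun _ => AlgHomClass.commutes f c))
      map_star' := fun a => Subtype.ext (Subtype.ext (funext fun _ => map_star f a)) }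

theorem constHom_apply {D : Type*} [Ring D] [StarRing D] [Algebra ℂ D]
    (hJs : ∀ a ∈ J, star a ∈ J) (f : D →⋆ₐ[ℂ] M) (hf : ∀ a ∈ J, ∀ z, Commute a (f z)) (z : D) :
    constHom (ω := ω) hJs f hf z = toC hJs (constSeq hJs (f z) fun a ha => hf a ha z) := rfl

variable {M' : Type*} [CStarAlgebra M'] {J' : Set M'} {hJs' : ∀ a ∈ J', star a ∈ J'}

/-- A homomorphism applied to the terms of a sequence. -/
def seqMap (hJs : ∀ a ∈ J, star a ∈ J) (hJs' : ∀ a ∈ J', star a ∈ J') (f : M →⋆ₐ[ℂ] M')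
    (hf : ∀ c ∈ J', ∃ a ∈ J, f a = c) : relSeq J ω hJs →⋆ₐ[ℂ] relSeq J' ω hJs' where
  toFun x := ⟨⟨fun n => f (((x : bseq M ω) : ℕ → M) n), by
      obtain ⟨C, hC⟩ := P101.SeqAlg.bseq_bdd (x : bseq M ω)
      exact ⟨C, fun n => (NonUnitalStarAlgHom.norm_apply_le f _).trans (hC n)⟩⟩, fun c hc => by
    obtain ⟨a, ha, rfl⟩ := hf c hc
    refine squeeze_zero_norm (fun n => ?_) (by simpa using (x.2 a ha).norm)
    show ‖f a * f _ - f _ * f a‖ ≤ _
    rw [← map_mul, ← map_mul, ← map_sub]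
    exact NonUnitalStarAlgHom.norm_apply_le f _⟩
  map_one' := Subtype.ext (Subtype.ext (funext fun _ => map_one f))
  map_mul' a b := Subtype.ext (Subtype.ext (funext fun _ => map_mul f _ _))
  map_zero' := Subtype.ext (Subtype.ext (funext fun _ => map_zero f))
  map_add' a b := Subtype.ext (Subtype.ext (funext fun _ => map_add f _ _))
  commutes' c := Subtype.ext (Subtype.ext (funext fun _ => AlgHomClass.commutes f c))
  map_star' a := Subtype.ext (Subtype.ext (funext fun _ => map_star f _))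

theorem seqMap_apply (f : M →⋆ₐ[ℂ] M') (hf : ∀ c ∈ J', ∃ a ∈ J, f a = c) (x : relSeq J ω hJs)
    (n : ℕ) : ((seqMap hJs hJs' f hf x : bseq M' ω) : ℕ → M') n =
      f (((x : bseq M ω) : ℕ → M) n) := rfl

/-- The map of relative central sequence algebras. -/
def mapC (hJs : ∀ a ∈ J, star a ∈ J) (hJs' : ∀ a ∈ J', star a ∈ J')
    (hJm : ∀ a ∈ J, ∀ b ∈ J, a * b ∈ J) (hJm' : ∀ a ∈ J', ∀ b ∈ J', a * b ∈ J')
    (f : M →⋆ₐ[ℂ] M') (hf : ∀ c ∈ J', ∃ a ∈ J, f a = c) : CSeq J ω →⋆ₐ[ℂ] CSeq J' ω :=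
  factor (toC hJs) (toC_surjective hJs) ((toC hJs').comp (seqMap hJs hJs' f hf)) fun x hx => by
    rw [StarAlgHom.comp_apply, toC_eq_zero_iff hJm']
    rw [toC_eq_zero_iff hJm] at hx
    intro c hc
    obtain ⟨a, ha, rfl⟩ := hf c hc
    constructor
    · refine squeeze_zero_norm (fun n => ?_) (by simpa using (hx a ha).1.norm)
      show ‖f _ * f a‖ ≤ _
      rw [← map_mul]
      exact NonUnitalStarAlgHom.norm_apply_le f _
    · refine squeeze_zero_norm (fun n => ?_) (by simpa using (hx a ha).2.norm)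
      show ‖f a * f _‖ ≤ _
      rw [← map_mul]
      exact NonUnitalStarAlgHom.norm_apply_le f _

theorem mapC_toC (hJm : ∀ a ∈ J, ∀ b ∈ J, a * b ∈ J) (hJm' : ∀ a ∈ J', ∀ b ∈ J', a * b ∈ J')
    (f : M →⋆ₐ[ℂ] M') (hf : ∀ c ∈ J', ∃ a ∈ J, f a = c) (x : relSeq J ω hJs) :
    mapC hJs hJs' hJm hJm' f hf (toC hJs x) = toC hJs' (seqMap hJs hJs' f hf x) :=
  factor_apply _ _ _ _ x

/-- **Unitary lifting.** The image of a unitary in the component of the identity is the class of a
sequence of unitaries. -/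
theorem exists_unitary_seq {D : Type*} [CStarAlgebra D] (μ : D →⋆ₐ[ℂ] CSeq J ω) {W : unitary D}
    (hW : W ∈ pathComponent 1) : ∃ (V : ℕ → unitary M) (x : relSeq J ω hJs),
      (∀ n, ((x : bseq M ω) : ℕ → M) n = (V n : M)) ∧ toC hJs x = μ (W : D) := by
  have hs : Function.Surjective (cornerHom J ω).rangeRestrict := by
    rintro ⟨_, t, rfl⟩
    exact ⟨t, rfl⟩
  obtain ⟨t, ht⟩ := UnitaryLift.exists_lift (cornerHom J ω).rangeRestrict hs μ hW
  have htu : (((t : relComm J ω)) : SQ M ω) ∈ unitary (SQ M ω) :=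
    Unitary.map_mem (StarSubalgebra.subtype (relComm J ω)) t.2
  obtain ⟨V, hV⟩ := P101.SeqAlg.exists_unitary_lift htu
  have hVc : P101.SeqAlg.unitarySeq V ∈ relSeq J ω hJs := fun a ha => by
    have h : P101.SeqAlg.const ω a * toSQ (P101.SeqAlg.unitarySeq V) =
        toSQ (P101.SeqAlg.unitarySeq V) * P101.SeqAlg.const ω a := by
      rw [hV]; exact const_commute (t : relComm J ω).2 ha
    change toSQ _ * toSQ _ = toSQ _ * toSQ _ at h
    rwa [← P101.SeqAlg.toSQ_mul, ← P101.SeqAlg.toSQ_mul, P101.SeqAlg.toSQ_eq_iff] at h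
  refine ⟨V, ⟨P101.SeqAlg.unitarySeq V, hVc⟩, fun n => rfl, ?_⟩
  rw [← ht]
  exact Subtype.ext (congrArg (cornerHom J ω) (Subtype.ext hV))

end Vale.Agent.P095.NU.SeqTools
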