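import Vale.Agent.P095.NU.Model
import Vale.Agent.P095.NU.SeqTools
import Vale.Agent.P095.NU.Intertwine
import Vale.Agent.P095.NU.HalfFlipPath

/-!
# P095: absorption for possibly non-unital algebras

Invariant maps of the dimension drop algebras into the central sequences relative to `A` make an
action cocycle conjugate, by a multiplier cocycle, to its tensor product with the identity of the
Jiang-Su algebra. The half flips are in the component of the identity, so their images lift to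
unitaries.
-/

open Filter Topology
open scoped ComplexOrder

set_option maxSynthPendingDepth 3

universe u

noncomputable section

namespace Vale.Agent.P095.NU.Absorb

open Model SeqTools
open P101.Tensor (sys alpha stage beta)
open P101.JiangSu (p q conn connTo)
open P101.Drop (dropAlg)
open P101.Limit (JS)
open P101.SeqAlg (bseq)

variable {A M : Type u} [NonUnitalCStarAlgebra A] [CStarAlgebra M]

theorem range_star (j : A →⋆ₙₐ[ℂ] M) : ∀ a ∈ Set.range j, star a ∈ Set.range j := by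
  rintro _ ⟨a, rfl⟩
  exact ⟨star a, map_star j a⟩

theorem range_mul (j : A →⋆ₙₐ[ℂ] M) :
    ∀ a ∈ Set.range j, ∀ b ∈ Set.range j, a * b ∈ Set.range j := by
  rintro _ ⟨a, rfl⟩ _ ⟨b, rfl⟩
  exact ⟨a * b, map_mul j a b⟩

variable [PartialOrder M] [StarOrderedRing M] {G : Type*} [Group G]
  {j : A →⋆ₙₐ[ℂ] M} (σ : G → M ≃⋆ₐ[ℂ] M) (hσ : ∀ g h m, σ (g * h) m = σ g (σ h m))
  {α : G → A ≃⋆ₐ[ℂ] A} (hσj : ∀ g a, σ g (j a) = j (α g a)) {ω : Ultrafilter ℕ}

variable (j) in
/-- The products of `A` with one stage. -/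
def stageSpan (i : ℕ) : Submodule ℂ (sys M).Z :=
  Submodule.span ℂ (Set.range fun x : A × dropAlg (p i) (q i) ℂ => iota j x.1 * stage M i x.2)

theorem monotone_stageSpan : Monotone (stageSpan j) := by
  refine monotone_nat_of_le_succ fun i => Submodule.span_mono ?_
  rintro _ ⟨⟨a, z⟩, rfl⟩
  exact ⟨(a, conn i z), by simp only [P101.Tensor.stage_conn]⟩

theorem exists_near_stage {b : (sys M).Z} (hb : b ∈ bsub j) {ε : ℝ} (hε : 0 < ε) :
    ∃ s i, s ∈ stageSpan j i ∧ ‖b - s‖ < ε := by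
  have h : b ∈ closure ((⨆ i, stageSpan j i : Submodule ℂ (sys M).Z) : Set (sys M).Z) := by
    refine bsub_induction j
      (P := fun t => t ∈ (⨆ i, stageSpan j i : Submodule ℂ (sys M).Z).topologicalClosure)
      (Submodule.isClosed_topologicalClosure _) (Submodule.zero_mem _)
      (fun s t => Submodule.add_mem _) (fun c t => Submodule.smul_mem _ c) (fun a z => ?_) hb
    refine map_mem_closure (f := fun z => iota j a * beta M z)
      ((P101.Drop.continuous_hom (beta M)).const_mul _) (P101.Tensor.dense_inc z) ?_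
    rintro w hw
    obtain ⟨i, y, rfl⟩ := Set.mem_iUnion.1 hw
    show iota j a * beta M (P101.Limit.jsSys.inc i y) ∈
      (⨆ i, stageSpan j i : Submodule ℂ (sys M).Z)
    exact Submodule.mem_iSup_of_mem i
      (Submodule.subset_span ⟨(a, y), congrArg (iota j a * ·) (P101.Tensor.beta_incl M i y).symm⟩)
  obtain ⟨s, hs, hd⟩ := Metric.mem_closure_iff.1 h ε hε
  obtain ⟨i, hi⟩ := (Submodule.mem_iSup_of_directed _ monotone_stageSpan.directed_le).1 hs
  exact ⟨s, i, hi, by rwa [← dist_eq_norm]⟩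

theorem tendsto_mul_of_nullOn {d : ℕ → (sys M).Z} {C : ℝ} (hd : ∀ n, ‖d n‖ ≤ C)
    (h : NullOn (Set.range (iota j)) ω d) {b : (sys M).Z} (hb : b ∈ bsub j) :
    Tendsto (fun n => b * d n) ω (𝓝 0) := by
  have hC : 0 ≤ C := (norm_nonneg _).trans (hd 0)
  refine bsub_induction j (P := fun b => Tendsto (fun n => b * d n) ω (𝓝 0)) ?_
    (by simp)
    (fun s t hs ht => by simpa [add_mul] using hs.add ht)
    (fun c t ht => by simpa [smul_mul_assoc] using ht.const_smul c) (fun a z => ?_) hb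
  · refine isClosed_of_closure_subset fun b hb => ?_
    refine NormedAddGroup.tendsto_nhds_zero.2 fun ε hε => ?_
    obtain ⟨b', hb', hbb⟩ := Metric.mem_closure_iff.1 hb (ε / (2 * (C + 1))) (by positivity)
    filter_upwards [NormedAddGroup.tendsto_nhds_zero.1 hb' (ε / 2) (half_pos hε)] with n hn
    rw [dist_eq_norm] at hbb
    have h1 : ‖b * d n‖ ≤ ‖b - b'‖ * ‖d n‖ + ‖b' * d n‖ := by
      refine le_trans ?_ (add_le_add (norm_mul_le _ _) le_rfl)
      simpa [sub_mul] using norm_le_norm_sub_add (b * d n) (b' * d n)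
    have h2 : ‖b - b'‖ * ‖d n‖ ≤ ε / (2 * (C + 1)) * C :=
      mul_le_mul hbb.le (hd n) (norm_nonneg _) (by positivity)
    have h3 : ε / (2 * (C + 1)) * C ≤ ε / 2 := by
      rw [div_mul_eq_mul_div, div_le_div_iff₀ (by positivity) two_pos]
      nlinarith
    linarith
  · have h0 := (h _ ⟨a, rfl⟩).2.const_mul (beta M z)
    rw [mul_zero] at h0
    refine h0.congr fun n => ?_
    rw [← mul_assoc, ← (commute_iota_beta j a z).eq]

theorem exists_preimage_alpha :
    ∀ c ∈ Set.range (iota j), ∃ a ∈ Set.range j, alpha M a = c := by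
  rintro _ ⟨a, rfl⟩
  exact ⟨j a, ⟨a, rfl⟩, rfl⟩

/-- The estimate for a pushed half flip. -/
theorem norm_pushed_le {D : Type*} [CStarAlgebra D] [PartialOrder D] [StarOrderedRing D] {P Q : ℕ}
    [NeZero P] [NeZero Q] {B : Type*} [CStarAlgebra B] (ι : D →⋆ₐ[ℂ] B)
    (ψ : dropAlg P Q ℂ →⋆ₐ[ℂ] B) (hc : ∀ d z, Commute (ι d) (ψ z))
    (W : unitary (dropAlg P Q D)) (f : D) (g : dropAlg P Q ℂ) (ε : ℝ)
    (h : ‖star (W : dropAlg P Q D) * P101.Drop.tensor f 1 * (W : dropAlg P Q D) -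
      P101.Drop.tensor 1 g‖ ≤ ε) :
    ‖P101.Drop.lift ι ψ hc W * ψ g * star (P101.Drop.lift ι ψ hc W) - ι f‖ ≤ ε := by
  set μ := P101.Drop.lift ι ψ hc with hμ
  have hu : μ W ∈ unitary B := Unitary.map_mem μ W.2
  have h' := (NonUnitalStarAlgHom.norm_apply_le μ _).trans h
  rw [map_sub, map_mul, map_mul, map_star] at h'
  simp only [hμ, P101.Drop.lift_tensor, map_one, mul_one, one_mul] at h'
  rw [← hμ] at h'
  have e : μ W * ψ g * star (μ W) - ι f = -(μ W * (star (μ W) * ι f * μ W - ψ g) * star (μ W)) := by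
    rw [mul_sub, sub_mul, neg_sub, ← mul_assoc (μ W), ← mul_assoc (μ W),
      Unitary.mul_star_self_of_mem hu, one_mul, mul_assoc _ (μ W) (star (μ W)),
      Unitary.mul_star_self_of_mem hu, mul_one]
  rw [e, norm_neg, CStarRing.norm_mul_mem_unitary _ (Unitary.star_mem hu),
    CStarRing.norm_mem_unitary_mul _ hu]
  exact h'

theorem commute_stage_range (i : ℕ) :
    ∀ a ∈ Set.range (iota j), ∀ z, Commute a (stage M i z) := by
  rintro _ ⟨a, rfl⟩ z
  exact commute_iota_stage j a i z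

/-- A homomorphism on a conjugate. -/
theorem map_conj_sub {R B : Type*} [Ring R] [StarRing R] [Algebra ℂ R] [Ring B] [StarRing B]
    [Algebra ℂ B] (θ : R →⋆ₐ[ℂ] B) (x s y : R) :
    θ (x * s * star x - y) = θ x * θ s * star (θ x) - θ y := by
  simp [map_sub, map_mul, map_star]

/-- An endomorphism fixing two commuting maps fixes their lift. -/
theorem lift_fixed {D : Type*} [CStarAlgebra D] [PartialOrder D] [StarOrderedRing D] {P Q : ℕ}
    [NeZero P] [NeZero Q] {B : Type*} [CStarAlgebra B] (θ : B →⋆ₐ[ℂ] B) (ι : D →⋆ₐ[ℂ] B)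
    (ψ : dropAlg P Q ℂ →⋆ₐ[ℂ] B) (hc : ∀ d z, Commute (ι d) (ψ z)) (hι : ∀ d, θ (ι d) = ι d)
    (hψ : ∀ z, θ (ψ z) = ψ z) (W : dropAlg P Q D) :
    θ (P101.Drop.lift ι ψ hc W) = P101.Drop.lift ι ψ hc W :=
  DFunLike.congr_fun (f := θ.comp (P101.Drop.lift ι ψ hc))
    (P101.Drop.hom_ext fun d z => by
      rw [StarAlgHom.comp_apply, P101.Drop.lift_tensor, map_mul, hι, hψ]) W

/-- The pushed half flip, with the dimension drop algebra hidden. -/
theorem exists_pushed_flip {P Q : ℕ} [NeZero P] [NeZero Q] {B : Type*} [CStarAlgebra B]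
    (v : C(unitInterval, P101.HalfFlip.MM P Q)) (hv : ∀ t, v t ∈ unitary _) (hv0 : v 0 = 1)
    (ι ψ : dropAlg P Q ℂ →⋆ₐ[ℂ] B) (hc : ∀ d z, Commute (ι d) (ψ z)) :
    ∃ (D : Type) (_ : CStarAlgebra D) (μ : D →⋆ₐ[ℂ] B) (W : unitary D), W ∈ pathComponent 1 ∧
      (∀ θ : B →⋆ₐ[ℂ] B, (∀ d, θ (ι d) = ι d) → (∀ z, θ (ψ z) = ψ z) → θ (μ W) = μ W) ∧
      ∀ (z : dropAlg P Q ℂ) (ε : ℝ),
        (∀ t, ‖(z : C(unitInterval, P101.HalfFlip.MM P Q)) t -
          v t * (z : C(unitInterval, P101.HalfFlip.MM P Q)) 0 * star (v t)‖ ≤ ε) →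
        ‖μ W * ψ z * star (μ W) - ι z‖ ≤ 6 * ε := by
  let _ := CStarAlgebra.spectralOrder (dropAlg P Q ℂ)
  have _ := CStarAlgebra.spectralOrderedRing (dropAlg P Q ℂ)
  obtain ⟨W, hW, hflip⟩ := HalfFlipPath.exists_halfFlip_joined v hv hv0
  exact ⟨_, inferInstance, P101.Drop.lift ι ψ hc, W, hW,
    fun θ hι hψ => lift_fixed θ ι ψ hc hι hψ _,
    fun z ε hz => norm_pushed_le ι ψ hc W z z (6 * ε) (hflip z ε hz)⟩

section Generic

variable {N T : Type*} [CStarAlgebra N] [CStarAlgebra T] {J : Set N} {I : Set T} {ω : Ultrafilter ℕ}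
  {hJs : ∀ a ∈ J, star a ∈ J} {hIs : ∀ a ∈ I, star a ∈ I}
  (hJm : ∀ a ∈ J, ∀ b ∈ J, a * b ∈ J) (hIm : ∀ a ∈ I, ∀ b ∈ I, a * b ∈ I)
  (f : N →⋆ₐ[ℂ] T) (hf : ∀ c ∈ I, ∃ a ∈ J, f a = c)

/-- Images of relative central sequences commute with constant classes. -/
theorem commute_mapC_constHom {D : Type*} [Ring D] [StarRing D] [Algebra ℂ D] (s : D →⋆ₐ[ℂ] T)
    (hs : ∀ c ∈ I, ∀ z, Commute c (s z)) (hfs : ∀ m z, Commute (f m) (s z)) (d : CSeq J ω) (z : D) :
    Commute (mapC hJs hIs hJm hIm f hf d) (constHom hIs s hs z) := by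
  obtain ⟨x, rfl⟩ := toC_surjective hJs d
  rw [mapC_toC, constHom_apply]
  have h : Commute (seqMap hJs hIs f hf x) (constSeq hIs (s z) fun c hc => hs c hc z) :=
    Subtype.ext (Subtype.ext (funext fun n => hfs _ z))
  exact h.map (toC hIs)

variable (τ : T →⋆ₐ[ℂ] T) (hτ : ∀ c ∈ I, ∃ a ∈ I, τ a = c)

/-- Constant classes of fixed elements are fixed. -/
theorem mapC_constHom {D : Type*} [Ring D] [StarRing D] [Algebra ℂ D] (s : D →⋆ₐ[ℂ] T)
    (hs : ∀ c ∈ I, ∀ z, Commute c (s z)) (hτs : ∀ z, τ (s z) = s z) (z : D) :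
    mapC hIs hIs hIm hIm τ hτ (constHom (ω := ω) hIs s hs z) = constHom hIs s hs z := by
  rw [constHom_apply, mapC_toC]
  exact congrArg (toC hIs) (Subtype.ext (Subtype.ext (funext fun n => hτs z)))

/-- Images of approximately fixed sequences are fixed. -/
theorem mapC_mapC_toC (ρ : N → N) (hρ : ∀ m, τ (f m) = f (ρ m)) (x : relSeq J ω hJs)
    (h : NullOn J ω fun n => ρ (((x : bseq N ω) : ℕ → N) n) - ((x : bseq N ω) : ℕ → N) n) :
    mapC hIs hIs hIm hIm τ hτ (mapC hJs hIs hJm hIm f hf (toC hJs x)) =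
      mapC hJs hIs hJm hIm f hf (toC hJs x) := by
  rw [mapC_toC, mapC_toC, ← sub_eq_zero, ← map_sub, toC_eq_zero_iff hIm]
  intro c hc
  obtain ⟨b, hb, rfl⟩ := hf c hc
  obtain ⟨h1, h2⟩ := h b hb
  constructor
  · refine squeeze_zero_norm (fun n => ?_) (by simpa using h1.norm)
    show ‖(τ (f _) - f _) * f b‖ ≤ _
    rw [hρ, ← map_sub, ← map_mul]
    exact NonUnitalStarAlgHom.norm_apply_le _ _
  · refine squeeze_zero_norm (fun n => ?_) (by simpa using h2.norm)
    show ‖f b * (τ (f _) - f _)‖ ≤ _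
    rw [hρ, ← map_sub, ← map_mul]
    exact NonUnitalStarAlgHom.norm_apply_le _ _

theorem nullOn_of_mapC {X : relSeq I ω hIs}
    (h : mapC hIs hIs hIm hIm τ hτ (toC hIs X) = toC hIs X) :
    NullOn I ω
      fun n => τ (((X : bseq T ω) : ℕ → T) n) - ((X : bseq T ω) : ℕ → T) n := by
  rw [mapC_toC, ← sub_eq_zero, ← map_sub, toC_eq_zero_iff hIm] at h
  exact h

omit τ hτ

include hIm in
/-- The norm criterion on a conjugate. -/
theorem eventually_conj_lt (X S Y : relSeq I ω hIs) {ε : ℝ}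
    (h : ‖toC hIs X * toC hIs S * star (toC hIs X) - toC hIs Y‖ ≤ ε) {c : T} (hc : c ∈ I) {r : ℝ}
    (hr : ε * ‖c‖ < r) :
    ∀ᶠ n in (ω : Filter ℕ), ‖c * (((X : bseq T ω) : ℕ → T) n * ((S : bseq T ω) : ℕ → T) n *
      star (((X : bseq T ω) : ℕ → T) n) - ((Y : bseq T ω) : ℕ → T) n)‖ < r := by
  rw [← map_conj_sub (toC hIs) X S Y] at h
  exact eventually_norm_lt hIm _ hc ((mul_le_mul_of_nonneg_right h (norm_nonneg _)).trans_lt hr)

variable {P Q : ℕ} [NeZero P] [NeZero Q]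

include hIs hJm hIm hf in
/-- **The unitaries of one stage.** -/
theorem exists_drop_unitaries {G : Type*}
    (v : C(unitInterval, P101.HalfFlip.MM P Q)) (hv : ∀ t, v t ∈ unitary _) (hv0 : v 0 = 1)
    (s : dropAlg P Q ℂ →⋆ₐ[ℂ] T) (hs : ∀ c ∈ I, ∀ z, Commute c (s z))
    (hfs : ∀ m z, Commute (f m) (s z))
    (τ : G → T →⋆ₐ[ℂ] T) (hτ : ∀ g, ∀ c ∈ I, ∃ a ∈ I, τ g a = c) (ρ : G → N → N)
    (hρ : ∀ g m, τ g (f m) = f (ρ g m)) (hτs : ∀ g z, τ g (s z) = s z)
    (φ : dropAlg P Q ℂ →⋆ₐ[ℂ] CSeq J ω)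
    (hφ : ∀ (g : G) z (x : relSeq J ω hJs), toC hJs x = φ z → NullOn J ω
      fun n => ρ g (((x : bseq N ω) : ℕ → N) n) - ((x : bseq N ω) : ℕ → N) n) :
    ∃ V : ℕ → unitary T,
      (∀ c ∈ I, Tendsto (fun n => (V n : T) * c - c * (V n : T)) ω (𝓝 0)) ∧
      (∀ g, NullOn I ω fun n => τ g (V n : T) - (V n : T)) ∧
      ∀ (z : dropAlg P Q ℂ) (x : relSeq J ω hJs) (ε : ℝ),
        toC hJs x = φ z →
        (∀ t, ‖(z : C(unitInterval, P101.HalfFlip.MM P Q)) t -
          v t * (z : C(unitInterval, P101.HalfFlip.MM P Q)) 0 * star (v t)‖ ≤ ε) →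
        ∀ c ∈ I, ∀ r : ℝ, 6 * ε * ‖c‖ < r → ∀ᶠ n in (ω : Filter ℕ),
          ‖c * ((V n : T) * s z * star (V n : T) - f (((x : bseq N ω) : ℕ → N) n))‖ < r := by
  obtain ⟨ι, hι⟩ : ∃ ι : dropAlg P Q ℂ →⋆ₐ[ℂ] CSeq I ω, ∀ d (x : relSeq J ω hJs),
      toC hJs x = φ d → ι d = toC hIs (seqMap hJs hIs f hf x) :=
    ⟨(mapC hJs hIs hJm hIm f hf).comp φ, fun d x hx => by
      rw [StarAlgHom.comp_apply, ← hx, mapC_toC]⟩
  obtain ⟨ψ, hψ⟩ : ∃ ψ : dropAlg P Q ℂ →⋆ₐ[ℂ] CSeq I ω,
      ∀ z, ψ z = toC hIs (constSeq hIs (s z) fun c hc => hs c hc z) :=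
    ⟨constHom hIs s hs, constHom_apply hIs s hs⟩
  have hc : ∀ d z, Commute (ι d) (ψ z) := fun d z => by
    obtain ⟨x, hx⟩ := toC_surjective hJs (φ d)
    rw [hι d x hx, ← mapC_toC hJm hIm f hf x, hψ, ← constHom_apply hIs s hs]
    exact commute_mapC_constHom hJm hIm f hf s hs hfs _ z
  obtain ⟨D, hD, μ, W, hW, hfix, hbd⟩ := exists_pushed_flip v hv hv0 ι ψ hc
  obtain ⟨V, X, hX, hXW⟩ := exists_unitary_seq (hJs := hIs) μ hW
  refine ⟨V, fun c hc' => ?_, fun g => ?_, fun z x ε hx hzε c hc' r hr => ?_⟩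
  · have h := (X.2 c hc').neg
    rw [neg_zero] at h
    refine h.congr fun n => ?_
    rw [hX, neg_sub]
  · have h0 := hfix (mapC hIs hIs hIm hIm (τ g) (hτ g))
      (fun d => by
        obtain ⟨y, hy⟩ := toC_surjective hJs (φ d)
        rw [hι d y hy, ← mapC_toC hJm hIm f hf y]
        exact mapC_mapC_toC hJm hIm f hf (τ g) (hτ g) (ρ g) (hρ g) y (hφ g d y hy))
      (fun z => by
        rw [hψ, ← constHom_apply hIs s hs]
        exact mapC_constHom hIm (τ g) (hτ g) s hs (hτs g) z)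
    rw [← hXW] at h0
    have h := nullOn_of_mapC hIm (τ g) (hτ g) h0
    simp only [hX] at h
    exact h
  · have h1 := hbd z ε hzε
    rw [← hXW, hι z x hx, hψ] at h1
    refine (eventually_conj_lt hIm X _ _ h1 hc' hr).mono fun n hn => ?_
    rw [← hX]
    exact hn

end Generic

/-- Almost commutation with adjoints. -/
theorem eventually_commute_star (V : ℕ → unitary (sys M).Z)
    (h : ∀ c ∈ Set.range (iota j), Tendsto
      (fun n => (V n : (sys M).Z) * c - c * (V n : (sys M).Z)) ω (𝓝 0))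
    (a : A) {ε : ℝ} (hε : 0 < ε) :
    ∀ᶠ k in (ω : Filter ℕ),
      ‖star (V k : (sys M).Z) * iota j a - iota j a * star (V k : (sys M).Z)‖ < ε := by
  refine (NormedAddGroup.tendsto_nhds_zero.1 (h _ ⟨star a, rfl⟩) ε hε).mono fun k hk => ?_
  rw [← norm_star, star_sub, star_mul, star_mul, ← map_star, star_star, norm_sub_rev] at hk
  simpa using hk

/-- The estimate on one product. -/
theorem eventually_term (V : ℕ → unitary (sys M).Z) {i i' : ℕ} {a : A}
    {z : dropAlg (p i) (q i) ℂ} {z' : dropAlg (p i') (q i') ℂ} (m : ℕ → M) {pre : ℕ → A}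
    (hc : Tendsto (fun n => (V n : (sys M).Z) * iota j a - iota j a * (V n : (sys M).Z)) ω (𝓝 0))
    (hz : stage M i' z' = stage M i z) {δ : ℝ} (hδ : 0 < δ)
    (h : ∀ᶠ k in (ω : Filter ℕ), ‖iota j a * ((V k : (sys M).Z) * stage M i' z' *
      star (V k : (sys M).Z) - alpha M (m k))‖ < 6 * δ * (‖a‖ + 1))
    (hpre : ∀ k, j (pre k) = j a * m k) :
    ∀ᶠ k in (ω : Filter ℕ), ‖(V k : (sys M).Z) * (iota j a * stage M i z) *
      star (V k : (sys M).Z) - iota j (pre k)‖ ≤ δ * (‖z‖ + 6 * (‖a‖ + 1)) := by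
  filter_upwards [h, NormedAddGroup.tendsto_nhds_zero.1 hc δ hδ] with k hk hk'
  rw [hz] at hk
  have hp : iota j (pre k) = iota j a * alpha M (m k) := by
    rw [iota_apply, hpre, map_mul, ← iota_apply]
  have e : (V k : (sys M).Z) * (iota j a * stage M i z) * star (V k : (sys M).Z) - iota j (pre k) =
      ((V k : (sys M).Z) * iota j a - iota j a * (V k : (sys M).Z)) *
          (stage M i z * star (V k : (sys M).Z)) +
        iota j a * ((V k : (sys M).Z) * stage M i z * star (V k : (sys M).Z) - alpha M (m k)) := by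
    rw [hp]; noncomm_ring
  have h2 : ‖stage M i z * star (V k : (sys M).Z)‖ ≤ ‖z‖ := by
    refine (norm_mul_le _ _).trans ?_
    rw [norm_star]
    exact (mul_le_of_le_one_right (norm_nonneg _) (Intertwine.norm_unitary_le (V k))).trans
      (NonUnitalStarAlgHom.norm_apply_le (stage M i) z)
  rw [e]
  refine (norm_add_le _ _).trans ?_
  refine (add_le_add ((norm_mul_le _ _).trans (mul_le_mul hk'.le h2 (norm_nonneg _) hδ.le))
    hk.le).trans_eq ?_
  ring

/-- Almost invariance of adjoints on `B`. -/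
theorem eventually_act_star (V : ℕ → unitary (sys M).Z) (g : G)
    (h : NullOn (Set.range (iota j)) ω
      fun n => act σ hσ g (V n : (sys M).Z) - (V n : (sys M).Z))
    {b : (sys M).Z} (hb : b ∈ bsub j) {ε : ℝ} (hε : 0 < ε) :
    ∀ᶠ k in (ω : Filter ℕ), ‖star b *
      (act σ hσ g (star (V k : (sys M).Z)) - star (V k : (sys M).Z))‖ < ε := by
  have h' : NullOn (Set.range (iota j)) ω
      fun k => act σ hσ g (star (V k : (sys M).Z)) - star (V k : (sys M).Z) := by
    have := nullOn_star (range_star (iota j)) h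
    simpa [star_sub, map_star] using this
  refine NormedAddGroup.tendsto_nhds_zero.1
    (tendsto_mul_of_nullOn (C := 1 + 1) (fun k => (norm_sub_le _ _).trans (add_le_add ?_ ?_)) h'
      (star_mem hb)) ε hε
  · refine (NonUnitalStarAlgHom.norm_apply_le _ _).trans ?_
    rw [norm_star]; exact Intertwine.norm_unitary_le (V k)
  · rw [norm_star]; exact Intertwine.norm_unitary_le (V k)

include hσj in
/-- **Invariant maps into the central sequences give strict intertwining.** -/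
theorem canIntertwine (hj : IsIdealEmb j)
    (hdrop : DropGoal (Set.range j) ω (range_star j) σ) :
    Intertwine.CanIntertwine (bsub j) (iota j) (act σ hσ) := by
  classical
  set T := (sys M).Z
  intro F D hD K ε hε
  have happrox : ∀ b : D, ∃ s i, s ∈ stageSpan j i ∧ ‖(b : T) - s‖ < ε / 2 := fun b =>
    exists_near_stage (hD (Finset.mem_coe.2 b.2)) (half_pos hε)
  choose s st hs hsb using happrox
  obtain ⟨i, hi⟩ : ∃ i, ∀ b, st b ≤ i :=
    ⟨Finset.univ.sup st, fun b => Finset.le_sup (Finset.mem_univ b)⟩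
  choose c hc using fun b : D => Finsupp.mem_span_range_iff_exists_finsupp.1
    (monotone_stageSpan (hi b) (hs b) : s b ∈ stageSpan j i)
  set N : ℝ := 1 + ∑ b : D, ∑ z ∈ (c b).support, ‖c b z‖ * (‖z.2‖ + 6 * (‖z.1‖ + 1)) with hN
  have hN0 : 0 < N := by positivity
  set δ : ℝ := ε / (2 * N) with hδ
  have hδ0 : 0 < δ := by positivity
  obtain ⟨n, v, hv, hv0, hvf⟩ := (P101.JiangSu.near_constant i
    (Finset.univ.biUnion fun b : D => (c b).support.image Prod.snd) hδ0).exists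
  obtain ⟨φ, hφ⟩ : ∃ φ : dropAlg (p (i + n)) (q (i + n)) ℂ →⋆ₐ[ℂ] CSeq (Set.range j) ω,
      ∀ (g : G) z (x : relSeq (Set.range j) ω (range_star j)), toC (range_star j) x = φ z →
        NullOn (Set.range j) ω
          fun n => σ g (((x : bseq M ω) : ℕ → M) n) - ((x : bseq M ω) : ℕ → M) n :=
    hdrop (P101.JiangSu.Dims.seq (i + n)).m
      (le_trans (by norm_num) (P101.JiangSu.Dims.seq (i + n)).two_le_m)
  have hσ' : ∀ g, ∀ c ∈ Set.range (iota j),
      ∃ a ∈ Set.range (iota j), act σ hσ g a = c := by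
    rintro g _ ⟨a, rfl⟩
    refine ⟨act σ hσ g⁻¹ (iota j a), ⟨α g⁻¹ a, (act_iota σ hσ hσj g⁻¹ a).symm⟩, ?_⟩
    rw [← act_mul, mul_inv_cancel]
    exact AF.act_one (act_mul σ hσ) _
  obtain ⟨V, hVc, hVg, hVf⟩ := exists_drop_unitaries (hIs := range_star (iota j))
    (range_mul j) (range_mul (iota j)) (alpha M) exists_preimage_alpha v hv hv0
    (stage M (i + n)) (commute_stage_range (i + n))
    (P101.Tensor.commute_alpha_stage M (i + n)) (fun g => (act σ hσ g : T →⋆ₐ[ℂ] T)) hσ'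
    (fun g m => σ g m) (fun g m => act_alpha σ hσ g m) (fun g z => act_stage σ hσ g (i + n) z)
    φ hφ
  choose x hx using fun z : dropAlg (p i) (q i) ℂ =>
    toC_surjective (range_star j) (φ (connTo i n z))
  choose pre hpre using fun (z : A × dropAlg (p i) (q i) ℂ) (k : ℕ) =>
    hj.right (((x z.2 : bseq M ω) : ℕ → M) k) z.1
  have hterm : ∀ b : D, ∀ z ∈ (c b).support, ∀ᶠ k in (ω : Filter ℕ),
      ‖(V k : T) * (iota j z.1 * stage M i z.2) * star (V k : T) - iota j (pre z k)‖ ≤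
        δ * (‖z.2‖ + 6 * (‖z.1‖ + 1)) := by
    intro b z hz
    refine eventually_term V (fun k => ((x z.2 : bseq M ω) : ℕ → M) k) (hVc _ ⟨z.1, rfl⟩)
      (P101.Absorb.beta_connTo (stage M) (P101.Tensor.stage_conn M) i z.2 n) hδ0
      (hVf (connTo i n z.2) (x z.2) δ (hx z.2)
        (hvf z.2 (Finset.mem_biUnion.2 ⟨b, Finset.mem_univ _, Finset.mem_image_of_mem _ hz⟩))
        _ ⟨z.1, rfl⟩ (6 * δ * (‖z.1‖ + 1)) (by rw [norm_iota hj]; nlinarith)) fun k => hpre z k
  obtain ⟨k, hkF, hkD, hkK⟩ := ((F.eventually_all.2 fun a _ =>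
      eventually_commute_star V hVc a hε).and
    ((Filter.eventually_all.2 fun b : D => (c b).support.eventually_all.2 (hterm b)).and
      (K.eventually_all.2 fun g _ => D.eventually_all.2 fun b hb =>
        eventually_act_star σ hσ V g (hVg g) (hD hb) hε))).exists
  refine ⟨star (V k), fun a ha => by simpa using hkF a ha, fun b hb => ?_,
    fun g hg b hb => by simpa using hkK g hg b hb⟩
  set b' : D := ⟨b, hb⟩
  refine ⟨∑ z ∈ (c b').support, c b' z • pre z k, ?_⟩
  have hsum : s b' = ∑ z ∈ (c b').support, c b' z • (iota j z.1 * stage M i z.2) := (hc b').symm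
  have h2 : ‖(V k : T) * s b' * star (V k : T) -
      iota j (∑ z ∈ (c b').support, c b' z • pre z k)‖ ≤ N * δ := by
    rw [hsum, map_sum, Finset.mul_sum, Finset.sum_mul, ← Finset.sum_sub_distrib]
    refine (norm_sum_le_of_le (n := fun z => ‖c b' z‖ * (‖z.2‖ + 6 * (‖z.1‖ + 1)) * δ) _
      fun z hz => ?_).trans ((Finset.sum_mul _ _ _).symm.trans_le
        (mul_le_mul_of_nonneg_right ?_ hδ0.le))
    · rw [map_smul, mul_smul_comm, smul_mul_assoc, ← smul_sub, norm_smul, mul_assoc ‖c b' z‖,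
        mul_comm _ δ]
      exact mul_le_mul_of_nonneg_left (hkD b' z hz) (norm_nonneg _)
    · rw [hN]
      refine le_trans ?_ (le_add_of_nonneg_left zero_le_one)
      exact Finset.single_le_sum
        (f := fun b : D => ∑ z ∈ (c b).support, ‖c b z‖ * (‖z.2‖ + 6 * (‖z.1‖ + 1)))
        (fun b _ => by positivity) (Finset.mem_univ b')
  have h3 : ‖(V k : T) * b * star (V k : T) - (V k : T) * s b' * star (V k : T)‖ < ε / 2 := by
    rw [← sub_mul, ← mul_sub, CStarRing.norm_mul_mem_unitary _ (Unitary.star_mem (V k).2),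
      CStarRing.norm_coe_unitary_mul]
    exact hsb b'
  have h4 : N * δ = ε / 2 := by rw [hδ]; field_simp
  simp only [Unitary.coe_star, star_star]
  calc _ ≤ ‖(V k : T) * b * star (V k : T) - (V k : T) * s b' * star (V k : T)‖
        + ‖(V k : T) * s b' * star (V k : T) -
            iota j (∑ z ∈ (c b').support, c b' z • pre z k)‖ :=
        norm_sub_le_norm_sub_add_norm_sub _ _ _
    _ < ε := by linarith

omit [PartialOrder M] [StarOrderedRing M] in
include hσ hσj in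
/-- **Absorption.** -/
theorem isEquivariantlyZStable [Countable G] [TopologicalSpace.SeparableSpace A]
    (hj : IsIdealEmb j) (hdrop : DropGoal (Set.range j) ω (range_star j) σ) :
    IsEquivariantlyZStable α := by
  let _ := CStarAlgebra.spectralOrder M
  have _ := CStarAlgebra.spectralOrderedRing M
  have := separableSpace_bsub (j := j)
  obtain ⟨Φ, w, hw, hwc, hwα⟩ := Intertwine.exists_cocycle_equiv (bsub j)
    (fun m b hb => mul_mem_left hj m b hb) (fun m b hb => mul_mem_right hj m b hb) (iota j)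
    (norm_iota hj) (iota_mem j) α (act σ hσ) (act_mul σ hσ) (act_iota σ hσ hσj)
    (actB σ hσ hσj) (coe_actB σ hσ hσj) (canIntertwine σ hσ hσj hj hdrop)
  exact ⟨JS, inferInstance, P101.Statement.isJiangSuAlgebra P101.Limit.isJiangSu, bsub j,
    inferInstance, tmap j, isTensorMap hj, actB σ hσ hσj, isTensorAction σ hσ hσj,
    Φ, w, hw, hwc, hwα⟩

end Vale.Agent.P095.NU.Absorb
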