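import Vale.Agent.P095.NU.FA

/-!
# P095: the action on the relative central sequences
-/

open Filter Topology
open scoped ComplexOrder

set_option maxSynthPendingDepth 3

noncomputable section

namespace Vale.Agent.P095.NU

open P101.SeqAlg (bseq)

variable {M : Type*} [CStarAlgebra M] {J : Set M} {ω : Ultrafilter ℕ}

/-- The entries of a central sequence. -/
abbrev ent {hJs : ∀ a ∈ J, star a ∈ J} (x : relSeq J ω hJs) : ℕ → M := ((x : bseq M ω) : ℕ → M)

variable (hJs : ∀ a ∈ J, star a ∈ J) (hJm : ∀ a ∈ J, ∀ b ∈ J, a * b ∈ J)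

include hJm in
theorem toC_eq_iff (x y : relSeq J ω hJs) :
    toC hJs x = toC hJs y ↔ NullOn J ω fun n => ent x n - ent y n := by
  rw [← sub_eq_zero, ← map_sub, toC_eq_zero_iff hJm]
  rfl

variable {σ : M ≃⋆ₐ[ℂ] M} (hσ : ∀ a, σ a ∈ J ↔ a ∈ J)

include hσ in
theorem exists_preimage {a : M} (ha : a ∈ J) : ∃ b ∈ J, σ b = a := by
  obtain ⟨b, rfl⟩ := EquivLike.surjective σ a
  exact ⟨b, (hσ b).1 ha, rfl⟩

/-- An automorphism preserving `J` applied to a central sequence. -/
def mapRel : relSeq J ω hJs →⋆ₐ[ℂ] relSeq J ω hJs where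
  toFun x := ⟨⟨fun n => σ (ent x n), by
      obtain ⟨C, hC⟩ := (x : bseq M ω).2
      exact ⟨C, fun n => (StarAlgEquiv.norm_map σ _).trans_le (hC n)⟩⟩, fun a ha => by
    obtain ⟨b, hb, rfl⟩ := exists_preimage hσ ha
    have h : Tendsto (fun n => σ (b * ent x n - ent x n * b)) ω (𝓝 0) := by
      refine squeeze_zero_norm (fun n => (StarAlgEquiv.norm_map σ _).le) ?_
      simpa using (x.2 b hb).norm
    refine h.congr fun n => ?_
    show _ = σ b * σ (ent x n) - σ (ent x n) * σ b
    rw [map_sub, map_mul, map_mul]⟩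
  map_one' := Subtype.ext (Subtype.ext (funext fun n => map_one σ))
  map_mul' x y := Subtype.ext (Subtype.ext (funext fun n => map_mul σ _ _))
  map_zero' := Subtype.ext (Subtype.ext (funext fun n => map_zero σ))
  map_add' x y := Subtype.ext (Subtype.ext (funext fun n => map_add σ _ _))
  commutes' c := Subtype.ext (Subtype.ext (funext fun n => AlgHomClass.commutes σ c))
  map_star' x := Subtype.ext (Subtype.ext (funext fun n => map_star σ _))

@[simp] theorem ent_mapRel (x : relSeq J ω hJs) (n : ℕ) :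
    ent (mapRel hJs hσ x) n = σ (ent x n) := rfl

include hJm hσ in
theorem toC_mapRel_congr {x y : relSeq J ω hJs} (h : toC hJs x = toC hJs y) :
    toC hJs (mapRel hJs hσ x) = toC hJs (mapRel hJs hσ y) := by
  rw [toC_eq_iff hJs hJm] at h ⊢
  intro a ha
  obtain ⟨b, hb, rfl⟩ := exists_preimage hσ ha
  have key : ∀ F : ℕ → M, Tendsto F ω (𝓝 0) → Tendsto (fun n => σ (F n)) ω (𝓝 0) := fun F hF =>
    squeeze_zero_norm (fun n => (StarAlgEquiv.norm_map σ _).le) (by simpa using hF.norm)
  exact ⟨(key _ (h b hb).1).congr fun n => by simp, (key _ (h b hb).2).congr fun n => by simp⟩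

/-- The induced endomorphism of the relative central sequence algebra. -/
def mapC : CSeq J ω →⋆ₐ[ℂ] CSeq J ω where
  toFun z := toC hJs (mapRel hJs hσ (toC_surjective hJs z).choose)
  map_one' := by
    rw [toC_mapRel_congr hJs hJm hσ (y := 1) (by rw [(toC_surjective hJs _).choose_spec, map_one]),
      map_one, map_one]
  map_mul' u v := by
    rw [← map_mul, ← map_mul]
    exact toC_mapRel_congr hJs hJm hσ (by rw [map_mul, (toC_surjective hJs _).choose_spec,
      (toC_surjective hJs _).choose_spec, (toC_surjective hJs _).choose_spec])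
  map_zero' := by
    rw [toC_mapRel_congr hJs hJm hσ (y := 0) (by rw [(toC_surjective hJs _).choose_spec, map_zero]),
      map_zero, map_zero]
  map_add' u v := by
    rw [← map_add, ← map_add]
    exact toC_mapRel_congr hJs hJm hσ (by rw [map_add, (toC_surjective hJs _).choose_spec,
      (toC_surjective hJs _).choose_spec, (toC_surjective hJs _).choose_spec])
  commutes' c := by
    rw [toC_mapRel_congr hJs hJm hσ (y := algebraMap ℂ _ c)
      (by rw [(toC_surjective hJs _).choose_spec, AlgHomClass.commutes]),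
      AlgHomClass.commutes, AlgHomClass.commutes]
  map_star' u := by
    rw [← map_star, ← map_star]
    exact toC_mapRel_congr hJs hJm hσ (by rw [map_star, (toC_surjective hJs _).choose_spec,
      (toC_surjective hJs _).choose_spec])

theorem mapC_toC (x : relSeq J ω hJs) :
    mapC hJs hJm hσ (toC hJs x) = toC hJs (mapRel hJs hσ x) :=
  toC_mapRel_congr hJs hJm hσ (toC_surjective hJs (toC hJs x)).choose_spec

section Action

variable {G : Type*} [Group G] {α : G → M ≃⋆ₐ[ℂ] M} (hα : ∀ g h a, α (g * h) a = α g (α h a))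
  (hαJ : ∀ g a, α g a ∈ J ↔ a ∈ J)

include hα in
theorem apply_one (a : M) : α 1 a = a :=
  EquivLike.injective (α 1) (by rw [← hα, one_mul])

include hα in
theorem mapC_comp (g h : G) (z : CSeq J ω) :
    mapC hJs hJm (hαJ g) (mapC hJs hJm (hαJ h) z) = mapC hJs hJm (hαJ (g * h)) z := by
  obtain ⟨x, rfl⟩ := toC_surjective hJs z
  rw [mapC_toC, mapC_toC, mapC_toC]
  exact congrArg (toC hJs) (Subtype.ext (Subtype.ext (funext fun n => (hα g h _).symm)))

include hα in
theorem mapC_inv (g h : G) (hgh : g * h = 1) (z : CSeq J ω) :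
    mapC hJs hJm (hαJ g) (mapC hJs hJm (hαJ h) z) = z := by
  obtain ⟨x, rfl⟩ := toC_surjective hJs z
  rw [mapC_toC, mapC_toC]
  refine congrArg (toC hJs) (Subtype.ext (Subtype.ext (funext fun n => ?_)))
  show α g (α h (ent x n)) = ent x n
  rw [← hα, hgh, apply_one hα]

/-- The action on the relative central sequence algebra. -/
def actC (g : G) : CSeq J ω ≃⋆ₐ[ℂ] CSeq J ω :=
  StarAlgEquiv.ofBijective (mapC hJs hJm (hαJ g))
    ⟨Function.LeftInverse.injective (g := mapC hJs hJm (hαJ g⁻¹))
        (mapC_inv hJs hJm hα hαJ g⁻¹ g (inv_mul_cancel g)),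
      fun z => ⟨_, mapC_inv hJs hJm hα hαJ g g⁻¹ (mul_inv_cancel g) z⟩⟩

theorem actC_toC (g : G) (x : relSeq J ω hJs) :
    actC hJs hJm hα hαJ g (toC hJs x) = toC hJs (mapRel hJs (hαJ g) x) :=
  mapC_toC hJs hJm (hαJ g) x

theorem actC_mul (g h : G) (z : CSeq J ω) :
    actC hJs hJm hα hαJ (g * h) z = actC hJs hJm hα hαJ g (actC hJs hJm hα hαJ h z) :=
  (mapC_comp hJs hJm hα hαJ g h z).symm

theorem actC_toC_eq_iff (g : G) (x : relSeq J ω hJs) :
    actC hJs hJm hα hαJ g (toC hJs x) = toC hJs x ↔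
      NullOn J ω fun n => α g (ent x n) - ent x n := by
  rw [actC_toC, toC_eq_iff hJs hJm]
  rfl

end Action

end Vale.Agent.P095.NU
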