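import Vale.Agent.P095.NU.Setting

/-!
# P095: basic facts about a simple algebra inside a unital one

Calculus inside `J`, bounded elements, approximate units with two successive units, and traces.
-/

open scoped ComplexOrder ENNReal
open Filter Topology

noncomputable section

namespace Vale.Agent.P095.NU

variable {M : Type*} [CStarAlgebra M] {J : Set M}

theorem IsBase.neg_mem (hJ : IsBase J) {x : M} (hx : x ∈ J) : -x ∈ J := by
  simpa using hJ.smul_mem (-1) hx

theorem IsBase.sub_mem (hJ : IsBase J) {x y : M} (hx : x ∈ J) (hy : y ∈ J) : x - y ∈ J := by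
  rw [sub_eq_add_neg]
  exact hJ.add_mem hx (hJ.neg_mem hy)

theorem IsBase.rsmul_mem (hJ : IsBase J) (r : ℝ) {x : M} (hx : x ∈ J) : r • x ∈ J := by
  rw [← Complex.coe_smul]
  exact hJ.smul_mem _ hx

theorem IsBase.sum_mem (hJ : IsBase J) {ι : Type*} (s : Finset ι) {x : ι → M}
    (hx : ∀ i ∈ s, x i ∈ J) : ∑ i ∈ s, x i ∈ J := by
  classical
  induction s using Finset.induction with
  | empty => simpa using hJ.zero_mem
  | insert a s ha ih =>
    rw [Finset.sum_insert ha]
    exact hJ.add_mem (hx a (Finset.mem_insert_self a s))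
      (ih fun i hi => hx i (Finset.mem_insert_of_mem hi))

/-- Functional calculus with functions vanishing at zero stays in `J`. -/
theorem IsBase.cfc_mem (hJ : IsBase J) {a : M} (ha : IsSelfAdjoint a) (haJ : a ∈ J) {f : ℝ → ℝ}
    (hf : Continuous f) (h0 : f 0 = 0) : cfc f a ∈ J := by
  refine hJ.isClosed.closure_subset (Metric.mem_closure_iff.2 fun ε hε => ?_)
  obtain ⟨δ, hδ, hδf⟩ := Metric.continuousAt_iff.1 hf.continuousAt (ε / 2) (half_pos hε)
  obtain ⟨B, hB⟩ := (isCompact_closedBall (0 : ℝ) ‖a‖).exists_bound_of_continuousOn hf.continuousOn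
  set κ : ℝ := ε / 2 * δ ^ 2 / (|B| + 1) with hκdef
  have hκ : 0 < κ := by positivity
  have hden : ∀ t : ℝ, 0 < t ^ 2 + κ := fun t => by positivity
  have hc : Continuous fun t : ℝ => f t * t / (t ^ 2 + κ) :=
    (hf.mul continuous_id).div (by fun_prop) fun t => (hden t).ne'
  refine ⟨a * cfc (fun t : ℝ => f t * t / (t ^ 2 + κ)) a, hJ.mul_right _ haJ, ?_⟩
  rw [dist_eq_norm]
  have e : a * cfc (fun t : ℝ => f t * t / (t ^ 2 + κ)) a =
      cfc (fun t : ℝ => t * (f t * t / (t ^ 2 + κ))) a := by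
    conv_lhs => arg 1; rw [← cfc_id' ℝ a]
    rw [← cfc_mul _ _ a (by fun_prop) hc.continuousOn]
  rw [e, ← cfc_sub _ _ a hf.continuousOn (by fun_prop)]
  refine (norm_cfc_le (by positivity) fun t ht => ?_).trans_lt (half_lt_self hε)
  have e2 : f t - t * (f t * t / (t ^ 2 + κ)) = f t * (κ / (t ^ 2 + κ)) := by
    have := (hden t).ne'
    field_simp
    ring
  rw [Real.norm_eq_abs, e2, abs_mul, abs_of_pos (div_pos hκ (hden t))]
  rcases lt_or_ge |t| δ with h | h
  · have h1 : |f t| ≤ ε / 2 := by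
      have := hδf (x := t) (by rwa [dist_zero_right, Real.norm_eq_abs])
      rw [h0, dist_zero_right, Real.norm_eq_abs] at this
      exact this.le
    refine (mul_le_of_le_one_right (abs_nonneg _) ?_).trans h1
    rw [div_le_one (hden t)]
    linarith [sq_nonneg t]
  · have h1 : |f t| ≤ |B| := by
      have htd : ‖t‖ ≤ ‖a‖ := by
        have := norm_apply_le_norm_cfc (fun s : ℝ => s) a ht
        rwa [cfc_id' ℝ a] at this
      exact (hB t (by simpa [mem_closedBall_zero_iff] using htd)).trans (le_abs_self B)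
    have h2 : δ ^ 2 ≤ t ^ 2 := by
      rw [← sq_abs t]
      exact pow_le_pow_left₀ hδ.le h 2
    calc |f t| * (κ / (t ^ 2 + κ)) ≤ |B| * (κ / δ ^ 2) :=
          mul_le_mul h1 (div_le_div_of_nonneg_left hκ.le (pow_pos hδ 2) (by linarith))
            (div_pos hκ (hden t)).le (abs_nonneg B)
      _ ≤ ε / 2 := by
          rw [mul_div_assoc', div_le_iff₀ (pow_pos hδ 2), hκdef, mul_div_assoc',
            div_le_iff₀ (by positivity)]
          nlinarith [abs_nonneg B, mul_pos hε (pow_pos hδ 2)]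

section Order

variable [PartialOrder M] [StarOrderedRing M]

theorem IsBase.sqrt_mem (hJ : IsBase J) {a : M} (haJ : a ∈ J) (ha : 0 ≤ a) :
    CFC.sqrt a ∈ J := by
  rw [CFC.sqrt_eq_real_sqrt a ha, cfcₙ_eq_cfc]
  exact hJ.cfc_mem (.of_nonneg ha) haJ Real.continuous_sqrt Real.sqrt_zero

/-- `J` is hereditary. -/
theorem IsBase.mem_of_le (hJ : IsBase J) {x v : M} (hv : v ∈ J) (hx : 0 ≤ x) (h : x ≤ v) :
    x ∈ J := by
  have hv0 : 0 ≤ v := hx.trans h
  have hsx : star (CFC.sqrt x) = CFC.sqrt x :=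
    (IsSelfAdjoint.of_nonneg (CFC.sqrt_nonneg x)).star_eq
  rw [← CFC.sqrt_mul_sqrt_self x hx]
  refine hJ.mul_left _ ?_
  refine hJ.isClosed.closure_subset (Metric.mem_closure_iff.2 fun ε hε => ?_)
  set κ : ℝ := ε ^ 2 / 4 with hκdef
  have hκ : 0 < κ := by positivity
  let f : ℝ → ℝ := fun t => min 1 (max 0 t / κ)
  have hf : Continuous f := by fun_prop
  have hf0 : f 0 = 0 := by simp [f]
  refine ⟨CFC.sqrt x * cfc f v, hJ.mul_left _ (hJ.cfc_mem (.of_nonneg hv0) hv hf hf0), ?_⟩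
  set k : M := cfc (fun t => 1 - f t) v with hk
  have hks : star k = k := (cfc_predicate _ v : IsSelfAdjoint k).star_eq
  have e : CFC.sqrt x - CFC.sqrt x * cfc f v = CFC.sqrt x * k := by
    rw [hk, cfc_sub (fun _ => (1 : ℝ)) f v (by fun_prop) hf.continuousOn, cfc_const_one ℝ v,
      mul_sub, mul_one]
  rw [dist_eq_norm, e]
  have h2 : ‖star (CFC.sqrt x * k) * (CFC.sqrt x * k)‖ ≤ κ := by
    have e2 : star (CFC.sqrt x * k) * (CFC.sqrt x * k) = k * x * k := by
      rw [star_mul, hks, hsx, mul_assoc, ← mul_assoc (CFC.sqrt x), CFC.sqrt_mul_sqrt_self x hx,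
        ← mul_assoc]
    have hle : k * x * k ≤ k * v * k := IsSelfAdjoint.conjugate_le_conjugate h (cfc_predicate _ v)
    rw [e2]
    refine (CStarAlgebra.norm_le_norm_of_nonneg_of_le
      (IsSelfAdjoint.conjugate_nonneg hx (cfc_predicate _ v)) hle).trans ?_
    have e3 : k * v * k = cfc (fun t => (1 - f t) * t * (1 - f t)) v := by
      rw [hk]
      conv_lhs => arg 1; arg 2; rw [← cfc_id' ℝ v]
      rw [← cfc_mul _ _ v (by fun_prop) (by fun_prop),
        ← cfc_mul _ _ v (by fun_prop) (by fun_prop)]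
    rw [e3]
    refine norm_cfc_le hκ.le fun t ht => ?_
    have ht0 := spectrum_nonneg_of_nonneg hv0 ht
    rw [Real.norm_eq_abs, abs_mul, abs_mul, abs_of_nonneg ht0]
    rcases le_or_gt κ t with hle | hlt
    · have : f t = 1 := min_eq_left (by rw [max_eq_right ht0, one_le_div hκ]; exact hle)
      simp [this, hκ.le]
    · have hd : 0 ≤ max 0 t / κ := by positivity
      have h3 : |1 - f t| ≤ 1 := abs_le.2 ⟨by linarith [min_le_left 1 (max 0 t / κ)],
        by linarith [le_min zero_le_one hd]⟩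
      calc |1 - f t| * t * |1 - f t| ≤ 1 * κ * 1 := by gcongr
        _ = κ := by ring
  rw [CStarRing.norm_star_mul_self] at h2
  nlinarith [norm_nonneg (CFC.sqrt x * k)]

/-- Two-sided bounds for the ideal generated by `p`. -/
theorem exists_sum_ge {p : M} (hp : 0 ≤ p) {z : M}
    (hz : z ∈ AddSubgroup.closure {y | ∃ w ∈ J, ∃ z ∈ J, y = w * p * z}) :
    ∃ (L : ℕ) (s : Fin L → M),
      z + star z ≤ ∑ j, star (s j) * p * s j ∧ -(z + star z) ≤ ∑ j, star (s j) * p * s j := by
  induction hz using AddSubgroup.closure_induction with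
  | mem x hx =>
    obtain ⟨w, -, y, -, rfl⟩ := hx
    have hsa : star (w * p * y) = star y * (p * star w) := by
      rw [star_mul, star_mul, (IsSelfAdjoint.of_nonneg hp).star_eq]
    refine ⟨2, ![star w, y], ?_, ?_⟩
    · rw [Fin.sum_univ_two, hsa, ← sub_nonneg]
      simp only [Matrix.cons_val_zero, Matrix.cons_val_one, star_star]
      refine (star_left_conjugate_nonneg hp (star w - y)).trans_eq ?_
      simp only [star_sub, star_star, mul_sub, sub_mul, mul_assoc]
      abel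
    · rw [Fin.sum_univ_two, hsa, ← sub_nonneg]
      simp only [Matrix.cons_val_zero, Matrix.cons_val_one, star_star]
      refine (star_left_conjugate_nonneg hp (star w + y)).trans_eq ?_
      simp only [star_add, star_star, mul_add, add_mul, mul_assoc]
      abel
  | zero => exact ⟨0, Fin.elim0, by simp, by simp⟩
  | add x y _ _ hx hy =>
    obtain ⟨L, s, h1, h2⟩ := hx
    obtain ⟨L', t, h3, h4⟩ := hy
    refine ⟨L + L', Fin.append s t, ?_, ?_⟩
    · simp only [Fin.sum_univ_add, Fin.append_left, Fin.append_right, star_add]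
      exact (le_of_eq (by abel)).trans (add_le_add h1 h3)
    · simp only [Fin.sum_univ_add, Fin.append_left, Fin.append_right, star_add]
      exact (le_of_eq (by abel)).trans (add_le_add h2 h4)
  | neg x _ hx =>
    obtain ⟨L, s, h1, h2⟩ := hx
    exact ⟨L, s, by simpa [add_comm] using h2, by simpa [add_comm] using h1⟩

theorem IsBase.posPart_cut_mem (hJ : IsBase J) {a : M} (haJ : a ∈ J) (ha : 0 ≤ a) {t : ℝ}
    (ht : 0 ≤ t) : cfc (fun x : ℝ => max (x - t) 0) a ∈ J :=
  hJ.cfc_mem (.of_nonneg ha) haJ (by fun_prop) (by simpa using ht)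

/-- Cuts away from zero are bounded. -/
theorem IsBase.isBdd_cut (hJ : IsBase J) {a : M} (haJ : a ∈ J) (ha : 0 ≤ a) {t : ℝ} (ht : 0 < t) :
    IsBdd J (cfc (fun x : ℝ => max (x - t) 0) a) := by
  refine ⟨hJ.posPart_cut_mem haJ ha ht.le, cfc_nonneg fun x _ => le_max_right _ _,
    fun p hpJ hp hp0 => ?_⟩
  obtain ⟨z, hz, hza⟩ := Metric.mem_closure_iff.1 (hJ.simple p hpJ hp0 a haJ) (t / 2) (half_pos ht)
  obtain ⟨L, s, hs, -⟩ := exists_sum_ge hp hz
  have hsa : IsSelfAdjoint (a - z + star (a - z)) := by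
    show star _ = _
    rw [star_add, star_star, add_comm]
  have h1 : (2 : ℝ) • a - t • (1 : M) ≤ ∑ j, star (s j) * p * s j := by
    refine le_trans ?_ hs
    have hn : ‖a - z + star (a - z)‖ ≤ t := by
      refine (norm_add_le _ _).trans ?_
      rw [norm_star, ← dist_eq_norm]
      linarith
    have h2 := hsa.le_algebraMap_norm_self.trans
      ((Algebra.algebraMap_eq_smul_one _).le.trans
        (smul_le_smul_of_nonneg_right hn (zero_le_one (α := M))))
    rw [sub_le_iff_le_add, ← sub_le_iff_le_add']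
    refine le_trans (le_of_eq ?_) h2
    rw [star_sub, (IsSelfAdjoint.of_nonneg ha).star_eq, two_smul]
    abel
  set g : ℝ → ℝ := fun x => Real.sqrt (max (x - t) 0 / max (2 * x - t) t) with hg
  have hgc : Continuous g := by
    refine Real.continuous_sqrt.comp (Continuous.div (by fun_prop) (by fun_prop) fun x => ?_)
    exact (lt_max_of_lt_right ht).ne'
  have has : IsSelfAdjoint a := IsSelfAdjoint.of_nonneg ha
  set k := cfc g a with hk
  have hks : star k = k := (cfc_predicate g a : IsSelfAdjoint k).star_eq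
  have e : (2 : ℝ) • a - t • (1 : M) = cfc (fun x : ℝ => 2 * x - t) a := by
    rw [cfc_sub (fun x : ℝ => 2 * x) (fun _ => t) a (by fun_prop) (by fun_prop),
      cfc_const_mul_id (2 : ℝ) a has, cfc_const t a has, Algebra.algebraMap_eq_smul_one]
  have e2 : k * ((2 : ℝ) • a - t • (1 : M)) * k = cfc (fun x : ℝ => max (x - t) 0) a := by
    rw [e, hk, ← cfc_mul g (fun x => 2 * x - t) a hgc.continuousOn (by fun_prop),
      ← cfc_mul (fun x => g x * (2 * x - t)) g a
        (hgc.mul (by fun_prop)).continuousOn hgc.continuousOn]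
    refine cfc_congr fun x _ => ?_
    have hd : 0 < max (2 * x - t) t := lt_max_of_lt_right ht
    show g x * (2 * x - t) * g x = _
    rw [mul_right_comm, hg, Real.mul_self_sqrt (by positivity)]
    rcases le_total x t with h | h
    · simp [max_eq_right (sub_nonpos.2 h)]
    · rw [max_eq_left (sub_nonneg.2 h), max_eq_left (by linarith)]
      rw [max_eq_left (by linarith : t ≤ 2 * x - t)] at hd
      exact div_mul_cancel₀ _ hd.ne'
  refine ⟨L, fun j => s j * k, ?_⟩
  rw [← e2]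
  refine (IsSelfAdjoint.conjugate_le_conjugate h1 (cfc_predicate g a)).trans_eq ?_
  simp only [Finset.mul_sum, Finset.sum_mul, star_mul, hks, mul_assoc]
  rfl

omit [StarOrderedRing M] in
theorem IsBdd.mem {v : M} (hv : IsBdd J v) : v ∈ J := hv.1

omit [StarOrderedRing M] in
theorem IsBdd.nonneg {v : M} (hv : IsBdd J v) : 0 ≤ v := hv.2.1

theorem IsBdd.of_le (hJ : IsBase J) {x v : M} (hv : IsBdd J v) (hx : 0 ≤ x) (h : x ≤ v) :
    IsBdd J x :=
  ⟨hJ.mem_of_le hv.mem hx h, hx, fun p hpJ hp hp0 =>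
    let ⟨L, s, hs⟩ := hv.2.2 p hpJ hp hp0
    ⟨L, s, h.trans hs⟩⟩

omit [StarOrderedRing M] in
theorem isBdd_zero (hJ : IsBase J) : IsBdd J (0 : M) :=
  ⟨hJ.zero_mem, le_rfl, fun _ _ _ _ => ⟨0, Fin.elim0, by simp⟩⟩

theorem IsBdd.add (hJ : IsBase J) {v w : M} (hv : IsBdd J v) (hw : IsBdd J w) :
    IsBdd J (v + w) := by
  refine ⟨hJ.add_mem hv.mem hw.mem, add_nonneg hv.nonneg hw.nonneg, fun p hpJ hp hp0 => ?_⟩
  obtain ⟨L, s, hs⟩ := hv.2.2 p hpJ hp hp0
  obtain ⟨L', t, ht⟩ := hw.2.2 p hpJ hp hp0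
  exact ⟨L + L', Fin.append s t, by simpa [Fin.sum_univ_add] using add_le_add hs ht⟩

theorem IsBdd.conj (hJ : IsBase J) {v : M} (hv : IsBdd J v) (c : M) :
    IsBdd J (star c * v * c) := by
  refine ⟨hJ.mul_right _ (hJ.mul_left _ hv.mem), star_left_conjugate_nonneg hv.nonneg c,
    fun p hpJ hp hp0 => ?_⟩
  obtain ⟨L, s, hs⟩ := hv.2.2 p hpJ hp hp0
  refine ⟨L, fun j => s j * c, (star_left_conjugate_le_conjugate hs c).trans_eq ?_⟩
  simp only [Finset.mul_sum, Finset.sum_mul, star_mul, mul_assoc]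

theorem IsBdd.smul (hJ : IsBase J) {v : M} (hv : IsBdd J v) {r : ℝ} (hr : 0 ≤ r) :
    IsBdd J (r • v) := by
  have h := hv.conj hJ (Real.sqrt r • (1 : M))
  simpa [star_smul, smul_smul, Real.mul_self_sqrt hr] using h

/-- A unit of a positive element below a bounded one is bounded. -/
theorem IsBdd.of_mul_eq (hJ : IsBase J) {h₀ h₁ : M} (h : IsBdd J h₀) (h1 : 0 ≤ h₁)
    (he : h₀ * h₁ = h₁) : IsBdd J h₁ := by
  have hs₀ := IsSelfAdjoint.of_nonneg h.nonneg
  have he' : h₁ * h₀ = h₁ := by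
    have := congrArg star he
    rwa [star_mul, hs₀.star_eq, (IsSelfAdjoint.of_nonneg h1).star_eq] at this
  have hle : h₁ ≤ (‖h₁‖ * ‖h₀‖) • h₀ := by
    have h2 : h₁ ≤ ‖h₁‖ • (1 : M) :=
      (IsSelfAdjoint.le_algebraMap_norm_self (.of_nonneg h1)).trans_eq
        (Algebra.algebraMap_eq_smul_one _)
    have h3 : h₀ * h₁ * h₀ ≤ h₀ * (‖h₁‖ • (1 : M)) * h₀ :=
      IsSelfAdjoint.conjugate_le_conjugate h2 hs₀
    have hq : star (CFC.sqrt h₀) = CFC.sqrt h₀ :=
      (IsSelfAdjoint.of_nonneg (CFC.sqrt_nonneg h₀)).star_eq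
    have h4 : h₀ * h₀ ≤ ‖h₀‖ • h₀ := by
      have h5 := (IsSelfAdjoint.le_algebraMap_norm_self hs₀).trans_eq
        (Algebra.algebraMap_eq_smul_one _)
      have h6 := IsSelfAdjoint.conjugate_le_conjugate h5 (c := CFC.sqrt h₀) hq
      have hqq := CFC.sqrt_mul_sqrt_self h₀ h.nonneg
      rw [mul_smul_comm, smul_mul_assoc, mul_one, hqq] at h6
      refine le_trans (le_of_eq ?_) h6
      generalize CFC.sqrt h₀ = q at hqq
      subst hqq
      simp only [mul_assoc]
    calc h₁ = h₀ * h₁ * h₀ := by rw [he, he']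
      _ ≤ ‖h₁‖ • (h₀ * h₀) := by simpa [mul_smul_comm, smul_mul_assoc] using h3
      _ ≤ ‖h₁‖ • ‖h₀‖ • h₀ := smul_le_smul_of_nonneg_left h4 (norm_nonneg _)
      _ = _ := smul_smul _ _ _
  exact (h.smul hJ (by positivity)).of_le hJ h1 hle

theorem IsTri.isBdd (hJ : IsBase J) {v : M} (hv : IsTri J v) : IsBdd J v := by
  obtain ⟨hv0, -, w, g, hw0, -, hg0, -, hwv, hgw, hg⟩ := hv
  exact hg.of_mul_eq hJ hv0 (by rw [← hwv, ← mul_assoc, hgw])

omit [StarOrderedRing M] in
theorem IsTri.nonneg {v : M} (hv : IsTri J v) : 0 ≤ v := hv.1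

omit [StarOrderedRing M] in
theorem IsTri.norm_le {v : M} (hv : IsTri J v) : ‖v‖ ≤ 1 := hv.2.1

theorem IsTri.mem (hJ : IsBase J) {v : M} (hv : IsTri J v) : v ∈ J := (hv.isBdd hJ).mem

theorem continuous_ramp (η : ℝ) : Continuous (Uni.ramp η) := by unfold Uni.ramp; fun_prop

theorem ramp_nonneg (η t : ℝ) : 0 ≤ Uni.ramp η t := le_min zero_le_one (le_max_left _ _)

theorem ramp_le_one (η t : ℝ) : Uni.ramp η t ≤ 1 := min_le_left _ _

theorem ramp_eq_zero {η t : ℝ} (hη : 0 < η) (ht : t ≤ η / 2) : Uni.ramp η t = 0 := by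
  have h : 2 * t / η - 1 ≤ 0 := by rw [sub_nonpos, div_le_one hη]; linarith
  simp [Uni.ramp, max_eq_left h]

theorem ramp_eq_one {η t : ℝ} (hη : 0 < η) (ht : η ≤ t) : Uni.ramp η t = 1 := by
  have h : 1 ≤ 2 * t / η - 1 := by rw [le_sub_iff_add_le, le_div_iff₀ hη]; linarith
  exact min_eq_left (le_max_of_le_right h)

theorem IsBase.isBdd_ramp (hJ : IsBase J) {a : M} (haJ : a ∈ J) (ha : 0 ≤ a) {η : ℝ}
    (hη : 0 < η) : IsBdd J (cfc (Uni.ramp η) a) := by
  refine ((hJ.isBdd_cut haJ ha (t := η / 4) (by positivity)).smul hJ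
    (r := 4 / η) (by positivity)).of_le hJ (cfc_nonneg fun t _ => ramp_nonneg η t) ?_
  rw [← cfc_smul (4 / η) (fun x : ℝ => max (x - η / 4) 0) a]
  refine cfc_mono (fun t _ => ?_) (continuous_ramp η).continuousOn (by fun_prop)
  rcases le_total t (η / 2) with h | h
  · rw [ramp_eq_zero hη h]; positivity
  · refine (ramp_le_one η t).trans ?_
    rw [max_eq_left (by linarith), smul_eq_mul, div_mul_eq_mul_div, le_div_iff₀ hη]
    linarith

theorem IsBase.isTri_ramp (hJ : IsBase J) {a : M} (haJ : a ∈ J) (ha : 0 ≤ a) {η : ℝ}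
    (hη : 0 < η) : IsTri J (cfc (Uni.ramp (4 * η)) a) := by
  have hn : ∀ ν : ℝ, 0 ≤ cfc (Uni.ramp ν) a ∧ ‖cfc (Uni.ramp ν) a‖ ≤ 1 := fun ν =>
    ⟨cfc_nonneg fun t _ => ramp_nonneg ν t, norm_cfc_le zero_le_one fun t _ => by
      rw [Real.norm_of_nonneg (ramp_nonneg ν t)]; exact ramp_le_one ν t⟩
  have hmul : ∀ ν, 0 < ν → cfc (Uni.ramp ν) a * cfc (Uni.ramp (2 * ν)) a =
      cfc (Uni.ramp (2 * ν)) a := fun ν hν => by
    rw [← cfc_mul _ _ a (continuous_ramp _).continuousOn (continuous_ramp _).continuousOn]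
    refine cfc_congr fun t _ => ?_
    rcases le_total t ν with h | h
    · simp [ramp_eq_zero (show 0 < 2 * ν by positivity) (show t ≤ 2 * ν / 2 by linarith)]
    · simp [ramp_eq_one hν h]
  refine ⟨(hn _).1, (hn _).2, cfc (Uni.ramp (2 * η)) a, cfc (Uni.ramp η) a, (hn _).1, (hn _).2,
    (hn _).1, (hn _).2, ?_, hmul η hη, hJ.isBdd_ramp haJ ha hη⟩
  simpa [← mul_assoc, show (2 : ℝ) * 2 = 4 by norm_num] using
    hmul (2 * η) (show 0 < 2 * η by positivity)

/-- Approximate units with two successive units. -/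
theorem IsBase.exists_tri (hJ : IsBase J) (C : Finset M) (hC : (↑C : Set M) ⊆ J) {ε : ℝ}
    (hε : 0 < ε) : ∃ v, IsTri J v ∧ ∀ c ∈ C, ‖v * c - c‖ ≤ ε ∧ ‖c * v - c‖ ≤ ε := by
  set a := ∑ c ∈ C, (star c * c + c * star c) with ha_def
  have ha : 0 ≤ a := Finset.sum_nonneg fun c _ =>
    add_nonneg (star_mul_self_nonneg c) (mul_star_self_nonneg c)
  have haJ : a ∈ J := hJ.sum_mem C fun c hc =>
    hJ.add_mem (hJ.mul_left _ (hC hc)) (hJ.mul_right _ (hC hc))
  set η : ℝ := ε ^ 2 / 4 with hη_def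
  have hη : 0 < η := by positivity
  refine ⟨cfc (Uni.ramp (4 * η)) a, hJ.isTri_ramp haJ ha hη, fun c hc => ?_⟩
  set k := cfc (fun t => 1 - Uni.ramp (4 * η) t) a with hk
  have hks : IsSelfAdjoint k := cfc_predicate _ a
  have hcr := continuous_ramp (4 * η)
  have ek : k = 1 - cfc (Uni.ramp (4 * η)) a := by
    rw [hk, cfc_sub (fun _ => (1 : ℝ)) _ a (by fun_prop) hcr.continuousOn, cfc_const_one ℝ a]
  have key : ∀ x : M, 0 ≤ x → x ≤ a → ‖k * x * k‖ ≤ ε ^ 2 := fun x hx hxa => by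
    refine (CStarAlgebra.norm_le_norm_of_nonneg_of_le (IsSelfAdjoint.conjugate_nonneg hx hks)
      (IsSelfAdjoint.conjugate_le_conjugate hxa hks)).trans ?_
    have e3 : k * a * k = cfc (fun t => (1 - Uni.ramp (4 * η) t) * t *
        (1 - Uni.ramp (4 * η) t)) a := by
      rw [hk]
      conv_lhs => arg 1; arg 2; rw [← cfc_id' ℝ a]
      rw [← cfc_mul _ _ a (by fun_prop) (by fun_prop),
        ← cfc_mul _ _ a (by fun_prop) (by fun_prop)]
    rw [e3]
    refine norm_cfc_le (sq_nonneg ε) fun t ht => ?_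
    have ht0 := spectrum_nonneg_of_nonneg ha ht
    have hr0 := ramp_nonneg (4 * η) t
    have hr1 := ramp_le_one (4 * η) t
    rw [Real.norm_of_nonneg (mul_nonneg (mul_nonneg (by linarith) ht0) (by linarith))]
    rcases le_total (4 * η) t with h | h
    · rw [ramp_eq_one (by positivity) h]; simp [sq_nonneg]
    · calc (1 - Uni.ramp (4 * η) t) * t * (1 - Uni.ramp (4 * η) t) ≤ 1 * (4 * η) * 1 :=
            mul_le_mul (mul_le_mul (by linarith) h ht0 zero_le_one) (by linarith) (by linarith)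
              (by positivity)
        _ = ε ^ 2 := by rw [hη_def]; ring
  have hle : ∀ x ∈ C, star x * x + x * star x ≤ a := fun x hx =>
    Finset.single_le_sum (f := fun c => star c * c + c * star c)
      (fun d _ => add_nonneg (star_mul_self_nonneg d) (mul_star_self_nonneg d)) hx
  constructor
  · rw [norm_sub_rev, show c - cfc (Uni.ramp (4 * η)) a * c = k * c by rw [ek, sub_mul, one_mul]]
    have h := key _ (mul_star_self_nonneg c)
      ((le_add_of_nonneg_left (star_mul_self_nonneg c)).trans (hle c hc))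
    rw [show k * (c * star c) * k = (k * c) * star (k * c) by
      rw [star_mul, hks.star_eq]; simp only [mul_assoc], CStarRing.norm_self_mul_star] at h
    nlinarith [norm_nonneg (k * c)]
  · rw [norm_sub_rev, show c - c * cfc (Uni.ramp (4 * η)) a = c * k by rw [ek, mul_sub, mul_one]]
    have h := key _ (star_mul_self_nonneg c)
      ((le_add_of_nonneg_right (mul_star_self_nonneg c)).trans (hle c hc))
    rw [show k * (star c * c) * k = star (c * k) * (c * k) by
      rw [star_mul, hks.star_eq]; simp only [mul_assoc], CStarRing.norm_star_mul_self] at h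
    nlinarith [norm_nonneg (c * k)]

/-- A countable approximate unit with two successive units. -/
theorem IsBase.exists_tri_seq (hJ : IsBase J) : ∃ v : ℕ → M, (∀ n, IsTri J (v n)) ∧
    ∀ c ∈ J, Tendsto (fun n => v n * c) atTop (𝓝 c) ∧ Tendsto (fun n => c * v n) atTop (𝓝 c) := by
  classical
  obtain ⟨S, hSc, hSJ, hS⟩ := hJ.separable
  obtain ⟨d, hd⟩ := ((hSc.insert (0 : M)).exists_eq_range (Set.insert_nonempty _ _))
  have hdJ : ∀ i, d i ∈ J := fun i => by
    have : d i ∈ insert 0 S := hd ▸ Set.mem_range_self i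
    rcases this with h | h
    · rw [h]; exact hJ.zero_mem
    · exact hSJ h
  choose v hv hvd using fun n : ℕ => hJ.exists_tri ((Finset.range (n + 1)).image d)
    (by simpa [Set.subset_def] using fun i _ => hdJ i)
    (show (0 : ℝ) < 1 / (n + 1) by positivity)
  refine ⟨v, hv, fun c hc => ?_⟩
  have key : ∀ ε > 0, ∃ N, ∀ n ≥ N, ‖v n * c - c‖ < ε ∧ ‖c * v n - c‖ < ε := fun ε hε => by
    obtain ⟨y, hy, hcy⟩ := Metric.mem_closure_iff.1 (hS hc) (ε / 4) (by positivity)
    obtain ⟨i, rfl⟩ : y ∈ Set.range d := hd ▸ Set.mem_insert_of_mem _ hy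
    obtain ⟨N, hN⟩ := exists_nat_one_div_lt (show (0 : ℝ) < ε / 4 by positivity)
    refine ⟨max N i, fun n hn => ?_⟩
    have hvi := hvd n (d i) (Finset.mem_image_of_mem d
      (Finset.mem_range.2 (Nat.lt_succ_of_le (le_of_max_le_right hn))))
    have h1 : (1 : ℝ) / (n + 1) ≤ 1 / (N + 1) := by
      gcongr
      exact le_of_max_le_left hn
    rw [dist_eq_norm] at hcy
    have hv1 := (hv n).norm_le
    constructor
    · calc ‖v n * c - c‖ = ‖v n * (c - d i) + (v n * d i - d i) + (d i - c)‖ := by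
            rw [mul_sub]; congr 1; abel
        _ ≤ ‖v n * (c - d i)‖ + ‖v n * d i - d i‖ + ‖d i - c‖ := norm_add₃_le
        _ < ε := by
            have : ‖v n * (c - d i)‖ ≤ ‖c - d i‖ :=
              (norm_mul_le _ _).trans (mul_le_of_le_one_left (norm_nonneg _) hv1)
            rw [norm_sub_rev (d i) c]
            linarith [hvi.1]
    · calc ‖c * v n - c‖ = ‖(c - d i) * v n + (d i * v n - d i) + (d i - c)‖ := by
            rw [sub_mul]; congr 1; abel
        _ ≤ ‖(c - d i) * v n‖ + ‖d i * v n - d i‖ + ‖d i - c‖ := norm_add₃_le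
        _ < ε := by
            have : ‖(c - d i) * v n‖ ≤ ‖c - d i‖ :=
              (norm_mul_le _ _).trans (mul_le_of_le_one_right (norm_nonneg _) hv1)
            rw [norm_sub_rev (d i) c]
            linarith [hvi.2]
  constructor <;> refine Metric.tendsto_atTop.2 fun ε hε => ?_ <;>
    obtain ⟨N, hN⟩ := key ε hε <;> refine ⟨N, fun n hn => ?_⟩ <;> rw [dist_eq_norm]
  · exact (hN n hn).1
  · exact (hN n hn).2

/-- There is a bounded element of norm one. -/
theorem IsBase.exists_bdd_norm_one (hJ : IsBase J) : ∃ u, IsBdd J u ∧ ‖u‖ = 1 := by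
  obtain ⟨x, hxJ, hx⟩ := hJ.exists_ne_zero
  have hη : 0 < ‖star x * x‖ := by
    rw [CStarRing.norm_star_mul_self]; exact mul_self_pos.2 (norm_ne_zero_iff.2 hx)
  refine ⟨cfc (Uni.ramp ‖star x * x‖) (star x * x),
    hJ.isBdd_ramp (hJ.mul_left _ hxJ) (star_mul_self_nonneg x) hη, le_antisymm ?_ ?_⟩
  · exact norm_cfc_le zero_le_one fun t _ => by
      rw [Real.norm_of_nonneg (ramp_nonneg _ t)]; exact ramp_le_one _ t
  · have : Nontrivial M := ⟨⟨x, 0, hx⟩⟩
    have hmem := CStarAlgebra.norm_mem_spectrum_of_nonneg (a := star x * x)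
      (star_mul_self_nonneg x)
    have := norm_apply_le_norm_cfc (Uni.ramp ‖star x * x‖) (star x * x) hmem
      (continuous_ramp _).continuousOn
    rwa [ramp_eq_one hη le_rfl, norm_one] at this

theorem IsBase.exists_bdd_ne_zero (hJ : IsBase J) : ∃ u, IsBdd J u ∧ u ≠ 0 :=
  let ⟨u, hu, hu1⟩ := hJ.exists_bdd_norm_one
  ⟨u, hu, fun h => by simp [h] at hu1⟩

/-- An additive homogeneous function on the positive cone extends to a linear functional. -/
theorem exists_linear (F : M → ℝ) (hadd : ∀ x y, 0 ≤ x → 0 ≤ y → F (x + y) = F x + F y)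
    (hsmul : ∀ (r : ℝ) x, 0 ≤ r → 0 ≤ x → F (r • x) = r * F x) :
    ∃ τ : M →ₗ[ℂ] ℂ, ∀ p, 0 ≤ p → τ p = (F p : ℂ) := by
  have h0 : F 0 = 0 := by simpa using hsmul 0 0 le_rfl le_rfl
  let re' : M →ₗ[ℝ] M :=
    { toFun := fun x => (2⁻¹ : ℝ) • (x + star x)
      map_add' := fun x y => by simp only [star_add]; module
      map_smul' := fun t x => by simp only [star_smul, star_trivial, RingHom.id_apply]; module }
  have hre_norm : ∀ x, ‖re' x‖ ≤ ‖x‖ := fun x => by
    show ‖(2⁻¹ : ℝ) • (x + star x)‖ ≤ ‖x‖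
    rw [norm_smul, Real.norm_of_nonneg (by norm_num)]
    have := norm_add_le x (star x)
    rw [norm_star] at this
    linarith
  have hre_sa : ∀ x, IsSelfAdjoint (re' x) := fun x => by
    show star ((2⁻¹ : ℝ) • (x + star x)) = _
    rw [star_smul, star_trivial, star_add, star_star, add_comm]
    rfl
  have hval : ∀ x, 0 ≤ re' x + ‖x‖ • (1 : M) := fun x => by
    have h := (hre_sa x).neg_algebraMap_norm_le_self
    rw [neg_le_iff_add_nonneg', Algebra.algebraMap_eq_smul_one] at h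
    refine h.trans ?_
    have := smul_le_smul_of_nonneg_right (hre_norm x) (zero_le_one (α := M))
    exact (add_le_add this le_rfl).trans_eq (add_comm _ _)
  set g : M → ℝ := fun x => F (re' x + ‖x‖ • (1 : M)) - ‖x‖ * F (1 : M) with hgdef
  have hind : ∀ x (k : ℝ), 0 ≤ k → 0 ≤ re' x + k • (1 : M) →
      g x = F (re' x + k • (1 : M)) - k * F (1 : M) := by
    intro x k hk hxk
    have e1 := hadd _ _ (hval x) (smul_nonneg hk (zero_le_one (α := M)))
    have e2 := hadd _ _ hxk (smul_nonneg (norm_nonneg x) (zero_le_one (α := M)))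
    rw [hsmul _ _ hk zero_le_one] at e1
    rw [hsmul _ _ (norm_nonneg x) zero_le_one] at e2
    rw [add_right_comm] at e2
    simp only [hgdef]
    linarith
  have hga : ∀ x y, g (x + y) = g x + g y := fun x y => by
    have e : re' (x + y) + (‖x‖ + ‖y‖) • (1 : M) =
        (re' x + ‖x‖ • (1 : M)) + (re' y + ‖y‖ • (1 : M)) := by
      rw [map_add, add_smul]; abel
    rw [hind (x + y) (‖x‖ + ‖y‖) (by positivity) (by rw [e]; exact add_nonneg (hval x) (hval y)),
      e, hadd _ _ (hval x) (hval y)]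
    simp only [hgdef]
    ring
  have hgp : ∀ p, 0 ≤ p → g p = F p := fun p hp => by
    have e : re' p = p := by
      show (2⁻¹ : ℝ) • (p + star p) = p
      rw [(IsSelfAdjoint.of_nonneg hp).star_eq]
      module
    rw [hind p 0 le_rfl (by simpa [e] using hp)]
    simp [e]
  have hgz : ∀ q, re' q = 0 → g q = 0 := fun q hq => by
    rw [hind q 0 le_rfl (by simp [hq])]
    simp [hq, h0]
  have hnn : ∀ (t : ℝ) x, 0 ≤ t → g (t • x) = t * g x := fun t x ht => by
    have e : re' (t • x) + (t * ‖x‖) • (1 : M) = t • (re' x + ‖x‖ • (1 : M)) := by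
      rw [map_smul, mul_smul, smul_add]
    rw [hind (t • x) (t * ‖x‖) (by positivity) (by rw [e]; exact smul_nonneg ht (hval x)), e,
      hsmul _ _ ht (hval x)]
    simp only [hgdef]
    ring
  have hneg : ∀ x, g (-x) = -g x := fun x => by
    have := hga x (-x)
    rw [add_neg_cancel, hgz 0 (map_zero _)] at this
    linarith
  let gl : Module.Dual ℝ M :=
    { toFun := g
      map_add' := hga
      map_smul' := fun t x => by
        rw [RingHom.id_apply, smul_eq_mul]
        rcases le_total 0 t with ht | ht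
        · exact hnn t x ht
        · have := hnn (-t) x (neg_nonneg.2 ht)
          rw [neg_smul, hneg] at this
          linarith }
  refine ⟨Module.Dual.extendRCLike (𝕜 := ℂ) gl, fun p hp => ?_⟩
  have hI : gl ((Complex.I : ℂ) • p) = 0 := by
    refine hgz _ ?_
    show (2⁻¹ : ℝ) • (Complex.I • p + star (Complex.I • p)) = 0
    rw [star_smul, (IsSelfAdjoint.of_nonneg hp).star_eq, Complex.star_def, Complex.conj_I]
    simp
  show ((gl p : ℝ) : ℂ) - Complex.I * ((gl ((Complex.I : ℂ) • p) : ℝ) : ℂ) = _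
  rw [hI, Complex.ofReal_zero, mul_zero, sub_zero]
  exact congrArg Complex.ofReal (hgp p hp)

namespace ETr

variable (T : ETr J)

omit [StarOrderedRing M] in
theorem map_zero (hJ : IsBase J) : T.t 0 = 0 := by
  simpa using T.smul 0 0 le_rfl hJ.zero_mem le_rfl

theorem map_sum (hJ : IsBase J) {ι : Type*} (s : Finset ι) {x : ι → M} (hx : ∀ i ∈ s, x i ∈ J)
    (hx0 : ∀ i ∈ s, 0 ≤ x i) : T.t (∑ i ∈ s, x i) = ∑ i ∈ s, T.t (x i) := by
  classical
  induction s using Finset.induction with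
  | empty => simpa using T.map_zero hJ
  | insert a s ha ih =>
    have hx' : ∀ i ∈ s, x i ∈ J := fun i hi => hx i (Finset.mem_insert_of_mem hi)
    have hx0' : ∀ i ∈ s, 0 ≤ x i := fun i hi => hx0 i (Finset.mem_insert_of_mem hi)
    rw [Finset.sum_insert ha, Finset.sum_insert ha,
      T.add _ _ (hx a (Finset.mem_insert_self a s)) (hJ.sum_mem s hx')
        (hx0 a (Finset.mem_insert_self a s)) (Finset.sum_nonneg hx0'),
      ih hx' hx0']

theorem conj_le (hJ : IsBase J) {p : M} (hpJ : p ∈ J) (hp : 0 ≤ p) (s : M) :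
    T.t (star s * p * s) ≤ ENNReal.ofReal (‖s‖ ^ 2) * T.t p := by
  set q := CFC.sqrt p
  have hq : star q = q := (IsSelfAdjoint.of_nonneg (CFC.sqrt_nonneg p)).star_eq
  have hqq : q * q = p := CFC.sqrt_mul_sqrt_self p hp
  have hqJ : q ∈ J := hJ.sqrt_mem hpJ hp
  have e : star s * p * s = star (q * s) * (q * s) := by
    rw [star_mul, hq, mul_assoc (star s) q, ← mul_assoc q, hqq, ← mul_assoc]
  rw [e, T.comm _ (hJ.mul_right s hqJ), ← T.smul _ p (sq_nonneg _) hpJ hp]
  refine T.mono _ _ (hJ.mul_right _ (hJ.mul_right s hqJ)) (hJ.rsmul_mem _ hpJ)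
    (mul_star_self_nonneg _) ?_
  have h2 : s * star s ≤ ‖s‖ ^ 2 • (1 : M) := by
    refine (IsSelfAdjoint.le_algebraMap_norm_self (IsSelfAdjoint.mul_star_self _)).trans_eq ?_
    rw [Algebra.algebraMap_eq_smul_one, CStarRing.norm_self_mul_star, ← sq]
  have := star_right_conjugate_le_conjugate h2 q
  simpa [star_mul, hq, mul_assoc, hqq] using this

/-- Bounded elements are uniformly dominated by any nonzero positive element in all traces. -/
theorem exists_le_mul (hJ : IsBase J) {v : M} (hv : IsBdd J v) {p : M} (hpJ : p ∈ J) (hp : 0 ≤ p)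
    (hp0 : p ≠ 0) : ∃ K : ℝ, 0 < K ∧ ∀ T : ETr J, T.t v ≤ ENNReal.ofReal K * T.t p := by
  obtain ⟨L, s, hs⟩ := hv.2.2 p hpJ hp hp0
  refine ⟨1 + ∑ j, ‖s j‖ ^ 2, by positivity, fun T => ?_⟩
  have hm : ∀ j ∈ (Finset.univ : Finset (Fin L)), star (s j) * p * s j ∈ J :=
    fun j _ => hJ.mul_right _ (hJ.mul_left _ hpJ)
  refine (T.mono _ _ hv.mem (hJ.sum_mem _ hm) hv.nonneg hs).trans ?_
  rw [T.map_sum hJ _ hm fun j _ => star_left_conjugate_nonneg hp _]
  refine (Finset.sum_le_sum fun j _ => T.conj_le hJ hpJ hp (s j)).trans ?_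
  rw [← Finset.sum_mul, ← ENNReal.ofReal_sum_of_nonneg fun j _ => sq_nonneg _]
  gcongr
  linarith

theorem ne_top (hJ : IsBase J) {u : M} (hu : IsBdd J u) (hu0 : u ≠ 0) (hT : T.t u = 1) {g : M}
    (hg : IsBdd J g) : T.t g ≠ ∞ := by
  obtain ⟨K, -, h⟩ := exists_le_mul hJ hg hu.mem hu.nonneg hu0
  have := h T
  rw [hT, mul_one] at this
  exact ne_top_of_le_ne_top ENNReal.ofReal_ne_top this

theorem star_mul_self_ne_top (hJ : IsBase J) {u : M} (hu : IsBdd J u) (hu0 : u ≠ 0)
    (hT : T.t u = 1) {v : M} (hv : IsBdd J v) : T.t (star v * v) ≠ ∞ := by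
  have hs := IsSelfAdjoint.of_nonneg hv.nonneg
  refine T.ne_top hJ hu hu0 hT ?_
  simpa [hs.star_eq] using (hv.conj hJ (CFC.sqrt v)).of_le hJ (star_mul_self_nonneg v) (le_of_eq (by
    have hq := CFC.sqrt_mul_sqrt_self v hv.nonneg
    have hqs : star (CFC.sqrt v) = CFC.sqrt v :=
      (IsSelfAdjoint.of_nonneg (CFC.sqrt_nonneg v)).star_eq
    rw [hs.star_eq, hqs]
    generalize CFC.sqrt v = q at hq
    subst hq
    simp only [mul_assoc]))

variable {T} {v : M}

omit [PartialOrder M] [StarOrderedRing M] in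
theorem compress_mem (hJ : IsBase J) (hv : v ∈ J) (x : M) : star v * x * v ∈ J :=
  hJ.mul_left _ hv

theorem compress_ne_top (hJ : IsBase J) (hv : v ∈ J) (hfin : T.t (star v * v) ≠ ∞) {x : M}
    (hx : 0 ≤ x) : T.t (star v * x * v) ≠ ∞ := by
  have h : star v * x * v ≤ ‖x‖ • (star v * v) := by
    have := star_left_conjugate_le_conjugate
      ((IsSelfAdjoint.le_algebraMap_norm_self (.of_nonneg hx)).trans_eq
        (Algebra.algebraMap_eq_smul_one _)) v
    simpa [mul_smul_comm, smul_mul_assoc] using this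
  refine ne_top_of_le_ne_top ?_ (T.mono _ _ (compress_mem hJ hv x)
    (hJ.rsmul_mem _ (hJ.mul_left _ hv)) (star_left_conjugate_nonneg hx v) h)
  rw [T.smul _ _ (norm_nonneg x) (hJ.mul_left _ hv) (star_mul_self_nonneg v)]
  exact ENNReal.mul_ne_top ENNReal.ofReal_ne_top hfin

theorem val_add (hJ : IsBase J) (hv : v ∈ J) (hfin : T.t (star v * v) ≠ ∞) {x y : M} (hx : 0 ≤ x)
    (hy : 0 ≤ y) : T.val v (x + y) = T.val v x + T.val v y := by
  rw [val, val, val, mul_add, add_mul,
    T.add _ _ (compress_mem hJ hv x) (compress_mem hJ hv y) (star_left_conjugate_nonneg hx v)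
      (star_left_conjugate_nonneg hy v),
    ENNReal.toReal_add (compress_ne_top hJ hv hfin hx) (compress_ne_top hJ hv hfin hy)]

theorem val_smul (hJ : IsBase J) (hv : v ∈ J) {r : ℝ} (hr : 0 ≤ r) {x : M} (hx : 0 ≤ x) :
    T.val v (r • x) = r * T.val v x := by
  rw [val, val, mul_smul_comm, smul_mul_assoc,
    T.smul _ _ hr (compress_mem hJ hv x) (star_left_conjugate_nonneg hx v), ENNReal.toReal_mul,
    ENNReal.toReal_ofReal hr]

variable (T) in
/-- The trace compressed by `v`, as a positive functional on `M`. -/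
def loc (hJ : IsBase J) (v : M) (hv : v ∈ J) (hfin : T.t (star v * v) ≠ ∞) : M →ₗ[ℂ] ℂ :=
  (exists_linear (T.val v) (fun _ _ hx hy => val_add hJ hv hfin hx hy)
    fun _ _ hr hx => val_smul hJ hv hr hx).choose

theorem loc_apply (hJ : IsBase J) (hv : v ∈ J) (hfin : T.t (star v * v) ≠ ∞) {x : M} (hx : 0 ≤ x) :
    T.loc hJ v hv hfin x = (T.val v x : ℂ) :=
  (exists_linear (T.val v) (fun _ _ hx hy => val_add hJ hv hfin hx hy)
    fun _ _ hr hx => val_smul hJ hv hr hx).choose_spec x hx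

theorem loc_nonneg (hJ : IsBase J) (hv : v ∈ J) (hfin : T.t (star v * v) ≠ ∞) (a : M) :
    0 ≤ T.loc hJ v hv hfin (star a * a) := by
  rw [loc_apply hJ hv hfin (star_mul_self_nonneg a)]
  exact Complex.zero_le_real.2 ENNReal.toReal_nonneg

theorem val_mono (hJ : IsBase J) (hv : v ∈ J) (hfin : T.t (star v * v) ≠ ∞) {x y : M} (hx : 0 ≤ x)
    (h : x ≤ y) : T.val v x ≤ T.val v y :=
  ENNReal.toReal_mono (compress_ne_top hJ hv hfin (hx.trans h))
    (T.mono _ _ (compress_mem hJ hv x) (compress_mem hJ hv y) (star_left_conjugate_nonneg hx v)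
      (star_left_conjugate_le_conjugate h v))

end ETr

end Order

end Vale.Agent.P095.NU
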