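import Mathlib

/-!
# P095: the hypotheses on a possibly non-unital algebra
-/

open scoped ComplexOrder Matrix

noncomputable section

namespace Vale.Agent.P095.NU

/-- A nonzero C⋆-algebra without closed two-sided ideals other than zero and itself. -/
def IsSimpleCStar (A : Type*) [NonUnitalCStarAlgebra A] : Prop :=
  (∃ a : A, a ≠ 0) ∧ ∀ I : TwoSidedIdeal A, IsClosed (I : Set A) → I = ⊥ ∨ I = ⊤

/-- The completely positive approximation property. -/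
def IsNuclearAlg (A : Type*) [NonUnitalCStarAlgebra A] : Prop :=
  ∀ (C : Finset A) (ε : ℝ), 0 < ε → ∃ (D : ℕ) (φ : A →ₗ[ℂ] Matrix (Fin D) (Fin D) ℂ)
    (ψ : Matrix (Fin D) (Fin D) ℂ →ₗ[ℂ] A),
    (∀ (k : ℕ) (x : Fin k → A) (v : Fin k → Fin D → ℂ),
      0 ≤ ∑ i, ∑ j, star (v i) ⬝ᵥ (φ (star (x i) * x j) *ᵥ v j)) ∧
    (∀ (a : A) (v : Fin D → ℂ), ‖a‖ ≤ 1 → star v ⬝ᵥ (φ (star a * a) *ᵥ v) ≤ star v ⬝ᵥ v) ∧
    (∀ (k : ℕ) (y : Fin k → Matrix (Fin D) (Fin D) ℂ) (b : Fin k → A),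
      ∃ a : A, ∑ i, ∑ j, star (b i) * ψ (star (y i) * y j) * b j = star a * a) ∧
    ‖ψ 1‖ ≤ 1 ∧
    ∀ c ∈ C, ‖ψ (φ c) - c‖ ≤ ε

end Vale.Agent.P095.NU
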