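import Vale.Agent.P095.NU.Setting
import Vale.Agent.P095.NU.Hypotheses
import Vale.Agent.P095.Uni.FromZStable

/-!
# P095: a possibly non-unital algebra inside its multiplier algebra

`M` is the multiplier algebra of `A` and `J` the image of `A`.
-/

open scoped ComplexOrder Matrix TensorProduct
open Filter Topology

set_option maxSynthPendingDepth 3

universe u v

noncomputable section

namespace Vale.Agent.P095.NU.Bridge

/-- The multiplier algebra. -/
abbrev Mult (A : Type u) [NonUnitalCStarAlgebra A] : Type u := DoubleCentralizer ℂ A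

variable {A : Type u} [NonUnitalCStarAlgebra A]

variable (A) in
/-- The embedding of `A` into its multipliers. -/
def emb : A →⋆ₙₐ[ℂ] Mult A := DoubleCentralizer.coeHom

variable (A) in
/-- The image of `A` in its multipliers. -/
def base : Set (Mult A) := Set.range (emb A)

theorem emb_fst (a x : A) : (emb A a).fst x = a * x := rfl

theorem mult_ext {m n : Mult A} (h : ∀ x, m.fst x = n.fst x) : m = n := by
  rw [← sub_eq_zero, ← norm_eq_zero, ← DoubleCentralizer.norm_fst, norm_eq_zero]
  exact ContinuousLinearMap.ext fun x => by simp [h x]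

theorem norm_emb (a : A) : ‖emb A a‖ = ‖a‖ := by
  rw [← DoubleCentralizer.norm_fst]
  exact ContinuousLinearMap.opNorm_mul_apply ℂ A a

theorem emb_injective : Function.Injective (emb A) := fun a b h => by
  rw [← sub_eq_zero, ← norm_eq_zero, ← norm_emb, map_sub, h, sub_self, norm_zero]

theorem eq_of_mul_left {a b : A} (h : ∀ z, z * a = z * b) : a = b := by
  rw [← sub_eq_zero, ← CStarRing.star_mul_self_eq_zero_iff, mul_sub, h, sub_self]

theorem fst_mul (m : Mult A) (x y : A) : m.fst (x * y) = m.fst x * y :=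
  eq_of_mul_left fun z => by
    rw [← m.central, ← mul_assoc, ← mul_assoc, m.central]

theorem mul_emb (m : Mult A) (x : A) : m * emb A x = emb A (m.fst x) :=
  mult_ext fun y => fst_mul m x y

theorem emb_mul (m : Mult A) (x : A) : emb A x * m = emb A (m.snd x) :=
  mult_ext fun y => (m.central x y).symm

theorem isClosed_base : IsClosed (base A) :=
  ((AddMonoidHomClass.isometry_of_norm (emb A) norm_emb).isClosedEmbedding).isClosed_range

/-- `A` is a base inside its multipliers. -/
theorem isBase [TopologicalSpace.SeparableSpace A] (hs : IsSimpleCStar A) : IsBase (base A) where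
  isClosed := isClosed_base
  zero_mem := ⟨0, map_zero _⟩
  add_mem := by rintro _ _ ⟨a, rfl⟩ ⟨b, rfl⟩; exact ⟨a + b, map_add _ _ _⟩
  smul_mem := by rintro z _ ⟨a, rfl⟩; exact ⟨z • a, map_smul _ _ _⟩
  star_mem := by rintro _ ⟨a, rfl⟩; exact ⟨star a, map_star _ _⟩
  mul_left := by rintro m _ ⟨a, rfl⟩; exact ⟨_, (mul_emb m a).symm⟩
  mul_right := by rintro _ m ⟨a, rfl⟩; exact ⟨_, (emb_mul m a).symm⟩
  essential := fun m h => mult_ext fun x => by
    have := h _ ⟨x, rfl⟩
    rw [mul_emb, ← map_zero (emb A)] at this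
    simpa using emb_injective this
  exists_ne_zero := by
    obtain ⟨a, ha⟩ := hs.1
    exact ⟨_, ⟨a, rfl⟩, (map_ne_zero_iff _ emb_injective).2 ha⟩
  separable := by
    have hi := AddMonoidHomClass.isometry_of_norm (emb A) norm_emb
    obtain ⟨S, hS, hd⟩ := TopologicalSpace.exists_countable_dense A
    refine ⟨emb A '' S, hS.image _, Set.image_subset_range _ _, ?_⟩
    rintro _ ⟨a, rfl⟩
    exact image_closure_subset_closure_image hi.continuous ⟨a, hd a, rfl⟩
  simple := by
    rintro _ ⟨p, rfl⟩ hp _ ⟨x, rfl⟩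
    have hp0 : p ≠ 0 := fun h => hp (by rw [h, map_zero])
    set H : AddSubgroup A := (AddSubgroup.closure {y | ∃ w z, y = w * p * z}).topologicalClosure
    have hgen : ∀ w z, w * p * z ∈ H := fun w z =>
      AddSubgroup.le_topologicalClosure _ (AddSubgroup.subset_closure ⟨w, z, rfl⟩)
    have hl : ∀ a b, b ∈ H → a * b ∈ H := fun a b hb => by
      refine closure_minimal ?_ ((AddSubgroup.isClosed_topologicalClosure _).preimage
        (continuous_const_mul a)) hb
      exact (AddSubgroup.closure_le (H.comap (AddMonoidHom.mulLeft a))).2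
        (by rintro _ ⟨w, z, rfl⟩; simpa [← mul_assoc] using hgen (a * w) z)
    have hr : ∀ a b, b ∈ H → b * a ∈ H := fun a b hb => by
      refine closure_minimal ?_ ((AddSubgroup.isClosed_topologicalClosure _).preimage
        (continuous_mul_const a)) hb
      exact (AddSubgroup.closure_le (H.comap (AddMonoidHom.mulRight a))).2
        (by rintro _ ⟨w, z, rfl⟩; simpa [mul_assoc] using hgen w (z * a))
    set I : TwoSidedIdeal A := .mk' H H.zero_mem H.add_mem H.neg_mem (hl _ _) (hr _ _)
    have hI : ∀ y, y ∈ I ↔ y ∈ H := fun y => TwoSidedIdeal.mem_mk' ..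
    rcases hs.2 I (by
      rw [show (I : Set A) = H from Set.ext hI]
      exact AddSubgroup.isClosed_topologicalClosure _) with h | h
    · have hm : star p * p * star p ∈ I := (hI _).2 (hgen _ _)
      rw [h, TwoSidedIdeal.mem_bot] at hm
      have : star (p * star p) * (p * star p) = 0 := by
        rw [star_mul, star_star, mul_assoc, ← mul_assoc (star p), hm, mul_zero]
      rw [CStarRing.star_mul_self_eq_zero_iff, CStarRing.mul_star_self_eq_zero_iff] at this
      exact absurd this hp0
    · have hx : x ∈ H := (hI x).1 (h ▸ TwoSidedIdeal.mem_top A)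
      have hi := AddMonoidHomClass.isometry_of_norm (emb A) norm_emb
      refine closure_mono ?_ (image_closure_subset_closure_image hi.continuous ⟨x, hx, rfl⟩)
      rintro _ ⟨y, hy, rfl⟩
      refine (AddSubgroup.closure_le ((AddSubgroup.closure
        {y | ∃ w ∈ base A, ∃ z ∈ base A, y = w * emb A p * z}).comap
          (AddMonoidHomClass.toAddMonoidHom (emb A)))).2 ?_ hy
      rintro _ ⟨w, z, rfl⟩
      exact AddSubgroup.subset_closure
        ⟨_, ⟨w, rfl⟩, _, ⟨z, rfl⟩, by simp [map_mul]⟩

/-! ### Automorphisms -/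

/-- An automorphism as a bounded linear map. -/
def autL (σ : A ≃⋆ₐ[ℂ] A) : A →L[ℂ] A :=
  LinearMap.mkContinuous
    { toFun := σ, map_add' := map_add σ, map_smul' := map_smul σ } 1 fun x => by
      rw [one_mul]; exact NonUnitalStarAlgHom.norm_apply_le σ x

theorem autL_apply (σ : A ≃⋆ₐ[ℂ] A) (x : A) : autL σ x = σ x := rfl

/-- The image of a multiplier under an automorphism of `A`. -/
def extFun (σ : A ≃⋆ₐ[ℂ] A) (m : Mult A) : Mult A where
  fst := (autL σ).comp (m.fst.comp (autL σ.symm))
  snd := (autL σ).comp (m.snd.comp (autL σ.symm))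
  central x y := by
    show σ (m.snd (σ.symm x)) * y = x * σ (m.fst (σ.symm y))
    conv_lhs => rw [← σ.apply_symm_apply y]
    conv_rhs => rw [← σ.apply_symm_apply x]
    rw [← map_mul, ← map_mul, m.central]

theorem extFun_fst (σ : A ≃⋆ₐ[ℂ] A) (m : Mult A) (x : A) :
    (extFun σ m).fst x = σ (m.fst (σ.symm x)) := rfl

/-- The extension of an automorphism to the multipliers. -/
def ext (σ : A ≃⋆ₐ[ℂ] A) : Mult A ≃⋆ₐ[ℂ] Mult A where
  toFun := extFun σ
  invFun := extFun σ.symm
  left_inv m := mult_ext fun x => by simp [extFun_fst]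
  right_inv m := mult_ext fun x => by simp [extFun_fst]
  map_mul' m n := mult_ext fun x => by simp [extFun_fst]
  map_add' m n := mult_ext fun x => by simp [extFun_fst]
  map_star' m := mult_ext fun x => by
    simp only [extFun_fst, DoubleCentralizer.star_fst]
    show σ (star (m.snd (star (σ.symm x)))) = star (σ (m.snd (σ.symm (star x))))
    rw [map_star σ, map_star σ.symm]
  map_smul' z m := mult_ext fun x => by simp [extFun_fst]

theorem ext_apply_fst (σ : A ≃⋆ₐ[ℂ] A) (m : Mult A) (x : A) :
    (ext σ m).fst x = σ (m.fst (σ.symm x)) := rfl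

theorem ext_emb (σ : A ≃⋆ₐ[ℂ] A) (a : A) : ext σ (emb A a) = emb A (σ a) :=
  mult_ext fun x => by simp [ext_apply_fst, emb_fst]

theorem ext_mem_iff (σ : A ≃⋆ₐ[ℂ] A) (m : Mult A) : ext σ m ∈ base A ↔ m ∈ base A := by
  refine ⟨fun ⟨a, ha⟩ => ⟨σ.symm a, ?_⟩, fun ⟨a, ha⟩ => ⟨σ a, ?_⟩⟩
  · apply EquivLike.injective (ext σ)
    rw [ext_emb, σ.apply_symm_apply, ha]
  · rw [← ext_emb, ha]

theorem ext_law {G : Type v} [Mul G] (α : G → A ≃⋆ₐ[ℂ] A)
    (hα : ∀ g h a, α (g * h) a = α g (α h a)) (g h : G) (m : Mult A) :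
    ext (α (g * h)) m = ext (α g) (ext (α h) m) :=
  mult_ext fun x => by
    have e : (α (g * h)).symm x = (α h).symm ((α g).symm x) :=
      EquivLike.injective (α (g * h)) (by
        rw [hα g h ((α h).symm _), StarAlgEquiv.apply_symm_apply, StarAlgEquiv.apply_symm_apply,
          StarAlgEquiv.apply_symm_apply])
    simp [ext_apply_fst, e, hα]

/-! ### Nuclearity -/

theorem exists_local_unit (C : Finset A) {δ : ℝ} (hδ : 0 < δ) :
    ∃ e : A, IsSelfAdjoint e ∧ ‖e‖ ≤ 1 ∧ ∀ c ∈ C, ‖e * c * e - c‖ ≤ δ := by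
  let _ := CStarAlgebra.spectralOrder A
  have _ := CStarAlgebra.spectralOrderedRing A
  have hl := CStarAlgebra.increasingApproximateUnit A
  have := hl.toIsApproximateUnit.neBot
  have hc : ∀ᶠ e in CStarAlgebra.approximateUnit A, ∀ c ∈ C,
      ‖c * e - c‖ < δ / 2 ∧ ‖e * c - c‖ < δ / 2 :=
    (Filter.eventually_all_finset C).2 fun c _ =>
      ((Metric.tendsto_nhds.1 (hl.toIsApproximateUnit.tendsto_mul_left c) _ (half_pos hδ)).and
        (Metric.tendsto_nhds.1 (hl.toIsApproximateUnit.tendsto_mul_right c) _ (half_pos hδ))).mono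
        fun e he => by simpa [dist_eq_norm] using he
  obtain ⟨e, he, hen, hec⟩ :=
    (hl.eventually_isSelfAdjoint.and (hl.eventually_norm.and hc)).exists
  refine ⟨e, he, hen, fun c hc => ?_⟩
  rw [show e * c * e - c = e * (c * e - c) + (e * c - c) by rw [mul_sub, ← mul_assoc]; abel]
  refine (norm_add_le _ _).trans ((add_le_add ((norm_mul_le _ _).trans
    (mul_le_mul hen (hec c hc).1.le (norm_nonneg _) zero_le_one)) (hec c hc).2.le).trans_eq ?_)
  ring

/-- An element all of whose compressions are of the form `c⋆ c` is of this form. -/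
theorem exists_star_mul_self_of_compressions {z : A}
    (h : ∀ e : A, ∃ c, star e * z * e = star c * c) : ∃ c, z = star c * c := by
  let _ := CStarAlgebra.spectralOrder A
  have _ := CStarAlgebra.spectralOrderedRing A
  suffices hz : 0 ≤ z from CStarAlgebra.nonneg_iff_eq_star_mul_self.1 hz
  refine (CStarAlgebra.isClosed_nonneg (A := A)).closure_subset
    (Metric.mem_closure_iff.2 fun δ hδ => ?_)
  obtain ⟨e, he, -, hec⟩ := exists_local_unit {z} (half_pos hδ)
  obtain ⟨c, hc⟩ := h e
  refine ⟨e * z * e, ?_, ?_⟩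
  · show 0 ≤ e * z * e
    rw [he.star_eq] at hc
    rw [hc]
    exact star_mul_self_nonneg c
  · rw [dist_comm, dist_eq_norm]
    exact (hec z (Finset.mem_singleton_self z)).trans_lt (half_lt_self hδ)

theorem isNuclearOn (hn : IsNuclearAlg A) : IsNuclearOn (base A) := by
  classical
  intro C hC ε hε
  choose g hg using fun c (hc : c ∈ C) => hC hc
  obtain ⟨e, he, he1, hee⟩ := exists_local_unit (C.attach.image fun c : {m // m ∈ C} => g c.1 c.2) (half_pos hε)
  obtain ⟨D, φ₀, ψ₀, hφ, hφ1, hψ, hψ1, hc⟩ :=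
    hn (C.attach.image fun c : {m // m ∈ C} => e * g c.1 c.2 * e) (ε / 2) (half_pos hε)
  let cut : Mult A →ₗ[ℂ] A :=
    { toFun := fun m => e * m.fst e
      map_add' := fun m n => by simp [mul_add]
      map_smul' := fun z m => by simp [mul_smul_comm] }
  have hcut : ∀ m : Mult A, emb A (cut m) = emb A e * m * emb A e := fun m => by
    rw [mul_assoc, mul_emb, ← map_mul]; rfl
  refine ⟨D, φ₀.comp cut, (emb A : A →ₗ[ℂ] Mult A).comp ψ₀, fun k x v => ?_, fun v => ?_,
    fun k y b => ?_, ?_, ?_⟩
  · have key : ∀ i j, cut (star (x i) * x j) = star ((x i).fst e) * (x j).fst e := fun i j => by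
      apply emb_injective
      rw [hcut, map_mul, map_star, ← mul_emb, ← mul_emb, star_mul, ← map_star (emb A) e, he.star_eq]
      simp only [mul_assoc]
    simp only [LinearMap.comp_apply, key]
    exact hφ k _ v
  · have key : cut 1 = star e * e := by
      show e * (1 : Mult A).fst e = _
      rw [he.star_eq]; rfl
    simpa [key] using hφ1 e v he1
  · set z : A := ∑ i, ∑ j, (star (b i)).fst ((b j).snd (ψ₀ (star (y i) * y j)))
    have hz : emb A z = ∑ i, ∑ j, star (b i) * emb A (ψ₀ (star (y i) * y j)) * b j := by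
      simp only [z, map_sum]
      refine Finset.sum_congr rfl fun i _ => Finset.sum_congr rfl fun j _ => ?_
      rw [← mul_emb, ← emb_mul, mul_assoc]
    obtain ⟨c, hc⟩ := exists_star_mul_self_of_compressions (z := z) fun a => by
      obtain ⟨c, hc⟩ := hψ k y fun i => (b i).fst a
      refine ⟨c, (emb_injective ?_).trans hc⟩
      rw [map_mul (emb A), map_mul (emb A), map_star (emb A), hz, map_sum, Finset.mul_sum,
        Finset.sum_mul]
      refine Finset.sum_congr rfl fun i _ => ?_
      rw [map_sum, Finset.mul_sum, Finset.sum_mul]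
      refine Finset.sum_congr rfl fun j _ => ?_
      rw [map_mul (emb A), map_mul (emb A), map_star (emb A), ← mul_emb, ← mul_emb, star_mul]
      simp only [mul_assoc]
    exact ⟨emb A c, by rw [← map_star, ← map_mul, ← hc, hz]; rfl⟩
  · exact (norm_emb _).trans_le hψ1
  · intro m hm
    show ‖emb A (ψ₀ (φ₀ (cut m))) - m‖ ≤ ε
    set a := g m hm
    rw [← hg m hm, ← map_sub, norm_emb,
      show cut (emb A a) = e * a * e from (mul_assoc _ _ _).symm]
    have h1 := hc _ (Finset.mem_image_of_mem _ (Finset.mem_attach C ⟨m, hm⟩))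
    have h2 := hee _ (Finset.mem_image_of_mem _ (Finset.mem_attach C ⟨m, hm⟩))
    calc ‖ψ₀ (φ₀ (e * a * e)) - a‖
        ≤ ‖ψ₀ (φ₀ (e * a * e)) - e * a * e‖ + ‖e * a * e - a‖ :=
          norm_sub_le_norm_sub_add_norm_sub _ _ _
      _ ≤ ε := by linarith

/-! ### The multipliers from the second tensor leg -/

section Tensor

variable {Z : Type} [CStarAlgebra Z] (m : A →ₗ[ℂ] Z →ₗ[ℂ] A)
  (hmul : ∀ a a' z z', m a z * m a' z' = m (a * a') (z * z'))
  (hstar : ∀ a z, star (m a z) = m (star a) (star z))
  (hd : Dense (Submodule.span ℂ (Set.range fun x : A × Z => m x.1 x.2) : Set A))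

/-- The map on the algebraic tensor product. -/
def lft : A ⊗[ℂ] Z →ₗ[ℂ] A := TensorProduct.lift m

/-- Left multiplication on the second leg. -/
def lmulT (z : Z) : A ⊗[ℂ] Z →ₗ[ℂ] A := (lft m).comp (LinearMap.lTensor A (LinearMap.mulLeft ℂ z))

theorem lft_tmul (a : A) (w : Z) : lft m (a ⊗ₜ[ℂ] w) = m a w := TensorProduct.lift.tmul a w

theorem lmulT_tmul (z : Z) (a : A) (w : Z) : lmulT m z (a ⊗ₜ[ℂ] w) = m a (z * w) := by
  simp [lmulT, lft]

include hd in
theorem denseRange_lft : DenseRange (lft m) := by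
  refine hd.mono ?_
  rw [← LinearMap.coe_range, SetLike.coe_subset_coe, Submodule.span_le]
  rintro _ ⟨⟨a, w⟩, rfl⟩
  exact ⟨a ⊗ₜ w, lft_tmul m a w⟩

include hmul hstar in
theorem norm_lmulT_le (z : Z) (ξ : A ⊗[ℂ] Z) : ‖lmulT m z ξ‖ ≤ ‖z‖ * ‖lft m ξ‖ := by
  classical
  obtain ⟨S, rfl⟩ := TensorProduct.exists_finset ξ
  set y : Z → A := fun x => ∑ i ∈ S, m i.1 (x * i.2) with hy
  have e1 : lmulT m z (∑ i ∈ S, i.1 ⊗ₜ[ℂ] i.2) = y z := by simp [hy, map_sum, lmulT_tmul]
  have e2 : lft m (∑ i ∈ S, i.1 ⊗ₜ[ℂ] i.2) = y 1 := by simp [hy, map_sum, lft_tmul]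
  rw [e1, e2]
  set Q : Z → A := fun x => ∑ i ∈ S, ∑ j ∈ S, m (star i.1 * j.1) (star i.2 * (x * j.2)) with hQ
  have hyQ : ∀ x, star (y x) * y x = Q (star x * x) := fun x => by
    simp only [hy, hQ, star_sum, Finset.sum_mul, Finset.mul_sum, hstar, hmul, star_mul, mul_assoc]
    exact Finset.sum_comm
  have hQadd : ∀ x x', Q (x + x') = Q x + Q x' := fun x x' => by
    simp [hQ, add_mul, mul_add, Finset.sum_add_distrib]
  have hsmall : ∀ x : Z, ‖x‖ ≤ 1 → ‖y x‖ ≤ ‖y 1‖ := fun x hx => by
    let _ := CStarAlgebra.spectralOrder Z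
    have _ := CStarAlgebra.spectralOrderedRing Z
    let _ := CStarAlgebra.spectralOrder (Mult A)
    have _ := CStarAlgebra.spectralOrderedRing (Mult A)
    have h0 : 0 ≤ 1 - star x * x := by
      rw [sub_nonneg]
      refine (CStarAlgebra.norm_le_one_iff_of_nonneg _ (star_mul_self_nonneg x)).1 ?_
      rw [CStarRing.norm_star_mul_self]
      exact mul_le_one₀ hx (norm_nonneg _) hx
    set r := CFC.sqrt (1 - star x * x) with hr
    have hsum : star x * x + star r * r = 1 := by
      rw [hr, (IsSelfAdjoint.of_nonneg (CFC.sqrt_nonneg (1 - star x * x))).star_eq,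
        CFC.sqrt_mul_sqrt_self _ h0]
      abel
    have h1 : star (emb A (y 1)) * emb A (y 1) =
        star (emb A (y x)) * emb A (y x) + star (emb A (y r)) * emb A (y r) := by
      simp only [← map_star, ← map_mul, ← map_add, hyQ, ← hQadd, hsum, star_one, one_mul]
    have h2 := CStarAlgebra.norm_le_norm_of_nonneg_of_le (star_mul_self_nonneg (emb A (y x)))
      (h1.symm ▸ le_add_of_nonneg_right (star_mul_self_nonneg (emb A (y r))))
    simp only [CStarRing.norm_star_mul_self, norm_emb] at h2
    exact nonneg_le_nonneg_of_sq_le_sq (norm_nonneg _) h2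
  rcases eq_or_ne z 0 with rfl | hz
  · simp [hy]
  · have hn : ‖z‖ ≠ 0 := norm_ne_zero_iff.2 hz
    have h := hsmall (((‖z‖ : ℂ)⁻¹) • z) (by simp [norm_smul, inv_mul_cancel₀ hn])
    have e : y z = (‖z‖ : ℂ) • y (((‖z‖ : ℂ)⁻¹) • z) := by
      simp only [hy, Finset.smul_sum, smul_mul_assoc, map_smul, smul_smul,
        mul_inv_cancel₀ (Complex.ofReal_ne_zero.2 hn), one_smul]
    rw [e, norm_smul, Complex.norm_real, norm_norm]
    exact mul_le_mul_of_nonneg_left h (norm_nonneg z)

/-- The left multiplier of the second leg. -/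
def leftMult (z : Z) : A →L[ℂ] A := (lmulT m z).extendOfNorm (lft m)

include hmul hstar hd in
theorem leftMult_lft (z : Z) (ξ : A ⊗[ℂ] Z) : leftMult m z (lft m ξ) = lmulT m z ξ :=
  LinearMap.extendOfNorm_eq (denseRange_lft m hd) ⟨‖z‖, norm_lmulT_le m hmul hstar z⟩ ξ

include hmul hstar hd in
theorem leftMult_apply (z : Z) (a : A) (w : Z) : leftMult m z (m a w) = m a (z * w) := by
  rw [← lft_tmul, leftMult_lft m hmul hstar hd, lmulT_tmul]

include hd in
theorem leftMult_ext {f g : A → A} (hf : Continuous f) (hg : Continuous g)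
    (haf : ∀ x y, f (x + y) = f x + f y) (hag : ∀ x y, g (x + y) = g x + g y)
    (h : ∀ a w, f (m a w) = g (m a w)) (x : A) : f x = g x := by
  refine (denseRange_lft m hd).induction_on x (isClosed_eq hf hg) fun ξ => ?_
  induction ξ using TensorProduct.induction_on with
  | zero =>
    have hf0 : f 0 = 0 := by simpa using haf 0 0
    have hg0 : g 0 = 0 := by simpa using hag 0 0
    simp [hf0, hg0]
  | tmul a w => simp [lft_tmul, h]
  | add ξ η hξ hη => simp [haf, hag, hξ, hη]

include hmul hstar hd in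
theorem legCentral (z : Z) (x y : A) :
    star (leftMult m (star z) (star x)) * y = x * leftMult m z y := by
  refine leftMult_ext m hd
    (f := fun y => star (leftMult m (star z) (star x)) * y) (g := fun y => x * leftMult m z y)
    (continuous_const_mul _) ((leftMult m z).continuous.const_mul x) (mul_add _)
    (fun _ _ => by simp [mul_add]) (fun b w' => ?_) y
  refine leftMult_ext m hd
    (f := fun x => star (leftMult m (star z) (star x)) * m b w')
    (g := fun x => x * leftMult m z (m b w'))
    (((leftMult m (star z)).continuous.comp continuous_star).star.mul_const _)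
    (continuous_mul_const _) (fun _ _ => by simp [add_mul]) (fun _ _ => add_mul _ _ _)
    (fun a w => ?_) x
  simp only [hstar, leftMult_apply m hmul hstar hd, hmul, star_mul, star_star, mul_assoc]

/-- The multiplier given by an element of the second leg. -/
def legFun (z : Z) : Mult A where
  fst := leftMult m z
  snd := LinearMap.mkContinuous
    { toFun := fun x => star (leftMult m (star z) (star x))
      map_add' := fun x y => by simp
      map_smul' := fun c x => by simp } ‖leftMult m (star z)‖ fun x => by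
        simpa using (leftMult m (star z)).le_opNorm (star x)
  central := legCentral m hmul hstar hd z

include hmul hstar hd in
theorem legHom_snd (z : Z) (a : A) (w : Z) :
    (legFun m hmul hstar hd z).snd (m a w) = m a (w * z) := by
  show star (leftMult m (star z) (star (m a w))) = _
  rw [hstar, leftMult_apply m hmul hstar hd, hstar, star_star, star_mul, star_star, star_star]

theorem legFun_fst (z : Z) (x : A) :
    (legFun m hmul hstar hd z).fst x = leftMult m z x := rfl

/-- The second leg as multipliers. -/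
def leg : Z →⋆ₐ[ℂ] Mult A where
  toFun := legFun m hmul hstar hd
  map_one' := mult_ext fun v => leftMult_ext m hd (leftMult m 1).continuous continuous_id
    (map_add _) (fun _ _ => rfl) (fun a w => by rw [leftMult_apply m hmul hstar hd, one_mul]; rfl) v
  map_mul' x y := mult_ext fun v => leftMult_ext m hd (leftMult m (x * y)).continuous
    ((leftMult m x).continuous.comp (leftMult m y).continuous) (map_add _)
    (fun _ _ => by simp) (fun a w => by simp [leftMult_apply m hmul hstar hd, mul_assoc]) v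
  map_zero' := mult_ext fun v => leftMult_ext m hd (f := leftMult m 0) (g := fun _ => (0 : A))
    (leftMult m 0).continuous continuous_const (map_add _) (fun _ _ => (add_zero 0).symm)
    (fun a w => by rw [leftMult_apply m hmul hstar hd, zero_mul, map_zero]) v
  map_add' x y := mult_ext fun v => leftMult_ext m hd
    (f := leftMult m (x + y)) (g := fun v => leftMult m x v + leftMult m y v)
    (leftMult m (x + y)).continuous ((leftMult m x).continuous.add (leftMult m y).continuous)
    (map_add _) (fun _ _ => by simp only [map_add]; abel)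
    (fun a w => by simp [leftMult_apply m hmul hstar hd, add_mul]) v
  commutes' r := mult_ext fun v => leftMult_ext m hd
    (f := leftMult m (algebraMap ℂ Z r)) (g := fun v => r • v) (leftMult m _).continuous
    (continuous_const_smul r) (map_add _) (fun _ _ => smul_add r _ _)
    (fun a w => by
      rw [leftMult_apply m hmul hstar hd, Algebra.algebraMap_eq_smul_one, smul_mul_assoc, one_mul,
        map_smul]) v
  map_star' z := mult_ext fun x => by
    show leftMult m (star z) x = star (star (leftMult m (star z) (star (star x))))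
    rw [star_star, star_star]

theorem emb_mul_leg (a : A) (w z : Z) :
    emb A (m a w) * leg m hmul hstar hd z = emb A (m a (w * z)) := by
  rw [emb_mul]
  exact congrArg (emb A) (legHom_snd m hmul hstar hd z a w)

theorem leg_mul_emb (a : A) (w z : Z) :
    leg m hmul hstar hd z * emb A (m a w) = emb A (m a (z * w)) := by
  rw [mul_emb]
  exact congrArg (emb A) (leftMult_apply m hmul hstar hd z a w)

include hmul hstar in
theorem norm_apply_le (a : A) (z : Z) : ‖m a z‖ ≤ ‖z‖ * ‖m a 1‖ := by
  have h := norm_lmulT_le m hmul hstar z (a ⊗ₜ[ℂ] (1 : Z))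
  rwa [lmulT_tmul, lft_tmul, mul_one] at h

include hmul hstar hd in
/-- `A ≅ A ⊗ Z` gives central dimension drop maps into the multipliers of `A`. -/
theorem dropMapsOn (hinj : ∀ a z, a ≠ 0 → m a z = 0 → z = 0) (hne : ∃ a : A, a ≠ 0)
    (hZ : HasCentralDropMaps Z) : DropMapsOn (base A) := by
  classical
  have hleg : Function.Injective (leg m hmul hstar hd) := by
    rw [injective_iff_map_eq_zero]
    intro z hz
    obtain ⟨a, ha⟩ := hne
    refine hinj a z ha (emb_injective ?_)
    rw [← mul_one z, ← leg_mul_emb m hmul hstar hd, hz, zero_mul, map_zero]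
  intro C hC ε hε N
  have hnc : ∀ c ∈ C, ∃ (F : Finset Z) (δ : ℝ), 0 < δ ∧ ∀ x : Z, ‖x‖ ≤ 1 →
      (∀ w ∈ F, ‖w * x - x * w‖ ≤ δ) →
      ‖c * leg m hmul hstar hd x - leg m hmul hstar hd x * c‖ ≤ ε := by
    intro c hc
    obtain ⟨a, rfl⟩ := hC hc
    obtain ⟨ξ, hξ⟩ := (denseRange_lft m hd).exists_dist_lt a (show 0 < ε / 4 by positivity)
    obtain ⟨S, rfl⟩ := TensorProduct.exists_finset ξ
    set K : ℝ := ∑ i ∈ S, ‖m i.1 1‖ with hK
    have hK0 : 0 ≤ K := Finset.sum_nonneg fun _ _ => norm_nonneg _
    refine ⟨S.image Prod.snd, ε / (2 * (K + 1)), by positivity, fun x hx hw => ?_⟩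
    set R := leg m hmul hstar hd x
    have hR : ‖R‖ ≤ 1 := (NonUnitalStarAlgHom.norm_apply_le (leg m hmul hstar hd) x).trans hx
    set d := ∑ i ∈ S, m i.1 i.2 with hd'
    have hcd : ‖emb A a - emb A d‖ ≤ ε / 4 := by
      rw [← map_sub, norm_emb, ← dist_eq_norm, show d = lft m (∑ i ∈ S, i.1 ⊗ₜ[ℂ] i.2) by
        simp [hd', map_sum, lft_tmul]]
      exact hξ.le
    have hdR : ‖emb A d * R - R * emb A d‖ ≤ ε / 2 := by
      have e : emb A d * R - R * emb A d = emb A (∑ i ∈ S, m i.1 (i.2 * x - x * i.2)) := by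
        simp only [hd', map_sum, Finset.sum_mul, Finset.mul_sum, ← Finset.sum_sub_distrib, R,
          emb_mul_leg, leg_mul_emb, map_sub]
      rw [e, norm_emb]
      refine (norm_sum_le _ _).trans ((Finset.sum_le_sum fun i hi =>
        (norm_apply_le m hmul hstar i.1 _).trans (mul_le_mul_of_nonneg_right
          (hw i.2 (Finset.mem_image_of_mem _ hi)) (norm_nonneg _))).trans ?_)
      rw [← Finset.mul_sum, ← hK, div_mul_eq_mul_div, div_le_iff₀ (by positivity)]
      nlinarith
    rw [show emb A a * R - R * emb A a = (emb A a - emb A d) * R - R * (emb A a - emb A d) +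
      (emb A d * R - R * emb A d) by rw [sub_mul, mul_sub]; abel]
    refine (norm_add_le _ _).trans ((add_le_add ((norm_sub_le _ _).trans (add_le_add
      ((norm_mul_le _ _).trans (mul_le_mul hcd hR (norm_nonneg _) (by positivity)))
      ((norm_mul_le _ _).trans (mul_le_mul hR hcd (norm_nonneg _) zero_le_one)))) hdR).trans ?_)
    linarith
  choose F δ hδ hF using hnc
  obtain ⟨η, hη, hηle⟩ : ∃ η : ℝ, 0 < η ∧ ∀ c (hc : c ∈ C), η ≤ δ c hc := by
    rcases C.attach.eq_empty_or_nonempty with he | hne'
    · exact ⟨1, one_pos, fun c hc => absurd (Finset.mem_attach C ⟨c, hc⟩) (by simp [he])⟩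
    · exact ⟨C.attach.inf' hne' fun c => δ c.1 c.2, (Finset.lt_inf'_iff _).2 fun c _ => hδ c.1 c.2,
        fun c hc => Finset.inf'_le _ (Finset.mem_attach C ⟨c, hc⟩)⟩
  obtain ⟨p, q, hp, hq, hpq, ψ, hψ, hψc⟩ := hZ (C.attach.biUnion fun c => F c.1 c.2) η hη N
  refine ⟨p, q, hp, hq, hpq, fun f => leg m hmul hstar hd (ψ f),
    ⟨by simp only [hψ.1, map_one], fun f g hf hg => ?_⟩, fun c hc f hf hf1 => ?_⟩
  · obtain ⟨h1, h2, h3, h4⟩ := hψ.2 f g hf hg
    exact ⟨by simp only [h1, map_add], by simp only [h2, map_mul],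
      fun r => by simp only [h3 r, map_smul], by simp only [h4, map_star]⟩
  · rw [NonUnitalStarAlgHom.norm_map _ hleg] at hf1
    exact hF c hc _ hf1 fun w hw =>
      (hψc w (Finset.mem_biUnion.2 ⟨⟨c, hc⟩, Finset.mem_attach _ _, hw⟩) f hf hf1).trans (hηle c hc)

end Tensor

/-- Absorbing the Jiang-Su algebra, read on a bilinear map, gives central dimension drop maps
into the multipliers. -/
theorem dropMapsOn_of_absorbs (m : A →ₗ[ℂ] P101.Limit.JS →ₗ[ℂ] A)
    (hmul : ∀ a a' z z', m a z * m a' z' = m (a * a') (z * z'))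
    (hstar : ∀ a z, star (m a z) = m (star a) (star z))
    (hli : ∀ n (a : Fin n → A) (z : Fin n → P101.Limit.JS),
      LinearIndependent ℂ z → ∑ i, m (a i) (z i) = 0 → ∀ i, a i = 0)
    (hd : Dense (Submodule.span ℂ (Set.range fun x : A × P101.Limit.JS => m x.1 x.2) : Set A))
    (hs : IsSimpleCStar A) : DropMapsOn (base A) :=
  dropMapsOn m hmul hstar hd (fun a z ha hz => by
    by_contra hz0
    exact ha (hli 1 ![a] ![z] (linearIndependent_unique_iff.2 hz0) (by simp [hz]) 0))
    hs.1 Uni.FromZ.hasCentralDropMaps_JS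

end Vale.Agent.P095.NU.Bridge
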