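import Mathlib

/-!
# P095: the range of a homomorphism of C⋆-algebras is closed

Elements of the range lift with norm at most twice their own, by cutting the spectrum of the
selfadjoint parts.
-/

open Filter Topology

noncomputable section

namespace Vale.Agent.P095.NU

variable {X Y : Type*} [CStarAlgebra X] [CStarAlgebra Y]

theorem continuous_hom (f : X →⋆ₐ[ℂ] Y) : Continuous f :=
  AddMonoidHomClass.continuous_of_bound f 1 fun x => by
    simpa using NonUnitalStarAlgHom.norm_apply_le f x

/-- A selfadjoint element has a selfadjoint preimage of the same norm. -/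
theorem exists_lift_selfAdjoint (f : X →⋆ₐ[ℂ] Y) {h : X} (hh : IsSelfAdjoint h) :
    ∃ g : X, IsSelfAdjoint g ∧ f g = f h ∧ ‖g‖ ≤ ‖f h‖ := by
  set r := ‖f h‖
  set c : ℝ → ℝ := fun t => max (-r) (min r t) with hc
  have hr : 0 ≤ r := norm_nonneg _
  refine ⟨cfc c h, cfc_predicate c h, ?_, norm_cfc_le hr fun t _ => ?_⟩
  · have hfh : IsSelfAdjoint (f h) := hh.map f
    rw [StarAlgHomClass.map_cfc f c h (by fun_prop) (continuous_hom f) hh hfh]
    rcases subsingleton_or_nontrivial Y with hY | hY
    · exact Subsingleton.elim _ _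
    conv_rhs => rw [← cfc_id' ℝ (f h)]
    refine cfc_congr fun t ht => ?_
    have := spectrum.norm_le_norm_of_mem ht
    rw [Real.norm_eq_abs, abs_le] at this
    simp only [hc]
    rw [min_eq_right this.2, max_eq_right this.1]
  · rw [Real.norm_eq_abs, abs_le]
    exact ⟨le_max_left _ _, max_le (by linarith) (min_le_left _ _)⟩

/-- An element of the range has a preimage of norm at most twice its own. -/
theorem exists_lift_le (f : X →⋆ₐ[ℂ] Y) (x : X) :
    ∃ y : X, f y = f x ∧ ‖y‖ ≤ 2 * ‖f x‖ := by
  obtain ⟨g, -, hg, hg'⟩ := exists_lift_selfAdjoint f (realPart x).2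
  obtain ⟨k, -, hk, hk'⟩ := exists_lift_selfAdjoint f (imaginaryPart x).2
  have hR : f (realPart x : X) = (realPart (f x) : Y) := by
    simp [realPart_apply_coe, map_add, map_star, ← Complex.coe_smul]
  have hI : f (imaginaryPart x : X) = (imaginaryPart (f x) : Y) := by
    simp [imaginaryPart_apply_coe, map_star, ← Complex.coe_smul, map_smul]
  refine ⟨g + Complex.I • k, ?_, ?_⟩
  · rw [map_add, map_smul, hg, hk, ← map_smul, ← map_add, realPart_add_I_smul_imaginaryPart]
  · refine (norm_add_le _ _).trans ?_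
    rw [norm_smul, Complex.norm_I, one_mul, two_mul]
    rw [hR] at hg'
    rw [hI] at hk'
    exact add_le_add (hg'.trans (realPart.norm_le (f x)))
      (hk'.trans (imaginaryPart.norm_le (f x)))

/-- The range is closed. -/
theorem isClosed_range (f : X →⋆ₐ[ℂ] Y) : IsClosed (Set.range f) := by
  refine isClosed_of_closure_subset fun y hy => ?_
  have hz : ∀ n : ℕ, ∃ x : X, ‖y - f x‖ ≤ (1 / 2 : ℝ) ^ n := fun n => by
    obtain ⟨_, ⟨x, rfl⟩, hx⟩ := Metric.mem_closure_iff.1 hy ((1 / 2 : ℝ) ^ n) (by positivity)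
    exact ⟨x, by rw [← dist_eq_norm]; exact hx.le⟩
  choose x hx using hz
  choose d hd hd' using fun n => exists_lift_le f (x (n + 1) - x n)
  have hb : ∀ n, ‖d n‖ ≤ 4 * (1 / 2 : ℝ) ^ n := fun n => by
    refine (hd' n).trans ?_
    rw [map_sub, show f (x (n + 1)) - f (x n) = (y - f (x n)) - (y - f (x (n + 1))) by abel]
    have h1 := norm_sub_le (y - f (x n)) (y - f (x (n + 1)))
    have h2 := hx (n + 1)
    rw [pow_succ] at h2
    nlinarith [hx n, pow_nonneg (show (0 : ℝ) ≤ 1 / 2 by norm_num) n]
  have hs : Summable d := .of_norm_bounded (summable_geometric_two.mul_left 4) hb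
  refine ⟨x 0 + ∑' n, d n, tendsto_nhds_unique
    (f := fun n => f (x 0 + ∑ k ∈ Finset.range n, d k)) (l := atTop)
    (((continuous_hom f).tendsto _).comp (tendsto_const_nhds.add hs.hasSum.tendsto_sum_nat)) ?_⟩
  have e : ∀ n, f (x 0 + ∑ k ∈ Finset.range n, d k) = f (x n) := fun n => by
    induction n with
    | zero => simp
    | succ n ih =>
      rw [Finset.sum_range_succ, ← add_assoc, map_add, ih, hd, map_sub, add_sub_cancel]
  simp only [e]
  rw [tendsto_iff_norm_sub_tendsto_zero]
  refine squeeze_zero (fun _ => norm_nonneg _) (fun n => (norm_sub_rev _ _).le.trans (hx n)) ?_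
  exact tendsto_pow_atTop_nhds_zero_of_lt_one (by norm_num) (by norm_num)

end Vale.Agent.P095.NU
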