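import Vale.Agent.P095.NU.Basics
import Vale.Agent.P095.Uni.Compare

/-!
# P095: comparison inside a simple algebra without unit

The compression of `Vale.Agent.P095.Uni.Compare` with all data in `J`. Traces enter only through
the decomposition and through the bound `b - (b - 2η)₊ ≤ 2η g` for a bounded unit `g` of `b`.
-/

open scoped ComplexOrder ENNReal
open Vale.Agent.P095.Uni.Compare

noncomputable section

namespace Vale.Agent.P095.NU.Compare

variable {M : Type*} [CStarAlgebra M] [PartialOrder M] [StarOrderedRing M] {J : Set M}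

/-- What a cut removes from `b` is below a multiple of any unit of `b`. -/
theorem exists_le_unit {b g : M} (hb : 0 ≤ b) (hg : 0 ≤ g) (hg1 : ‖g‖ ≤ 1) (hgb : g * b = b)
    {η : ℝ} (hη : 0 < η) :
    ∃ p : M, 0 ≤ p ∧ b = cut η b + p ∧ p ≤ η • g := by
  set k : ℝ → ℝ := fun t => η / max t η with hk
  have hkc : Continuous k := continuous_const.div (by fun_prop) fun t =>
    (lt_max_of_lt_right hη).ne'
  set p : M := cfc (fun t => t * k t) b with hp
  have hgp : g * p = p := by
    rw [hp, cfc_mul (fun t => t) k b (by fun_prop) hkc.continuousOn, cfc_id' ℝ b, ← mul_assoc, hgb]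
  have hgs : star g = g := (IsSelfAdjoint.of_nonneg hg).star_eq
  have hps : star p = p := (cfc_predicate _ b : IsSelfAdjoint p).star_eq
  have hpg : p * g = p := by
    have := congrArg star hgp
    rwa [star_mul, hgs, hps] at this
  refine ⟨p, cfc_nonneg fun t ht => ?_, ?_, ?_⟩
  · have := spectrum_nonneg_of_nonneg hb ht
    positivity
  · rw [cut, hp, ← cfc_add b (fun t => max 0 (t - η)) (fun t => t * k t) (by fun_prop)
      (continuous_id'.fun_mul hkc).continuousOn]
    conv_lhs => rw [← cfc_id' ℝ b]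
    refine cfc_congr fun t _ => ?_
    rcases le_total t η with h | h
    · simp [hk, max_eq_right h, max_eq_left (sub_nonpos.2 h), hη.ne']
    · have : t ≠ 0 := (hη.trans_le h).ne'
      simp only [hk, max_eq_left h, max_eq_right (sub_nonneg.2 h)]
      field_simp
      ring
  · have h1 : p ≤ η • (1 : M) := by
      rw [hp, ← Algebra.algebraMap_eq_smul_one, ← cfc_const η b]
      refine cfc_mono fun t ht => ?_
      rw [hk, mul_div_assoc', div_le_iff₀ (lt_max_of_lt_right hη), mul_comm η]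
      exact mul_le_mul_of_nonneg_right (le_max_left _ _) hη.le
    calc p = star g * p * g := by rw [hgs, hgp, hpg]
      _ ≤ star g * (η • (1 : M)) * g := star_left_conjugate_le_conjugate h1 g
      _ = η • (g * g) := by rw [hgs, mul_smul_comm, mul_one, smul_mul_assoc]
      _ ≤ η • g := by
        refine smul_le_smul_of_nonneg_left ?_ hη.le
        rw [← cfc_id' ℝ g, ← cfc_mul (fun t => t) (fun t => t) g]
        refine cfc_mono fun t ht => ?_
        have h0 := spectrum_nonneg_of_nonneg hg ht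
        have ht1 : t ≤ 1 := (le_algebraMap_iff_spectrum_le (R := ℝ) (r := (1 : ℝ))
          (IsSelfAdjoint.of_nonneg hg)).1
          (by simpa using (CStarAlgebra.norm_le_one_iff_of_nonneg _ hg).1 hg1) t ht
        nlinarith

/-- The slot elements, the decomposition and the compression together give comparison. -/
theorem core (hJ : IsBase J) (hn : IsNuclearOn J) (hs : SlotsGoal J) (hd : DecompGoal J)
    (hm : Uni.MatrixGoal) {ε : ℝ} (hε : 0 < ε) :
    ∃ κ : ℝ, 0 < κ ∧ ∀ u : M, IsBdd J u → u ≠ 0 → ∀ (a b : M) (η : ℝ),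
      IsBdd J a → ‖a‖ ≤ 1 → b ∈ J → 0 ≤ b → ‖b‖ ≤ 1 → 0 < η → cut (2 * η) b ≠ 0 →
      (∀ T : ETr J, T.t u = 1 → T.t a < ENNReal.ofReal κ * T.t (cut (2 * η) b)) →
      ∃ x ∈ J, ‖star x * x - a‖ ≤ ε ∧ cfc (Uni.ramp η) b * x = x := by
  refine ⟨min (1 / 8) ((ε / 32) ^ 2 / 8), lt_min (by norm_num) (by positivity), ?_⟩
  intro u hu hu0 a b η ha ha1 hbJ hb hb1 hη hne htr
  set κ : ℝ := min (1 / 8) ((ε / 32) ^ 2 / 8)
  have hκ : 0 < κ := lt_min (by norm_num) (by positivity)
  have hκε : 8 * κ ≤ (ε / 32) ^ 2 := by linarith [min_le_right (1 / 8 : ℝ) ((ε / 32) ^ 2 / 8)]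
  have hβ : 8 * Real.sqrt (8 * κ) ≤ ε / 4 := by
    linarith [(Real.sqrt_le_sqrt hκε).trans_eq (Real.sqrt_sq (by positivity : (0 : ℝ) ≤ ε / 32))]
  set b' := cut (2 * η) b with hb'
  have hb'0 : 0 ≤ b' := cfc_nonneg fun t _ => le_max_left _ _
  have hb'J : b' ∈ J := hJ.cfc_mem (.of_nonneg hb) hbJ (by fun_prop) (by simp; linarith)
  set θ := min (ε / 8) (1 / 2)
  have hθ : 0 < θ := lt_min (by positivity) (by norm_num)
  have hθ1 : θ ≤ 1 / 2 := min_le_right _ _
  have hθ2 : θ ≤ ε / 8 := min_le_left _ _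
  set a' : M := (1 - θ) • a with ha'
  have ha'b : IsBdd J a' := ha.smul hJ (by linarith)
  have htr' : ∀ T : ETr J, T.t u = 1 → T.t a' < ENNReal.ofReal κ * T.t b' := fun T hT => by
    refine lt_of_le_of_lt ?_ (htr T hT)
    rw [ha', T.smul _ _ (by linarith) ha.mem ha.nonneg]
    exact mul_le_of_le_one_left zero_le (ENNReal.ofReal_le_one.2 (by linarith))
  obtain ⟨L, x, hxJ, hx1, hx2⟩ := hd u hu hu0 a' b' κ θ ha'b hb'J hb'0 hne hκ hθ htr'
  have hb'1 : b' ≤ 1 := by
    refine (CStarAlgebra.norm_le_one_iff_of_nonneg _ hb'0).1 (norm_cfc_le zero_le_one fun t ht => ?_)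
    have ht1 : t ≤ 1 := (le_algebraMap_iff_spectrum_le (R := ℝ) (r := (1 : ℝ))
      (IsSelfAdjoint.of_nonneg hb)).1
      (by simpa using (CStarAlgebra.norm_le_one_iff_of_nonneg _ hb).1 hb1) t ht
    rw [Real.norm_eq_abs, abs_of_nonneg (le_max_left _ _)]
    exact max_le zero_le_one (by linarith)
  have hrow : ∑ i, x i * star (x i) ≤ algebraMap ℝ M κ := by
    refine hx2.trans ?_
    rw [Algebra.algebraMap_eq_smul_one]
    exact smul_le_smul_of_nonneg_left hb'1 hκ.le
  have hna' : ‖a'‖ ≤ 1 - θ := by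
    rw [ha', norm_smul, Real.norm_of_nonneg (by linarith)]
    exact mul_le_of_le_one_right (by linarith) ha1
  have hS : ‖∑ i, star (x i) * x i‖ ≤ 1 := by
    linarith [norm_le_norm_add_norm_sub' (∑ i, star (x i) * x i) a']
  set g := cfc (Uni.ramp (2 * η)) b
  have hgJ : g ∈ J := hJ.cfc_mem (.of_nonneg hb) hbJ (NU.continuous_ramp _)
    (NU.ramp_eq_zero (by positivity) (by positivity))
  have hgn : ‖g‖ ≤ 1 := norm_cfc_le zero_le_one fun t _ => by
    rw [Real.norm_of_nonneg (NU.ramp_nonneg _ _)]; exact NU.ramp_le_one _ _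
  have hgb : g * b' = b' := ramp_mul_cfc b (by positivity) (by fun_prop) fun t ht =>
    max_eq_left (by linarith)
  have hgx : ∀ i, g * x i = x i := fixed_of_le x hx2 (by rw [mul_smul_comm, hgb])
  obtain ⟨x', hx'⟩ := compressOn (J := J)
    (fun c z hz => hJ.sum_mem _ fun i _ => hJ.smul_mem (c i) (hz i))
    (fun m _ hz => hJ.mul_left m hz) (fun hz => hJ.star_mem hz) hn hs hm hκ
    (by linarith [min_le_left (1 / 8 : ℝ) ((ε / 32) ^ 2 / 8)]) hθ x hxJ hrow hS hgJ hgn hgx
  refine ⟨g * x', hJ.mul_right _ hgJ, ?_, ?_⟩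
  · have h1 : ‖a' - a‖ ≤ θ := by
      rw [ha', show (1 - θ) • a - a = (-θ) • a by module, norm_smul, norm_neg,
        Real.norm_of_nonneg hθ.le]
      exact mul_le_of_le_one_right hθ.le ha1
    have h2 := norm_sub_le_norm_sub_add_norm_sub (star (g * x') * (g * x'))
      (∑ i, star (x i) * x i) a
    have h3 := norm_sub_le_norm_sub_add_norm_sub (∑ i, star (x i) * x i) a' a
    linarith
  · rw [← mul_assoc, ramp_mul_cfc b hη (NU.continuous_ramp _) fun t ht =>
      NU.ramp_eq_zero (by positivity) (by linarith)]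

/-- Comparison of an element of small trace with one of trace bounded below. -/
theorem compare_goal (hJ : IsBase J) (hn : IsNuclearOn J) (hs : SlotsGoal J) (hd : DecompGoal J)
    (hm : Uni.MatrixGoal) : CompareGoal J := by
  intro u hu hu0 c K ε hc hK hε
  obtain ⟨κ, hκ, hcore⟩ := core hJ hn hs hd hm hε
  set η := c / (4 * K) with hη
  have hη0 : 0 < η := by positivity
  refine ⟨κ * c / 4, η, by positivity, hη0, fun a b g ha ha1 hb hb1 hg1 hg hgb hex htr => ?_⟩
  have hbJ : b ∈ J := hgb ▸ hJ.mul_right b hg.mem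
  have hlow : ∀ T : ETr J, T.t u = 1 → ENNReal.ofReal (c / 2) ≤ T.t (cut (2 * η) b) := by
    intro T hT
    obtain ⟨hTg, hTb, -⟩ := htr T hT
    obtain ⟨p, hp0, hpe, hpg⟩ := exists_le_unit hb hg.nonneg hg1 hgb (η := 2 * η) (by positivity)
    have hgJ := hJ.rsmul_mem (2 * η) hg.mem
    have hpJ : p ∈ J := hJ.mem_of_le hgJ hp0 hpg
    have hcJ : cut (2 * η) b ∈ J :=
      hJ.cfc_mem (.of_nonneg hb) hbJ (by fun_prop) (by simp; positivity)
    have hTp : T.t p ≤ ENNReal.ofReal (c / 2) := by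
      refine (T.mono p _ hpJ hgJ hp0 hpg).trans ?_
      rw [T.smul _ _ (by positivity) hg.mem hg.nonneg]
      refine (mul_le_mul' le_rfl hTg).trans_eq ?_
      rw [← ENNReal.ofReal_mul (by positivity), hη]
      congr 1
      field_simp
      ring
    have hsum : T.t b = T.t (cut (2 * η) b) + T.t p := by
      rw [← T.add _ _ hcJ hpJ (cfc_nonneg fun t _ => le_max_left _ _) hp0, ← hpe]
    rw [show c = c / 2 + c / 2 by ring, ENNReal.ofReal_add (by positivity) (by positivity),
      hsum] at hTb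
    exact (ENNReal.add_le_add_iff_right ENNReal.ofReal_ne_top).1
      (hTb.trans (add_le_add le_rfl hTp))
  refine hcore u hu hu0 a b η ha ha1 hbJ hb hb1 hη0 (fun h0 => ?_) fun T hT => ?_
  · obtain ⟨T, hT⟩ := hex
    have := hlow T hT
    rw [h0, T.map_zero hJ, nonpos_iff_eq_zero, ENNReal.ofReal_eq_zero] at this
    linarith
  · refine lt_of_le_of_lt (htr T hT).2.2 (lt_of_lt_of_le ?_ (mul_le_mul' le_rfl (hlow T hT)))
    rw [← ENNReal.ofReal_mul hκ.le, ENNReal.ofReal_lt_ofReal_iff (by positivity)]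
    have := mul_pos hκ hc
    linarith

end Vale.Agent.P095.NU.Compare
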