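import Vale.Agent.P095.NU.Basics
import Vale.Agent.P095.Uni.Decomp

/-!
# P095: domination in every trace of the ideal gives a decomposition

As in `Uni.Decomp`, with families in `J`: a separating positive functional `f` yields the trace
`v ↦ sup {f (∑ xᵢ⋆ xᵢ) | xᵢ ∈ J, ∑ xᵢ xᵢ⋆ ≤ v}` on the positive cone of `J`, finite on bounded
elements.
-/

open scoped ComplexOrder ENNReal NNReal
open Filter Topology

noncomputable section

namespace Vale.Agent.P095.NU.Decomp

variable {M : Type*} [CStarAlgebra M] [PartialOrder M] [StarOrderedRing M] {J : Set M}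

/-- The values `f (∑ xᵢ⋆ xᵢ)` with `xᵢ` in `J` and `∑ xᵢ xᵢ⋆ ≤ v`. -/
def vals (J : Set M) (f : StrongDual ℝ M) (v : M) : Set ℝ :=
  {r | ∃ (L : ℕ) (x : Fin L → M), (∀ i, x i ∈ J) ∧ ∑ i, x i * star (x i) ≤ v ∧
    r = f (∑ i, star (x i) * x i)}

/-- The supremum of `vals`. -/
def top (J : Set M) (f : StrongDual ℝ M) (v : M) : ℝ≥0∞ := ⨆ r ∈ vals J f v, ENNReal.ofReal r

variable {f : StrongDual ℝ M}

omit [StarOrderedRing M] in
theorem zero_mem_vals {v : M} (hv : 0 ≤ v) : (0 : ℝ) ∈ vals J f v :=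
  ⟨0, Fin.elim0, fun i => i.elim0, by simpa using hv, by simp⟩

omit [StarOrderedRing M] in
theorem le_top {v : M} {r : ℝ} (hr : r ∈ vals J f v) : ENNReal.ofReal r ≤ top J f v :=
  le_iSup₂ (f := fun r (_ : r ∈ vals J f v) => ENNReal.ofReal r) r hr

omit [StarOrderedRing M] in
theorem top_mono {u v : M} (h : u ≤ v) : top J f u ≤ top J f v :=
  biSup_mono fun _ ⟨L, x, hxJ, hx, hr⟩ => ⟨L, x, hxJ, hx.trans h, hr⟩

theorem vals_nonneg (hf : ∀ p : M, 0 ≤ p → 0 ≤ f p) {v : M} {r : ℝ} (hr : r ∈ vals J f v) :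
    0 ≤ r := by
  obtain ⟨L, x, -, -, rfl⟩ := hr
  exact hf _ (Finset.sum_nonneg fun i _ => star_mul_self_nonneg (x i))

theorem add_mem_vals {u v : M} {r s : ℝ} (hr : r ∈ vals J f u) (hs : s ∈ vals J f v) :
    r + s ∈ vals J f (u + v) := by
  obtain ⟨L, x, hxJ, hx, rfl⟩ := hr
  obtain ⟨L', y, hyJ, hy, rfl⟩ := hs
  refine ⟨L + L', Fin.append x y,
    fun i => by induction i using Fin.addCases <;> simp [hxJ, hyJ], ?_, ?_⟩
  · simpa [Fin.sum_univ_add] using add_le_add hx hy
  · simp [Fin.sum_univ_add]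

theorem smul_mem_vals (hJ : IsBase J) {v : M} {r t : ℝ} (ht : 0 ≤ t) (hr : r ∈ vals J f v) :
    t * r ∈ vals J f (t • v) := by
  obtain ⟨L, x, hxJ, hx, rfl⟩ := hr
  refine ⟨L, fun i => Real.sqrt t • x i, fun i => hJ.rsmul_mem _ (hxJ i), ?_, ?_⟩
  · simp only [star_smul, star_trivial, smul_mul_smul_comm, Real.mul_self_sqrt ht]
    rw [← Finset.smul_sum]
    exact smul_le_smul_of_nonneg_left hx ht
  · simp only [star_smul, star_trivial, smul_mul_smul_comm, Real.mul_self_sqrt ht]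
    rw [← Finset.smul_sum, map_smul, smul_eq_mul]

/-- The supremum on a sum of squares is at most the sum of those on the reversed squares. -/
theorem top_le_sum (hJ : IsBase J) (hf : ∀ p : M, 0 ≤ p → 0 ≤ f p) {m : ℕ} (c : Fin m → M) :
    top J f (∑ j, star (c j) * c j) ≤ ∑ j, top J f (c j * star (c j)) := by
  refine iSup₂_le fun r hr => ?_
  obtain ⟨L, x, hxJ, hx, rfl⟩ := hr
  refine ENNReal.le_of_forall_pos_le_add fun ε hε _ => ?_
  obtain ⟨w, hy1, hy2⟩ :=
    Uni.Decomp.split c x hx (show (0 : ℝ) < ε / (‖f‖ * L + 1) by positivity)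
  set y : Fin m → Fin L → M := fun j i => c j * w * x i with hy
  have h2 := (le_abs_self _).trans
    ((Real.norm_eq_abs _).symm.le.trans ((f.le_opNorm _).trans
      (mul_le_mul_of_nonneg_left ((norm_sub_rev _ _).le.trans hy2) (norm_nonneg f))))
  rw [map_sub] at h2
  have h3 : ‖f‖ * ((ε : ℝ) / (‖f‖ * L + 1) * L) ≤ ε := by
    rw [div_mul_eq_mul_div, mul_div_assoc', div_le_iff₀ (by positivity)]
    nlinarith [norm_nonneg f, ε.2]
  have hle : f (∑ i, star (x i) * x i) ≤ ∑ j, f (∑ i, star (y j i) * y j i) + ε := by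
    rw [← map_sum]
    simp only [hy]
    linarith
  refine (ENNReal.ofReal_le_ofReal hle).trans
    (ENNReal.ofReal_add_le.trans (add_le_add ?_ ENNReal.ofReal_coe_nnreal.le))
  rw [ENNReal.ofReal_sum_of_nonneg fun j _ =>
    hf _ (Finset.sum_nonneg fun i _ => star_mul_self_nonneg _)]
  exact Finset.sum_le_sum fun j _ =>
    le_top ⟨L, y j, fun i => hJ.mul_left _ (hxJ i), hy1 j, rfl⟩

theorem top_add (hJ : IsBase J) (hf : ∀ p : M, 0 ≤ p → 0 ≤ f p) {u v : M} (hu : 0 ≤ u)
    (hv : 0 ≤ v) : top J f (u + v) = top J f u + top J f v := by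
  refine le_antisymm ?_ ?_
  · have h := top_le_sum hJ hf ![CFC.sqrt u, CFC.sqrt v]
    simpa [Fin.sum_univ_two, (IsSelfAdjoint.of_nonneg (CFC.sqrt_nonneg u)).star_eq,
      (IsSelfAdjoint.of_nonneg (CFC.sqrt_nonneg v)).star_eq, CFC.sqrt_mul_sqrt_self u hu,
      CFC.sqrt_mul_sqrt_self v hv] using h
  · refine ENNReal.biSup_add_biSup_le ⟨_, zero_mem_vals hu⟩ ⟨_, zero_mem_vals hv⟩
      fun r hr s hs => ?_
    rw [← ENNReal.ofReal_add (vals_nonneg hf hr) (vals_nonneg hf hs)]
    exact le_top (add_mem_vals hr hs)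

theorem top_comm (hJ : IsBase J) (hf : ∀ p : M, 0 ≤ p → 0 ≤ f p) (c : M) :
    top J f (star c * c) = top J f (c * star c) := by
  have key : ∀ d : M, top J f (star d * d) ≤ top J f (d * star d) := fun d => by
    simpa using top_le_sum hJ hf ![d]
  exact le_antisymm (key c) (by simpa using key (star c))

theorem top_zero : top J f (0 : M) = 0 := by
  refine le_antisymm (iSup₂_le fun r hr => ?_) bot_le
  obtain ⟨L, x, -, hx, rfl⟩ := hr
  have h : ∀ i, x i = 0 := fun i => by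
    have h1 : x i * star (x i) ≤ 0 := (Finset.single_le_sum (f := fun l => x l * star (x l))
      (fun l _ => mul_star_self_nonneg (x l)) (Finset.mem_univ i)).trans hx
    exact CStarRing.mul_star_self_eq_zero_iff (x i) |>.1
      (le_antisymm h1 (mul_star_self_nonneg _))
  simp [h]

theorem top_smul (hJ : IsBase J) {v : M} {t : ℝ} (ht : 0 ≤ t) :
    top J f (t • v) = ENNReal.ofReal t * top J f v := by
  rcases ht.eq_or_lt with rfl | ht'
  · simp [top_zero]
  have key : ∀ (s : ℝ) (w : M), 0 < s → top J f (s • w) ≤ ENNReal.ofReal s * top J f w := by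
    intro s w hs
    refine iSup₂_le fun r hr => ?_
    have h := le_top (J := J) (f := f) (v := w) (r := s⁻¹ * r) (by
      simpa [inv_smul_smul₀ hs.ne'] using smul_mem_vals hJ (inv_nonneg.2 hs.le) hr)
    calc ENNReal.ofReal r = ENNReal.ofReal s * ENNReal.ofReal (s⁻¹ * r) := by
          rw [← ENNReal.ofReal_mul hs.le, ← mul_assoc, mul_inv_cancel₀ hs.ne', one_mul]
      _ ≤ _ := by gcongr
  refine le_antisymm (key t v ht') ?_
  have h := key t⁻¹ (t • v) (inv_pos.2 ht')
  rw [inv_smul_smul₀ ht'.ne', ENNReal.ofReal_inv_of_pos ht'] at h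
  calc ENNReal.ofReal t * top J f v
      ≤ ENNReal.ofReal t * ((ENNReal.ofReal t)⁻¹ * top J f (t • v)) := by gcongr
    _ = _ := by
      rw [← mul_assoc, ENNReal.mul_inv_cancel (ENNReal.ofReal_pos.2 ht').ne' ENNReal.ofReal_ne_top,
        one_mul]

/-- The supremum as a trace on the positive cone of `J`. -/
def trace (hJ : IsBase J) (hf : ∀ p : M, 0 ≤ p → 0 ≤ f p) : ETr J where
  t := top J f
  add _ _ _ _ hx hy := top_add hJ hf hx hy
  mono _ _ _ _ _ h := top_mono h
  smul _ _ hr _ _ := top_smul hJ hr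
  comm x _ := top_comm hJ hf x

/-- A scalar multiple of a trace. -/
def scale (c : ℝ≥0∞) (T : ETr J) : ETr J where
  t x := c * T.t x
  add x y hx hy hx0 hy0 := by rw [T.add x y hx hy hx0 hy0, mul_add]
  mono x y hx hy hx0 h := by gcongr; exact T.mono x y hx hy hx0 h
  smul r x hr hx hx0 := by rw [T.smul r x hr hx hx0, mul_left_comm]
  comm x hx := by rw [T.comm x hx]

/-- Domination in every normalised trace gives a decomposition. -/
theorem decomp_goal (hJ : IsBase J) : DecompGoal J := by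
  intro u hu hu0 a b κ ε ha hbJ hb hb0 hκ hε htr
  set B := κ • b with hBdef
  have hB : 0 ≤ B := smul_nonneg hκ.le hb
  have hBJ : B ∈ J := hJ.rsmul_mem κ hbJ
  set C : Set M := {c | ∃ (L : ℕ) (x : Fin L → M), (∀ i, x i ∈ J) ∧
    ∑ i, x i * star (x i) ≤ B ∧ c ≤ ∑ i, star (x i) * x i} with hC
  by_cases hcl : a ∈ closure C
  · obtain ⟨c, ⟨L, x, hxJ, hx, hcx⟩, hac⟩ := Metric.mem_closure_iff.1 hcl ε hε
    suffices h : a ≤ ∑ i, star (x i) * x i + ε • (1 : M) by
      obtain ⟨r, hy1, hy2⟩ := Uni.Decomp.decomp_aux ha.nonneg hε x h hx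
      exact ⟨L, fun i => x i * r, fun i => hJ.mul_right r (hxJ i), hy1, hy2⟩
    rw [dist_eq_norm] at hac
    have hsa : IsSelfAdjoint (a - c) := by
      refine (IsSelfAdjoint.of_nonneg ha.nonneg).sub ?_
      have h1 := IsSelfAdjoint.of_nonneg (sub_nonneg.2 hcx)
      have h2 : IsSelfAdjoint (∑ i, star (x i) * x i) :=
        IsSelfAdjoint.of_nonneg (Finset.sum_nonneg fun i _ => star_mul_self_nonneg (x i))
      simpa using h2.sub h1
    have h3 := hsa.le_algebraMap_norm_self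
    rw [Algebra.algebraMap_eq_smul_one] at h3
    calc a = c + (a - c) := by abel
      _ ≤ _ := add_le_add hcx (h3.trans (smul_le_smul_of_nonneg_right hac.le zero_le_one))
  have hconv : Convex ℝ C := by
    rintro c ⟨L, x, hxJ, hx, hcx⟩ d ⟨L', y, hyJ, hy, hdy⟩ s t hs ht hst
    refine ⟨L + L', Fin.append (fun i => Real.sqrt s • x i) (fun i => Real.sqrt t • y i),
      fun i => by induction i using Fin.addCases <;> simp [hJ.rsmul_mem, hxJ, hyJ], ?_, ?_⟩
    · simp only [Fin.sum_univ_add, Fin.append_left, Fin.append_right, star_smul, star_trivial,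
        smul_mul_smul_comm, Real.mul_self_sqrt hs, Real.mul_self_sqrt ht, ← Finset.smul_sum]
      exact (add_le_add (smul_le_smul_of_nonneg_left hx hs)
        (smul_le_smul_of_nonneg_left hy ht)).trans_eq (by rw [← add_smul, hst, one_smul])
    · simp only [Fin.sum_univ_add, Fin.append_left, Fin.append_right, star_smul, star_trivial,
        smul_mul_smul_comm, Real.mul_self_sqrt hs, Real.mul_self_sqrt ht, ← Finset.smul_sum]
      exact add_le_add (smul_le_smul_of_nonneg_left hcx hs) (smul_le_smul_of_nonneg_left hdy ht)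
  obtain ⟨f, α, hfα, hαa⟩ :=
    geometric_hahn_banach_closed_point hconv.closure isClosed_closure hcl
  have hCα : ∀ c ∈ C, f c < α := fun c hc => hfα c (subset_closure hc)
  have h0C : ∀ p : M, 0 ≤ p → -p ∈ C := fun p hp =>
    ⟨0, Fin.elim0, fun i => i.elim0, by simpa using hB, by simpa using hp⟩
  have hα : 0 < α := by simpa using hCα _ (h0C 0 le_rfl)
  have hf : ∀ p : M, 0 ≤ p → 0 ≤ f p := fun p hp => by
    by_contra hlt
    push Not at hlt
    have h := hCα _ (h0C ((α / -f p) • p) (smul_nonneg (div_nonneg hα.le (by linarith)) hp))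
    rw [map_neg, map_smul, smul_eq_mul, div_mul_eq_mul_div, lt_iff_not_ge] at h
    exact h (le_of_eq (by rw [div_neg, neg_neg, mul_div_assoc, div_self hlt.ne, mul_one]))
  set T := trace hJ hf
  have hTB : T.t B ≤ ENNReal.ofReal α := iSup₂_le fun r hr => by
    obtain ⟨L, x, hxJ, hx, rfl⟩ := hr
    exact ENNReal.ofReal_le_ofReal (hCα _ ⟨L, x, hxJ, hx, le_rfl⟩).le
  have hq : star (CFC.sqrt a) = CFC.sqrt a :=
    (IsSelfAdjoint.of_nonneg (CFC.sqrt_nonneg a)).star_eq
  have hTa : ENNReal.ofReal (f a) ≤ T.t a :=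
    le_top ⟨1, fun _ => CFC.sqrt a, fun _ => hJ.sqrt_mem ha.mem ha.nonneg,
      by simp [hq, CFC.sqrt_mul_sqrt_self a ha.nonneg],
      by simp [hq, CFC.sqrt_mul_sqrt_self a ha.nonneg]⟩
  have hfa : ENNReal.ofReal α < T.t a :=
    ((ENNReal.ofReal_lt_ofReal_iff (hα.trans hαa)).2 hαa).trans_le hTa
  have htop : T.t u ≠ ∞ := by
    obtain ⟨K, -, hK⟩ := ETr.exists_le_mul hJ hu hBJ hB (by simp [hBdef, hκ.ne', hb0])
    exact ne_top_of_le_ne_top (ENNReal.mul_ne_top ENNReal.ofReal_ne_top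
      (ne_top_of_le_ne_top ENNReal.ofReal_ne_top hTB)) (hK T)
  have hne : T.t u ≠ 0 := fun h0 => by
    obtain ⟨K, -, hK⟩ := ETr.exists_le_mul hJ ha hu.mem hu.nonneg hu0
    have := hK T
    rw [h0, mul_zero] at this
    exact (bot_le.trans_lt hfa).ne' (le_antisymm this bot_le)
  have h := htr (scale (T.t u)⁻¹ T) (ENNReal.inv_mul_cancel hne htop)
  change (T.t u)⁻¹ * T.t a < ENNReal.ofReal κ * ((T.t u)⁻¹ * T.t b) at h
  rw [mul_left_comm, ← T.smul κ b hκ.le hbJ hb, ← hBdef] at h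
  have h' : T.t a < T.t B := lt_of_mul_lt_mul_left h bot_le
  exact absurd (h'.trans_le hTB) (lt_asymm hfa)

end Vale.Agent.P095.NU.Decomp
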