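import Vale.Agent.P095.NU.UnitsDefs
import Vale.Agent.P095.AF.DropHom

/-!
# P095: invariant drop maps into the relative central sequences

With normalised traces the maps come from exact invariant matrix units and property (SI), without
them from almost invariant isometries with orthogonal ranges.
-/

open Filter Topology
open scoped ComplexOrder ENNReal

set_option maxSynthPendingDepth 3

noncomputable section

namespace Vale.Agent.P095.NU

open P101.SeqAlg (SQ bseq toSQ)

variable {M : Type*} [CStarAlgebra M] {J : Set M} {ω : Ultrafilter ℕ}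

section Abstract

variable {B : Type*} [CStarAlgebra B]

/-- A positive contraction in the image is `star a * a` for a contraction in the domain. -/
theorem exists_contraction_preimage {X : Type*} [CStarAlgebra X] (f : X →⋆ₐ[ℂ] B)
    (hf : Function.Surjective f) {z y : B} (hz : z = star y * y) (hz1 : ‖z‖ ≤ 1) :
    ∃ g : X, ‖g‖ ≤ 1 ∧ star (f g) * f g = z := by
  let : PartialOrder B := CStarAlgebra.spectralOrder _
  have : StarOrderedRing B := CStarAlgebra.spectralOrderedRing _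
  have hz0 : 0 ≤ z := hz ▸ star_mul_self_nonneg y
  set q := CFC.sqrt z
  have hs : IsSelfAdjoint q := .of_nonneg (CFC.sqrt_nonneg z)
  have hqq : star q * q = z := by rw [hs.star_eq]; exact CFC.sqrt_mul_sqrt_self z hz0
  have hn : ‖q‖ ≤ 1 := by
    have h : ‖q‖ ^ 2 ≤ 1 := by rw [sq, ← CStarRing.norm_star_mul_self, hqq]; exact hz1
    nlinarith [norm_nonneg q]
  obtain ⟨t, ht⟩ := hf q
  have hft : f ((2⁻¹ : ℂ) • (t + star t)) = q := by
    rw [map_smul, map_add, map_star, ht, hs.star_eq, ← two_smul ℂ q, smul_smul]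
    norm_num
  have hsa : IsSelfAdjoint ((2⁻¹ : ℂ) • (t + star t)) := by
    simp [IsSelfAdjoint, add_comm]
  obtain ⟨g, -, hg, hg1⟩ := exists_lift_selfAdjoint f hsa
  rw [hft] at hg hg1
  exact ⟨g, hg1.trans hn, by rw [hg, hqq]⟩

variable {G : Type*} (σ : G → B →⋆ₐ[ℂ] B)

/-- The common fixed points of a family of endomorphisms. -/
def fixedSub : StarSubalgebra ℂ B := ⨅ g : G, StarAlgHom.equalizer (σ g) (StarAlgHom.id ℂ B)

theorem mem_fixedSub_iff (z : B) : z ∈ fixedSub σ ↔ ∀ g, σ g z = z := by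
  rw [fixedSub, StarSubalgebra.mem_iInf]
  exact forall_congr' fun g => StarAlgHom.mem_equalizer _ _ _

instance : IsClosed (fixedSub σ : Set B) := by
  have h : (fixedSub σ : Set B) = ⋂ g, {z | σ g z = z} := Set.ext fun z => by
    simpa using mem_fixedSub_iff σ z
  rw [h]
  exact isClosed_iInter fun g => isClosed_eq (continuous_hom (σ g)) continuous_id

/-- Fixed units and an isometric defect give a fixed map from a dimension drop algebra. -/
theorem exists_fixed_hom {N : ℕ} [NeZero N] (e : Fin N → Fin N → B)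
    (he : ∀ g i j, σ g (e i j) = e i j) (hs : ∀ i j, star (e i j) = e j i)
    (hm : ∀ i j k l, e i j * e k l = if j = k then (∑ r, e r r) * e i l else 0)
    (hn : ∀ i j, ‖e i j‖ ≤ 1) (hd : ∀ i, ∃ y : B, e i i = star y * y) (w : B)
    (hw : ∀ g, σ g w = w) (hww : star w * w = 1 - ∑ i, e i i) (hew : e 0 0 * w = w) :
    ∃ φ : P101.Drop.dropAlg N (N + 1) ℂ →⋆ₐ[ℂ] B, ∀ g z, σ g (φ z) = φ z := by
  let : PartialOrder (fixedSub σ) := CStarAlgebra.spectralOrder _
  have : StarOrderedRing (fixedSub σ) := CStarAlgebra.spectralOrderedRing _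
  let E : Fin N → Fin N → fixedSub σ := fun i j =>
    ⟨e i j, (mem_fixedSub_iff σ _).2 fun g => he g i j⟩
  have hmulE : ∀ i j k l, E i j * E k l = if j = k then (∑ r, E r r) * E i l else 0 := by
    intro i j k l
    refine Subtype.ext ((hm i j k l).trans ?_)
    split_ifs <;> simp [E, AddSubmonoidClass.coe_finsetSum]
  let V : fixedSub σ := ⟨w, (mem_fixedSub_iff σ _).2 hw⟩
  have hVV : star V * V = 1 - ∑ i, E i i := by
    refine Subtype.ext ?_
    simpa [E, V, AddSubmonoidClass.coe_finsetSum] using hww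
  have hp01 : ‖1 - ∑ i, e i i‖ ≤ 1 := by
    let : PartialOrder B := CStarAlgebra.spectralOrder _
    have : StarOrderedRing B := CStarAlgebra.spectralOrderedRing _
    have hp0 : 0 ≤ ∑ i, e i i := Finset.sum_nonneg fun i _ => by
      obtain ⟨y, hy⟩ := hd i
      exact hy ▸ star_mul_self_nonneg y
    have hp1 : ∑ i, e i i ≤ 1 := (CStarAlgebra.norm_le_one_iff_of_nonneg _ hp0).1
      (AF.norm_sum_le_one _ (fun i => hs i i) (fun i j hij => by rw [hm, if_neg hij])
        fun i => hn i i)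
    exact (CStarAlgebra.norm_le_one_iff_of_nonneg _ (sub_nonneg.2 hp1)).2 (sub_le_self _ hp0)
  have h0 : (0 : fixedSub σ) ≤ ∑ i, E i i := by
    have hvn : ‖star V * V‖ ≤ 1 := by
      show ‖((star V * V : fixedSub σ) : B)‖ ≤ 1
      simpa [V, hww] using hp01
    have h := (CStarAlgebra.norm_le_one_iff_of_nonneg _ (star_mul_self_nonneg V)).1 hvn
    rw [hVV] at h
    exact sub_le_self_iff _ |>.1 h
  obtain ⟨ψ⟩ := P101.Universal.exists_hom_dropAlg (AF.unitsMap E)
    (AF.unitsMap_star E fun i j => Subtype.ext (hs i j))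
    (AF.unitsMap_mul E hmulE) (by rwa [AF.unitsMap_one]) V (by rwa [AF.unitsMap_one])
    (by rw [AF.unitsMap_single]; exact Subtype.ext hew)
  exact ⟨(fixedSub σ).subtype.comp ψ, fun g z => (mem_fixedSub_iff σ _).1 (ψ z).2 g⟩

/-- Fixed isometries with orthogonal ranges give a fixed map from a dimension drop algebra. -/
theorem exists_fixed_hom_of_isometries {N : ℕ} [NeZero N] (v : Fin N → B)
    (hσ : ∀ g a, σ g (v a) = v a) (hv : ∀ a b, star (v a) * v b = if a = b then 1 else 0) :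
    ∃ φ : P101.Drop.dropAlg N (N + 1) ℂ →⋆ₐ[ℂ] B, ∀ g z, σ g (φ z) = φ z := by
  let : PartialOrder (fixedSub σ) := CStarAlgebra.spectralOrder _
  have : StarOrderedRing (fixedSub σ) := CStarAlgebra.spectralOrderedRing _
  let V : Fin N → fixedSub σ := fun a => ⟨v a, (mem_fixedSub_iff σ _).2 fun g => hσ g a⟩
  have hV : ∀ a b, star (V a) * V b = if a = b then 1 else 0 := fun a b =>
    Subtype.ext ((hv a b).trans (by split_ifs <;> simp))
  set E : Fin N → Fin N → fixedSub σ := fun i j => V i * star (V j) with hE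
  set p := ∑ i, E i i with hp
  have hEl : ∀ i j, p * E i j = E i j := fun i j => by
    rw [hp, Finset.sum_mul, Finset.sum_eq_single i]
    · simp only [hE, mul_assoc]
      rw [← mul_assoc (star (V i)), hV, if_pos rfl, one_mul]
    · intro l _ hl
      simp only [hE, mul_assoc]
      rw [← mul_assoc (star (V l)), hV, if_neg hl, zero_mul, mul_zero]
    · simp
  have hmul : ∀ i j k l, E i j * E k l = if j = k then p * E i l else 0 := fun i j k l => by
    rw [hEl]
    simp only [hE, mul_assoc]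
    rw [← mul_assoc (star (V j)), hV]
    split_ifs <;> simp
  have hstar : ∀ i j, star (E i j) = E j i := fun i j => by simp [hE]
  have hpsa : star p = p := by simp [hp, star_sum, hstar]
  have hpp : p * p = p := by
    conv_lhs => arg 2; rw [hp]
    rw [Finset.mul_sum, hp]
    exact Finset.sum_congr rfl fun i _ => hEl i i
  obtain ⟨ψ⟩ := P101.Universal.exists_hom_dropAlg (AF.unitsMap E)
    (AF.unitsMap_star E hstar) (AF.unitsMap_mul E hmul)
    (by
      rw [AF.unitsMap_one]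
      exact Finset.sum_nonneg fun i _ => mul_star_self_nonneg (V i))
    (V 0 * (1 - p)) (by
      rw [AF.unitsMap_one, ← hp, star_mul, star_sub, star_one, hpsa, mul_assoc,
        ← mul_assoc (star (V 0)), hV, if_pos rfl, one_mul]
      simp only [mul_sub, sub_mul, one_mul, mul_one, hpp]
      abel)
    (by
      rw [AF.unitsMap_single]
      simp only [hE, mul_assoc]
      rw [← mul_assoc (star (V 0)), hV, if_pos rfl, one_mul])
  exact ⟨(fixedSub σ).subtype.comp ψ, fun g z => (mem_fixedSub_iff σ _).1 (ψ z).2 g⟩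

end Abstract

section Lift

variable {hJs : ∀ a ∈ J, star a ∈ J}

/-- A contraction of the commutant is the class of contractions. -/
theorem exists_contraction_seq (g : relComm J ω) (hg1 : ‖g‖ ≤ 1) :
    ∃ x : relSeq J ω hJs, toC hJs x = (cornerHom J ω).rangeRestrict g ∧ ∀ n, ‖ent x n‖ ≤ 1 := by
  obtain ⟨y, hy⟩ := P101.SeqAlg.toSQ_surjective (g : SQ M ω)
  set r : ℕ → ℝ := fun n => (max 1 ‖(y : ℕ → M) n‖)⁻¹
  have hr0 : ∀ n, 0 < max 1 ‖(y : ℕ → M) n‖ := fun n => one_pos.trans_le (le_max_left _ _)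
  have hlim : Tendsto (fun n => r n) (ω : Filter ℕ) (𝓝 1) := by
    have h := ((tendsto_const_nhds (x := (1 : ℝ))).max
      (P101.SeqAlg.tendsto_norm_toSQ y)).inv₀ (by positivity)
    rwa [hy, max_eq_left (show ‖(g : SQ M ω)‖ ≤ 1 from hg1), inv_one] at h
  let y' : bseq M ω := ⟨fun n => r n • (y : ℕ → M) n, 1, fun n => by
    rw [norm_smul, Real.norm_of_nonneg (inv_nonneg.2 (hr0 n).le), inv_mul_le_iff₀ (hr0 n), mul_one]
    exact le_max_right _ _⟩
  have hy' : toSQ y' = (g : SQ M ω) := by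
    rw [← hy, P101.SeqAlg.toSQ_eq_iff]
    obtain ⟨C, hC⟩ := y.2
    refine squeeze_zero_norm (fun n => ?_) (by simpa using ((hlim.sub_const 1).norm.mul_const C))
    show ‖r n • (y : ℕ → M) n - (y : ℕ → M) n‖ ≤ _
    rw [show r n • (y : ℕ → M) n - (y : ℕ → M) n = (r n - 1) • (y : ℕ → M) n by
      rw [sub_smul, one_smul], norm_smul]
    exact mul_le_mul_of_nonneg_left (hC n) (norm_nonneg _)
  refine ⟨⟨y', fun a ha => ?_⟩, Subtype.ext ?_, fun n => ?_⟩
  · have h : toSQ ⟨fun _ => a, ‖a‖, fun _ => le_rfl⟩ * toSQ y' =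
        toSQ y' * toSQ ⟨fun _ => a, ‖a‖, fun _ => le_rfl⟩ := by
      rw [hy']; exact const_commute g.2 ha
    rwa [← P101.SeqAlg.toSQ_mul, ← P101.SeqAlg.toSQ_mul, P101.SeqAlg.toSQ_eq_iff] at h
  · show cornerHom J ω ⟨toSQ y', _⟩ = cornerHom J ω g
    exact congrArg _ (Subtype.ext hy')
  · show ‖r n • (y : ℕ → M) n‖ ≤ 1
    rw [norm_smul, Real.norm_of_nonneg (inv_nonneg.2 (hr0 n).le), inv_mul_le_iff₀ (hr0 n), mul_one]
    exact le_max_right _ _

/-- A positive contraction is the class of positive contractions. -/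
theorem exists_posContraction_seq [PartialOrder M] [StarOrderedRing M] {z y : CSeq J ω}
    (hz : z = star y * y) (hz1 : ‖z‖ ≤ 1) :
    ∃ x : relSeq J ω hJs, toC hJs x = z ∧ ∀ n, 0 ≤ ent x n ∧ ‖ent x n‖ ≤ 1 := by
  obtain ⟨g, hg1, hg⟩ := exists_contraction_preimage (cornerHom J ω).rangeRestrict
    (by rintro ⟨_, t, rfl⟩; exact ⟨t, rfl⟩) hz hz1
  obtain ⟨w, hw, hw1⟩ := exists_contraction_seq (hJs := hJs) g hg1
  refine ⟨star w * w, ?_, fun n => ⟨star_mul_self_nonneg _, ?_⟩⟩
  · rw [map_mul, map_star, hw]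
    exact hg
  · show ‖star (ent w n) * ent w n‖ ≤ 1
    rw [CStarRing.norm_star_mul_self]
    exact mul_le_one₀ (hw1 n) (norm_nonneg _) (hw1 n)

end Lift

section Tools

theorem exists_dense_seq (hJ : IsBase J) :
    ∃ a : ℕ → M, (∀ i, a i ∈ J) ∧ J ⊆ closure (Set.range a) := by
  obtain ⟨S, hSc, hSJ, hSd⟩ := hJ.separable
  obtain ⟨a, ha⟩ := (hSc.insert 0).exists_eq_range (Set.insert_nonempty _ _)
  refine ⟨a, fun i => ?_, hSd.trans (closure_mono (ha ▸ Set.subset_insert _ _))⟩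
  have hmem : a i ∈ insert 0 S := ha ▸ Set.mem_range_self i
  rcases hmem with h | h
  · rw [h]; exact hJ.zero_mem
  · exact hSJ h

/-- Convergence on a dense family extends to `J` for uniformly Lipschitz maps. -/
theorem tendsto_of_dense {a : ℕ → M} (ha : J ⊆ closure (Set.range a)) {l : Filter ℕ}
    {F : ℕ → M → M} {B : ℝ} (hB : ∀ n c d, ‖F n c - F n d‖ ≤ B * ‖c - d‖)
    (h : ∀ i, Tendsto (fun n => F n (a i)) l (𝓝 0)) {c : M} (hc : c ∈ J) :
    Tendsto (fun n => F n c) l (𝓝 0) := by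
  refine NormedAddGroup.tendsto_nhds_zero.2 fun ε hε => ?_
  obtain ⟨_, ⟨i, rfl⟩, hi⟩ := Metric.mem_closure_iff.1 (ha hc) (ε / (2 * (|B| + 1))) (by positivity)
  filter_upwards [NormedAddGroup.tendsto_nhds_zero.1 (h i) (ε / 2) (half_pos hε)] with n hn
  rw [dist_eq_norm, lt_div_iff₀ (by positivity)] at hi
  have h1 := norm_le_norm_add_norm_sub' (F n c) (F n (a i))
  nlinarith [hB n c (a i), mul_le_mul_of_nonneg_right (le_abs_self B) (norm_nonneg (c - a i)),
    norm_nonneg (c - a i)]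

theorem norm_mul_sub_mul_right_le {x : M} {B : ℝ} (hx : ‖x‖ ≤ B) (c d : M) :
    ‖x * c - x * d‖ ≤ B * ‖c - d‖ := by
  rw [← mul_sub]
  exact (norm_mul_le _ _).trans (mul_le_mul_of_nonneg_right hx (norm_nonneg _))

theorem norm_mul_sub_mul_left_le {x : M} {B : ℝ} (hx : ‖x‖ ≤ B) (c d : M) :
    ‖c * x - d * x‖ ≤ B * ‖c - d‖ := by
  rw [← sub_mul, mul_comm B]
  exact (norm_mul_le _ _).trans (mul_le_mul_of_nonneg_left hx (norm_nonneg _))

theorem norm_comm_sub_le {x : M} {B : ℝ} (hx : ‖x‖ ≤ B) (c d : M) :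
    ‖(c * x - x * c) - (d * x - x * d)‖ ≤ 2 * B * ‖c - d‖ := by
  rw [show (c * x - x * c) - (d * x - x * d) = (c * x - d * x) - (x * c - x * d) by abel]
  refine (norm_sub_le _ _).trans ((add_le_add (norm_mul_sub_mul_left_le hx c d)
    (norm_mul_sub_mul_right_le hx c d)).trans_eq ?_)
  ring

/-- A central sequence null on one side is null on `J`. -/
theorem nullOn_of_mul_right {hJs : ∀ a ∈ J, star a ∈ J} (z : relSeq J ω hJs)
    (h : ∀ y ∈ J, Tendsto (fun n => ent z n * y) ω (𝓝 0)) : NullOn J ω (ent z) := fun y hy =>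
  ⟨h y hy, by
    have hh := (z.2 y hy).add (h y hy)
    rw [add_zero] at hh
    exact hh.congr fun n => sub_add_cancel _ _⟩

end Tools

section Traced

variable [PartialOrder M]

/-- The functionals given by normalised traces compressed at `v`. -/
def IsFun (J : Set M) (u v : M) (L : M →ₗ[ℂ] ℂ) : Prop :=
  (∀ a, 0 ≤ L (star a * a)) ∧ ∃ T : ETr J, T.t u = 1 ∧ ∀ x, 0 ≤ x → L x = (T.val v x : ℂ)

/-- Uniformly small in all normalised traces compressed at `v`. -/
def Small (J : Set M) (u v : M) (l : Filter ℕ) (x : ℕ → M) : Prop :=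
  ∀ ε : ℝ, 0 < ε → ∀ᶠ n in l, ∀ L, IsFun J u v L → ‖L (x n)‖ ≤ ε

variable {u v : M} {l : Filter ℕ} {x y : ℕ → M}

theorem Small.add (hx : Small J u v l x) (hy : Small J u v l y) :
    Small J u v l fun n => x n + y n := fun ε hε => by
  filter_upwards [hx (ε / 2) (half_pos hε), hy (ε / 2) (half_pos hε)] with n h1 h2 L hL
  rw [map_add]
  linarith [norm_add_le (L (x n)) (L (y n)), h1 L hL, h2 L hL]

theorem Small.neg (hx : Small J u v l x) : Small J u v l fun n => -x n := fun ε hε => by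
  filter_upwards [hx ε hε] with n h1 L hL
  rw [map_neg, norm_neg]
  exact h1 L hL

theorem Small.sub (hx : Small J u v l x) (hy : Small J u v l y) :
    Small J u v l fun n => x n - y n := by simpa [sub_eq_add_neg] using hx.add hy.neg

theorem small_zero : Small J u v l fun _ => 0 := fun ε hε =>
  .of_forall fun _ L _ => by simp [hε.le]

variable [StarOrderedRing M]

/-- The Cauchy–Schwarz inequality. -/
theorem sq_norm_apply_mul_le {f : M →ₗ[ℂ] ℂ} (hf : ∀ a, 0 ≤ f (star a * a)) (a b : M) :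
    ‖f (star a * b)‖ ^ 2 ≤ (f (star a * a)).re * (f (star b * b)).re := by
  let P : M →ₚ[ℂ] ℂ := PositiveLinearMap.mk₀ f fun a ha => by
    obtain ⟨y, rfl⟩ := CStarAlgebra.nonneg_iff_eq_star_mul_self.1 ha
    exact hf y
  have h := norm_inner_le_norm (𝕜 := ℂ) (P.toPreGNS a) (P.toPreGNS b)
  rw [PositiveLinearMap.preGNS_inner_def, PositiveLinearMap.ofPreGNS_toPreGNS,
    PositiveLinearMap.ofPreGNS_toPreGNS] at h
  have hn : ∀ y, ‖P.toPreGNS y‖ ^ 2 = (f (star y * y)).re := fun y => by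
    have e := P.preGNS_norm_sq (P.toPreGNS y)
    rw [PositiveLinearMap.ofPreGNS_toPreGNS] at e
    have := congrArg Complex.re e
    norm_cast at this
  calc ‖f (star a * b)‖ ^ 2 ≤ (‖P.toPreGNS a‖ * ‖P.toPreGNS b‖) ^ 2 :=
        pow_le_pow_left₀ (norm_nonneg _) h 2
    _ = _ := by rw [mul_pow, hn, hn]

omit [StarOrderedRing M] in
theorem IsFun.norm_apply_pos {L : M →ₗ[ℂ] ℂ} (hL : IsFun J u v L) {a : M} (ha : 0 ≤ a) :
    ‖L a‖ = (L a).re := by
  obtain ⟨-, T, -, h⟩ := hL
  rw [h a ha, Complex.ofReal_re, Complex.norm_real]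
  exact Real.norm_of_nonneg ENNReal.toReal_nonneg

/-- A uniform bound on the compressed traces. -/
theorem exists_fun_bound (hJ : IsBase J) (hu : IsBdd J u) (hu0 : u ≠ 0) (hv : IsTri J v) :
    ∃ K : ℝ, 0 ≤ K ∧ ∀ L, IsFun J u v L → (L 1).re ≤ K := by
  rcases eq_or_ne v 0 with rfl | hv0
  · refine ⟨0, le_rfl, ?_⟩
    rintro L ⟨-, T, -, h⟩
    rw [h 1 zero_le_one]
    simp [ETr.val, T.map_zero hJ]
  · obtain ⟨_, K, -, h⟩ := exists_tri_bounds hJ hu hu0 (hv.isBdd hJ) hv0
    refine ⟨max K 0, le_max_right _ _, ?_⟩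
    rintro L ⟨-, T, hT, hL⟩
    rw [hL 1 zero_le_one, Complex.ofReal_re]
    exact (h T hT).2.trans (le_max_left _ _)

/-- Sequences null on `J` are small. -/
theorem small_of_null (hJ : IsBase J) (hu : IsBdd J u) (hu0 : u ≠ 0) (hv : IsTri J v)
    (hx : NullOn J l x) : Small J u v l x := by
  obtain ⟨K, hK0, hK⟩ := exists_fun_bound hJ hu hu0 hv
  obtain ⟨hv0, -, w, g, hw0, -, -, -, hwv, hgw, hgb⟩ := hv
  have hwJ : w ∈ J := by rw [← hgw]; exact hJ.mul_right _ hgb.mem
  have hvs : star v = v := (IsSelfAdjoint.of_nonneg hv0).star_eq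
  have hws : star w = w := (IsSelfAdjoint.of_nonneg hw0).star_eq
  have hvw : v * w = v := by simpa [hvs, hws] using congrArg star hwv
  intro ε hε
  have h0 : Tendsto (fun n => K * ‖x n * w‖) l (𝓝 0) := by
    simpa using (hx w hwJ).1.norm.const_mul K
  filter_upwards [h0.eventually (eventually_le_nhds hε)] with n hn L hL
  refine le_trans ?_ hn
  have e : L (star (x n) * x n) = L (star (x n * w) * (x n * w)) := by
    obtain ⟨-, T, -, h⟩ := hL
    rw [h _ (star_mul_self_nonneg _), h _ (star_mul_self_nonneg _)]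
    simp only [ETr.val, hvs, star_mul, hws]
    congr 3
    rw [show v * (w * star (x n) * (x n * w)) * v = (v * w) * (star (x n) * x n) * (w * v) by
      simp only [mul_assoc], hvw, hwv]
  have h1 := sq_norm_apply_le hL.1 (x n)
  have h2 := (Complex.re_le_norm _).trans (norm_apply_le_of_pos hL.1 (star (x n * w) * (x n * w)))
  rw [CStarRing.norm_star_mul_self, ← e] at h2
  have h3 := hK L hL
  have h4 := re_one_nonneg hL.1
  refine (sq_le_sq₀ (norm_nonneg _) (by positivity)).1 (h1.trans ?_)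
  calc (L 1).re * (L (star (x n) * x n)).re
      ≤ (L 1).re * (‖x n * w‖ * ‖x n * w‖ * (L 1).re) := mul_le_mul_of_nonneg_left h2 h4
    _ ≤ K * (‖x n * w‖ * ‖x n * w‖ * K) := by gcongr
    _ = _ := by ring

/-- A tracially null positive contraction times a contraction is small. -/
theorem small_mul (hJ : IsBase J) (hu : IsBdd J u) (hu0 : u ≠ 0) (hv : IsTri J v) {d f : ℕ → M}
    (hd : ∀ n, 0 ≤ d n ∧ ‖d n‖ ≤ 1) (hdn : UNull J u l d) (hf : ∀ n, ‖f n‖ ≤ 1) :
    Small J u v l fun n => d n * f n := by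
  obtain ⟨K, hK0, hK⟩ := exists_fun_bound hJ hu hu0 hv
  intro ε hε
  filter_upwards [hdn v hv (ε ^ 2 / (K + 1)) (by positivity)] with n hn L hL
  set q := CFC.sqrt (d n) with hq
  have hqs : star q = q := (IsSelfAdjoint.of_nonneg (CFC.sqrt_nonneg _)).star_eq
  have hqq : q * q = d n := CFC.sqrt_mul_sqrt_self _ (hd n).1
  have hq1 : ‖q‖ * ‖q‖ ≤ 1 := by
    rw [← CStarRing.norm_star_mul_self, hqs, hqq]; exact (hd n).2
  have e : d n * f n = star q * (q * f n) := by rw [hqs, ← mul_assoc, hqq]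
  have h1 := sq_norm_apply_mul_le hL.1 q (q * f n)
  rw [← e, hqs, hqq] at h1
  have h2 : (L (d n)).re ≤ ε ^ 2 / (K + 1) := by
    obtain ⟨-, T, hT, h⟩ := hL
    rw [h _ (hd n).1, Complex.ofReal_re]
    exact hn T hT
  have h3 : (L (star (q * f n) * (q * f n))).re ≤ K + 1 := by
    refine ((Complex.re_le_norm _).trans (norm_apply_le_of_pos hL.1 _)).trans ?_
    rw [CStarRing.norm_star_mul_self]
    have h4 : ‖q * f n‖ * ‖q * f n‖ ≤ 1 := by
      have h5 : ‖q * f n‖ ≤ ‖q‖ :=
        (norm_mul_le _ _).trans (mul_le_of_le_one_right (norm_nonneg _) (hf n))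
      exact (mul_le_mul h5 h5 (norm_nonneg _) (norm_nonneg _)).trans hq1
    have := hK L hL
    nlinarith [re_one_nonneg hL.1]
  refine (sq_le_sq₀ (norm_nonneg _) hε.le).1 (h1.trans ((mul_le_mul h2 h3 ?_ (by positivity)).trans_eq
    (div_mul_cancel₀ _ (by positivity))))
  exact (Complex.le_def.1 (hL.1 _)).1

omit [StarOrderedRing M] in
/-- A tracially null positive sequence is small. -/
theorem small_of_unull (hv : IsTri J v) (hd : ∀ n, 0 ≤ x n) (hx : UNull J u l x) :
    Small J u v l x := fun ε hε => by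
  filter_upwards [hx v hv ε hε] with n hn L hL
  obtain ⟨-, T, hT, h⟩ := hL
  rw [h _ (hd n), Complex.norm_real, ETr.val, Real.norm_of_nonneg ENNReal.toReal_nonneg]
  exact hn T hT

variable {hJs : ∀ a ∈ J, star a ∈ J}

/-- Self-commutators of central sequences are small. -/
theorem small_comm (hJ : IsBase J) (hu : IsBdd J u) (hu0 : u ≠ 0) (hv : IsTri J v)
    {T₀ : ETr J} (hT₀ : T₀.t u = 1) (z : relSeq J ω hJs) :
    Small J u v ω fun n => star (ent z n) * ent z n - ent z n * star (ent z n) := by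
  classical
  intro ε hε
  have hvb := hv.isBdd hJ
  obtain ⟨hv0, -, w, g, hw0, -, hg0, -, hwv, hgw, hgb⟩ := hv
  have hwJ : w ∈ J := by rw [← hgw]; exact hJ.mul_right _ hgb.mem
  set D : ETr J → ℕ → ℝ := fun T n =>
    T.val v (star (ent z n) * ent z n) - T.val v (ent z n * star (ent z n))
  set T : ℕ → ETr J := fun n =>
    if h : ∃ T : ETr J, T.t u = 1 ∧ ε < |D T n| then h.choose else T₀
  have hT : ∀ n, (T n).t u = 1 := fun n => by
    simp only [T]
    split_ifs with h
    exacts [h.choose_spec.1, hT₀]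
  have hK : ∀ {b : M}, IsBdd J b → ∃ K : ℝ, ∀ n, (T n).val b 1 ≤ K := fun {b} hb => by
    rcases eq_or_ne b 0 with h | h
    · exact ⟨0, fun n => le_of_eq (by simp [ETr.val, h, (T n).map_zero hJ])⟩
    · obtain ⟨_, K, -, h⟩ := exists_tri_bounds hJ hu hu0 hb h
      exact ⟨K, fun n => (h (T n) (hT n)).2⟩
  obtain ⟨K, hK1⟩ := hK hvb
  obtain ⟨Kg, hKg⟩ := hK hgb
  have h := tendsto_val_comm hJ hvb.mem hwJ hgb.mem (IsSelfAdjoint.of_nonneg hv0).star_eq
    (IsSelfAdjoint.of_nonneg hw0).star_eq (IsSelfAdjoint.of_nonneg hg0).star_eq hwv hgw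
    (fun n => (T n).star_mul_self_ne_top hJ hu hu0 (hT n) hvb)
    (fun n => (T n).star_mul_self_ne_top hJ hu hu0 (hT n) hgb) hK1 hKg z
  filter_upwards [(NormedAddGroup.tendsto_nhds_zero.1 h ε hε)] with n hn L hL
  obtain ⟨-, T', hT', hL'⟩ := hL
  rw [map_sub, hL' _ (star_mul_self_nonneg _), hL' _ (mul_star_self_nonneg _),
    ← Complex.ofReal_sub, Complex.norm_real, Real.norm_eq_abs]
  by_contra hbad
  have hex : ∃ T : ETr J, T.t u = 1 ∧ ε < |D T n| := ⟨T', hT', not_le.1 hbad⟩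
  have hsel : T n = hex.choose := dif_pos hex
  rw [Real.norm_eq_abs, hsel] at hn
  exact absurd hn (not_lt.2 hex.choose_spec.2.le)

/-- Smallness depends only on the class. -/
theorem small_congr (hJ : IsBase J) (hu : IsBdd J u) (hu0 : u ≠ 0) (hv : IsTri J v)
    {a b : relSeq J ω hJs} (h : toC hJs a = toC hJs b) (hb : Small J u v ω (ent b)) :
    Small J u v ω (ent a) := by
  have hn := small_of_null hJ hu hu0 hv
    ((toC_eq_iff hJs (fun x _ y hy => hJ.mul_left x hy) a b).1 h)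
  simpa using hn.add hb

end Traced

section Main

variable [PartialOrder M] [StarOrderedRing M] {hJs : ∀ a ∈ J, star a ∈ J}
  {hJm : ∀ a ∈ J, ∀ b ∈ J, a * b ∈ J} {G : Type*} [Group G] {α : G → M ≃⋆ₐ[ℂ] M}
  {hα : ∀ g h a, α (g * h) a = α g (α h a)} {hαJ : ∀ g a, α g a ∈ J ↔ a ∈ J}

omit [PartialOrder M] [StarOrderedRing M] [Group G] in
/-- An invariant class gives an invariant sequence. -/
theorem isCentralInv_ent {x : relSeq J ω hJs} {z : CSeq J ω}
    (hx : toC hJs x = z) (hz : ∀ g, mapC hJs hJm (hαJ g) z = z) :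
    IsCentralInv J ω α (ent x) :=
  ⟨fun c hc => x.2 c hc, fun g => by
    have h := hz g
    rw [← hx, mapC_toC, toC_eq_iff hJs hJm] at h
    exact h⟩

/-- A sequence selected from the approximate solutions of property (SI). -/
theorem exists_si_seq [Countable G] (hJ : IsBase J) (hfree : (ω : Filter ℕ) ≤ cofinite)
    (e f : ℕ → M) (hef : ∀ n, ‖e n‖ ≤ 1 ∧ ‖f n‖ ≤ 1)
    (h : ∀ C : Finset M, (↑C : Set M) ⊆ J → ∀ (K : Finset G) (ε : ℝ), 0 < ε →
      ∀ᶠ n in (ω : Filter ℕ), ∃ s : M, ‖s‖ ≤ 2 ∧ (∀ c ∈ C, ‖(star s * s - e n) * c‖ ≤ ε ∧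
        ‖(f n * s - s) * c‖ ≤ ε ∧ ‖c * s - s * c‖ ≤ ε) ∧
        ∀ k ∈ K, ∀ c ∈ C, ‖(α k s - s) * c‖ ≤ ε ∧ ‖c * (α k s - s)‖ ≤ ε) :
    ∃ s : relSeq J ω hJs,
      (∀ c ∈ J, Tendsto (fun n => (star (ent s n) * ent s n - e n) * c) ω (𝓝 0)) ∧
      (∀ c ∈ J, Tendsto (fun n => (f n * ent s n - ent s n) * c) ω (𝓝 0)) ∧
      ∀ g, NullOn J ω fun n => α g (ent s n) - ent s n := by
  classical
  have hω : (ω : Filter ℕ) ≤ atTop := hfree.trans Nat.cofinite_eq_atTop.le
  obtain ⟨a, haJ, ha⟩ := exists_dense_seq hJ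
  obtain ⟨k, hk⟩ := exists_surjective_nat G
  let good : ℕ → ℕ → M → Prop := fun m n s => ‖s‖ ≤ 2 ∧ ∀ i ≤ m,
    (‖(star s * s - e n) * a i‖ ≤ 1 / ((m : ℝ) + 1) ∧ ‖(f n * s - s) * a i‖ ≤ 1 / ((m : ℝ) + 1) ∧
      ‖a i * s - s * a i‖ ≤ 1 / ((m : ℝ) + 1)) ∧
    ∀ j ≤ m, ‖(α (k j) s - s) * a i‖ ≤ 1 / ((m : ℝ) + 1) ∧
      ‖a i * (α (k j) s - s)‖ ≤ 1 / ((m : ℝ) + 1)
  have hev : ∀ m, ∀ᶠ n in (ω : Filter ℕ), ∃ s, good m n s := fun m => by
    have hmem : ∀ {i : ℕ}, i ≤ m → i ∈ Finset.range (m + 1) := fun hi =>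
      Finset.mem_range.2 (Nat.lt_succ_of_le hi)
    filter_upwards [h ((Finset.range (m + 1)).image a)
      (by simpa [Set.subset_def] using fun i _ => haJ i) ((Finset.range (m + 1)).image k)
      (1 / ((m : ℝ) + 1)) (by positivity)] with n hn
    obtain ⟨s, h1, h2, h3⟩ := hn
    exact ⟨s, h1, fun i hi => ⟨h2 _ (Finset.mem_image_of_mem a (hmem hi)), fun j hj =>
      h3 _ (Finset.mem_image_of_mem k (hmem hj)) _ (Finset.mem_image_of_mem a (hmem hi))⟩⟩
  let lev : ℕ → ℕ := fun n => Nat.findGreatest (fun m => ∃ s, good m n s) n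
  let s : ℕ → M := fun n => if hs : ∃ s, good (lev n) n s then hs.choose else 0
  have hs2 : ∀ n, ‖s n‖ ≤ 2 := fun n => by
    simp only [s]
    split_ifs with hs
    · exact hs.choose_spec.1
    · simp
  have key : ∀ m : ℕ, ∀ᶠ n in (ω : Filter ℕ), m ≤ lev n ∧ good (lev n) n (s n) := fun m => by
    filter_upwards [hev m, hω (eventually_ge_atTop m)] with n hn hm
    have h' : ∃ s, good (lev n) n s :=
      Nat.findGreatest_spec (P := fun m => ∃ s, good m n s) hm hn
    refine ⟨Nat.le_findGreatest hm hn, ?_⟩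
    simp only [s, dif_pos h']
    exact h'.choose_spec
  have lim : ∀ {F : ℕ → M} (i : ℕ), (∀ n m, i ≤ m → good m n (s n) → ‖F n‖ ≤ 1 / ((m : ℝ) + 1)) →
      Tendsto F (ω : Filter ℕ) (𝓝 0) := by
    intro F i hF
    refine NormedAddGroup.tendsto_nhds_zero.2 fun ε hε => ?_
    obtain ⟨m, hm⟩ := exists_nat_one_div_lt hε
    filter_upwards [key (max m i)] with n hn
    refine (hF n _ ((le_max_right m i).trans hn.1) hn.2).trans_lt (lt_of_le_of_lt ?_ hm)
    gcongr
    exact (le_max_left m i).trans hn.1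
  have hinv : ∀ (g : G) n, ‖α g (s n) - s n‖ ≤ 4 := fun g n => by
    have h1 := norm_sub_le (α g (s n)) (s n)
    rw [StarAlgEquiv.norm_map] at h1
    linarith [hs2 n]
  refine ⟨⟨⟨s, 2, hs2⟩, fun c hc => ?_⟩, fun c hc => ?_, fun c hc => ?_, fun g c hc => ?_⟩
  · exact tendsto_of_dense ha (F := fun n c => c * s n - s n * c)
      (fun n => norm_comm_sub_le (hs2 n))
      (fun i => lim i fun n m hi hg => (hg.2 i hi).1.2.2) hc
  · refine tendsto_of_dense ha (F := fun n c => (star (s n) * s n - e n) * c) (B := 5)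
      (fun n => norm_mul_sub_mul_right_le ?_)
      (fun i => lim i fun n m hi hg => (hg.2 i hi).1.1) hc
    refine (norm_sub_le _ _).trans ?_
    rw [CStarRing.norm_star_mul_self]
    nlinarith [hs2 n, norm_nonneg (s n), (hef n).1]
  · refine tendsto_of_dense ha (F := fun n c => (f n * s n - s n) * c) (B := 4)
      (fun n => norm_mul_sub_mul_right_le ?_)
      (fun i => lim i fun n m hi hg => (hg.2 i hi).1.2.1) hc
    refine (norm_sub_le _ _).trans ?_
    nlinarith [norm_mul_le (f n) (s n), hs2 n, norm_nonneg (s n), (hef n).2]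
  · obtain ⟨j, rfl⟩ := hk g
    constructor
    · exact tendsto_of_dense ha (F := fun n c => (α (k j) (s n) - s n) * c)
        (fun n => norm_mul_sub_mul_right_le (hinv _ n))
        (fun i => lim (max i j) fun n m hi hg =>
          ((hg.2 i ((le_max_left i j).trans hi)).2 j ((le_max_right i j).trans hi)).1) hc
    · exact tendsto_of_dense ha (F := fun n c => c * (α (k j) (s n) - s n))
        (fun n => norm_mul_sub_mul_left_le (hinv _ n))
        (fun i => lim (max i j) fun n m hi hg =>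
          ((hg.2 i ((le_max_left i j).trans hi)).2 j ((le_max_right i j).trans hi)).2) hc

omit [Group G] in
/-- The tracial weight of a representative of a diagonal unit. -/
theorem small_weight (hJ : IsBase J) {u : M} (hu : IsBdd J u) (hu0 : u ≠ 0) {T₀ : ETr J}
    (hT₀ : T₀.t u = 1) {N : ℕ} [NeZero N] (E : Fin N → Fin N → CSeq J ω)
    (hstar : ∀ i j, star (E i j) = E j i)
    (hmulE : ∀ i j k l, E i j * E k l = if j = k then (∑ r, E r r) * E i l else 0)
    (f : Fin N → relSeq J ω hJs) (hf : ∀ i, toC hJs (f i) = E i i)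
    (hf1 : ∀ i n, ‖ent (f i) n‖ ≤ 1) (d : relSeq J ω hJs) (hd : toC hJs d = 1 - ∑ i, E i i)
    (hd1 : ∀ n, 0 ≤ ent d n ∧ ‖ent d n‖ ≤ 1) (hdn : UNull J u ω (ent d)) {v : M}
    (hv : IsTri J v) :
    Small J u v ω (fun n => (N : ℂ) • ent (f 0) n - 1) ∧
      Small J u v ω (fun n => ent (f 0) n - ent (f 0) n * ent (f 0) n) := by
  classical
  have hmul : ∀ i, Small J u v ω (ent (d * f i)) := fun i =>
    small_mul hJ hu hu0 hv hd1 hdn (hf1 i)
  have hzero : Small J u v ω (ent (0 : relSeq J ω hJs)) := small_zero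
  have hpair : ∀ i, Small J u v ω (ent (f 0 - f i)) := fun i => by
    obtain ⟨x, hx⟩ := toC_surjective (ω := ω) hJs (E i 0)
    refine small_congr hJ hu hu0 hv (b := (star x * x - x * star x) + (d * f 0 - d * f i)) ?_
      ((small_comm hJ hu hu0 hv hT₀ x).add ((hmul 0).sub (hmul i)))
    simp only [map_sub, map_add, map_mul, map_star, hx, hf, hd, hstar, hmulE, if_true,
      sub_mul, one_mul]
    abel
  refine ⟨?_, small_congr hJ hu hu0 hv (a := f 0 - f 0 * f 0) (b := d * f 0) ?_ (hmul 0)⟩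
  · have hsum : ∀ s : Finset (Fin N), Small J u v ω (ent (∑ i ∈ s, (f 0 - f i))) := fun s => by
      induction s using Finset.induction with
      | empty => simpa using hzero
      | insert i s hi ih =>
        rw [Finset.sum_insert hi]
        exact (hpair i).add ih
    refine small_congr hJ hu hu0 hv (a := (N : ℂ) • f 0 - 1) (b := (∑ i, (f 0 - f i)) - d) ?_
      ((hsum Finset.univ).sub (small_of_unull hv (fun n => (hd1 n).1) hdn))
    rw [map_sub, map_sub, map_smul, map_one, map_sum]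
    simp only [map_sub, hf, hd, Finset.sum_sub_distrib, Finset.sum_const, Finset.card_univ,
      Fintype.card_fin, Nat.cast_smul_eq_nsmul]
    abel
  · simp only [map_sub, map_mul, hf, hd, hmulE, if_true, sub_mul, one_mul]

omit [Group G] in
/-- The tracial conditions of property (SI). -/
theorem trace_conditions (hJ : IsBase J) {u : M} (hu : IsBdd J u) (hu0 : u ≠ 0) {N : ℕ}
    [NeZero N] {l : Filter ℕ} {e f : ℕ → M} (hf : ∀ n, 0 ≤ f n ∧ ‖f n‖ ≤ 1)
    (he : UNull J u l e) {v : M} (hv : IsTri J v)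
    (hw : Small J u v l fun n => (N : ℂ) • f n - 1)
    (hff : Small J u v l fun n => f n - f n * f n) {ε : ℝ} (hε : 0 < ε) :
    ∀ᶠ n in l, ∀ T : ETr J, T.t u = 1 →
      T.val v (e n) ≤ ε ∧ T.val v (f n - f n * f n) ≤ ε ∧
        |T.val v (f n) - 1 / (N : ℝ) * T.val v 1| ≤ ε := by
  have hN : 0 < (N : ℝ) := Nat.cast_pos.2 (NeZero.pos N)
  filter_upwards [he v hv ε hε, hff ε hε, hw (N * ε) (by positivity)] with n h1 h2 h3
  intro T hT'
  have hvb := hv.isBdd hJ
  set L := T.loc hJ v hvb.mem (T.star_mul_self_ne_top hJ hu hu0 hT' hvb)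
  have hL : IsFun J u v L :=
    ⟨ETr.loc_nonneg hJ _ _, T, hT', fun x hx => ETr.loc_apply hJ _ _ hx⟩
  refine ⟨h1 T hT', ?_, ?_⟩
  · have h0 : 0 ≤ f n - f n * f n := by
      obtain ⟨ha, ha1⟩ := hf n
      set a := f n
      set q := CFC.sqrt a
      have hqs : IsSelfAdjoint q := .of_nonneg (CFC.sqrt_nonneg a)
      have hqq : q * q = a := CFC.sqrt_mul_sqrt_self a ha
      have h := hqs.conjugate_le_conjugate
        ((CStarAlgebra.norm_le_one_iff_of_nonneg a ha).1 ha1)
      rw [mul_one, hqq] at h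
      refine sub_nonneg.2 (le_trans (le_of_eq ?_) h)
      generalize q = r at hqq
      rw [← hqq]
      simp only [mul_assoc]
    have h := h2 L hL
    rwa [hL.norm_apply_pos h0, ETr.loc_apply hJ _ _ h0, Complex.ofReal_re] at h
  · have h := h3 L hL
    rw [map_sub, map_smul, ETr.loc_apply hJ _ _ (hf n).1,
      ETr.loc_apply hJ _ _ zero_le_one, smul_eq_mul, ← Complex.ofReal_natCast,
      ← Complex.ofReal_mul, ← Complex.ofReal_sub, Complex.norm_real, Real.norm_eq_abs] at h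
    rw [show T.val v (f n) - 1 / (N : ℝ) * T.val v 1 =
      ((N : ℝ) * T.val v (f n) - T.val v 1) / N by field_simp, abs_div,
      abs_of_pos hN, div_le_iff₀ hN]
    linarith

omit [StarOrderedRing M] [Group G] [PartialOrder M] in
/-- The classes of a selected sequence. -/
theorem generator_classes (hJm : ∀ a ∈ J, ∀ b ∈ J, a * b ∈ J)
    (hαJ : ∀ g a, α g a ∈ J ↔ a ∈ J) (s d f : relSeq J ω hJs)
    (hse : ∀ c ∈ J, Tendsto (fun n => (star (ent s n) * ent s n - ent d n) * c) ω (𝓝 0))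
    (hsf : ∀ c ∈ J, Tendsto (fun n => (ent f n * ent s n - ent s n) * c) ω (𝓝 0))
    (hsi : ∀ g, NullOn J ω fun n => α g (ent s n) - ent s n) :
    (∀ g, mapC hJs hJm (hαJ g) (toC hJs s) = toC hJs s) ∧
      star (toC hJs s) * toC hJs s = toC hJs d ∧ toC hJs f * toC hJs s = toC hJs s := by
  refine ⟨fun g => ?_, ?_, ?_⟩
  · rw [mapC_toC, toC_eq_iff hJs hJm]
    exact hsi g
  · rw [← map_star, ← map_mul, toC_eq_iff hJs hJm]
    exact nullOn_of_mul_right (star s * s - d) hse
  · rw [← map_mul, toC_eq_iff hJs hJm]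
    exact nullOn_of_mul_right (f * s - s) hsf

/-- Exact units and property (SI) give the missing invariant generator. -/
theorem exists_generator [Countable G] {N : ℕ} [NeZero N] (hJ : IsBase J)
    (hfree : (ω : Filter ℕ) ≤ cofinite) {u : M} (hu : IsBdd J u) (hu0 : u ≠ 0)
    (hT : ∃ T : ETr J, T.t u = 1) (U : ExactUnits (ω := ω) hJs hJm hα hαJ u N)
    (hsi : SIGoal J α) :
    ∃ w : CSeq J ω, (∀ g, mapC hJs hJm (hαJ g) w = w) ∧ star w * w = 1 - ∑ i, U.E i i ∧
      U.E 0 0 * w = w := by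
  have hrep : ∀ i, ∃ x : relSeq J ω hJs, toC hJs x = U.E i i ∧
      ∀ n, 0 ≤ ent x n ∧ ‖ent x n‖ ≤ 1 := fun i => by
    obtain ⟨y, hy⟩ := U.diag i
    exact exists_posContraction_seq hy (U.norm_E i i)
  choose f hf hfb using hrep
  obtain ⟨T₀, hT₀⟩ := hT
  have hEinv : ∀ g i j, mapC hJs hJm (hαJ g) (U.E i j) = U.E i j := U.inv
  have hpinv : ∀ g, mapC hJs hJm (hαJ g) (1 - ∑ i, U.E i i) = 1 - ∑ i, U.E i i := fun g => by
    rw [map_sub, map_one, map_sum, Finset.sum_congr rfl fun i _ => hEinv g i i]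
  obtain ⟨s, hse, hsf, hsi'⟩ := exists_si_seq (hJs := hJs) hJ hfree (ent U.defect) (ent (f 0))
    (fun n => ⟨(U.defect_nonneg n).2, (hfb 0 n).2⟩)
    (hsi u hu hu0 ⟨T₀, hT₀⟩ ω (ent U.defect) (ent (f 0)) (1 / (N : ℝ))
      (by have := NeZero.pos N; positivity)
      (fun n => ⟨(U.defect_nonneg n).1, (U.defect_nonneg n).2, hfb 0 n⟩)
      (isCentralInv_ent U.toC_defect hpinv) (isCentralInv_ent (hf 0) fun g => hEinv g 0 0)
      fun v hv ε hε => by
        obtain ⟨h1, h2⟩ := small_weight hJ hu hu0 hT₀ U.E U.star_E U.mul_E f hf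
          (fun i n => (hfb i n).2) U.defect U.toC_defect U.defect_nonneg U.null hv
        exact trace_conditions hJ hu hu0 (hfb 0) U.null hv h1 h2 hε)
  obtain ⟨h1, h2, h3⟩ := generator_classes hJm hαJ s U.defect (f 0) hse hsf hsi'
  exact ⟨toC hJs s, h1, h2.trans U.toC_defect, by rw [← hf 0]; exact h3⟩

/-- **The traced case.** -/
theorem dropGoal_of_si [Countable G] (hJ : IsBase J) (hfree : (ω : Filter ℕ) ≤ cofinite) {u : M}
    (hu : IsBdd J u) (hu0 : u ≠ 0) (hT : ∃ T : ETr J, T.t u = 1)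
    (hE : ∀ m : ℕ, Nonempty (ExactUnits (ω := ω) hJs hJm hα hαJ u (2 ^ m)))
    (hsi : SIGoal J α) : DropGoal J ω hJs α := by
  intro m _
  obtain ⟨U⟩ := hE m
  obtain ⟨w, hw, hww, hew⟩ := exists_generator hJ hfree hu hu0 hT U hsi
  obtain ⟨φ, hφ⟩ := exists_fixed_hom (fun g => mapC hJs hJm (hαJ g)) U.E U.inv U.star_E U.mul_E
    U.norm_E U.diag w hw hww hew
  refine ⟨φ, fun g z x hx => ?_⟩
  have h := hφ g z
  rw [← hx, mapC_toC, toC_eq_iff hJs hJm] at h
  exact h

omit [StarOrderedRing M] [Group G] in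
/-- Almost invariant almost central isometries with orthogonal ranges, as sequences. -/
theorem exists_isometry_seqs [Countable G] [Nonempty G] (hJ : IsBase J)
    (hfree : (ω : Filter ℕ) ≤ cofinite) {u : M} (hu : IsBdd J u) (hu0 : u ≠ 0)
    (hT : ∀ T : ETr J, T.t u ≠ 1) (hinf : InfGoal J α) (N : ℕ) :
    ∃ S : Fin N → relSeq J ω hJs,
      (∀ g b, NullOn J ω fun n => α g (ent (S b) n) - ent (S b) n) ∧
      ∀ b c, ∀ y ∈ J, Tendsto (fun n =>
        (star (ent (S b) n) * ent (S c) n - if b = c then 1 else 0) * y) ω (𝓝 0) := by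
  classical
  have hω : (ω : Filter ℕ) ≤ atTop := hfree.trans Nat.cofinite_eq_atTop.le
  obtain ⟨a, haJ, ha⟩ := exists_dense_seq hJ
  obtain ⟨k, hk⟩ := exists_surjective_nat G
  choose S hS using fun n : ℕ => hinf u hu hu0 hT N ((Finset.range (n + 1)).image a)
    (by simpa [Set.subset_def] using fun i _ => haJ i) ((Finset.range (n + 1)).image k)
    (1 / ((n : ℝ) + 1)) (by positivity)
  have hmem : ∀ {i n : ℕ}, i ≤ n → i ∈ Finset.range (n + 1) := fun hi =>
    Finset.mem_range.2 (Nat.lt_succ_of_le hi)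
  have lim : ∀ {F : ℕ → M} (i : ℕ), (∀ n, i ≤ n → ‖F n‖ ≤ 1 / ((n : ℝ) + 1)) →
      Tendsto F (ω : Filter ℕ) (𝓝 0) := fun {F} i hF =>
    Tendsto.mono_left (squeeze_zero_norm' ((eventually_ge_atTop i).mono hF)
      tendsto_one_div_add_atTop_nhds_zero_nat) hω
  have hS2 : ∀ n b, ‖S n b‖ ≤ 2 := fun n b => (hS n b).1
  refine ⟨fun b => ⟨⟨fun n => S n b, 2, fun n => hS2 n b⟩,
    fun c hc => tendsto_of_dense ha (F := fun n c => c * S n b - S n b * c)
      (fun n => norm_comm_sub_le (hS2 n b))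
      (fun i => lim i fun n hn => ((hS n b).2 _ (Finset.mem_image_of_mem a (hmem hn))).2.1) hc⟩,
    fun g b c hc => ?_, fun b c y hy => ?_⟩
  · obtain ⟨j, rfl⟩ := hk g
    have hb : ∀ n, ‖α (k j) (S n b) - S n b‖ ≤ 4 := fun n => by
      have h1 := norm_sub_le (α (k j) (S n b)) (S n b)
      rw [StarAlgEquiv.norm_map] at h1
      linarith [hS2 n b]
    have hSi := fun i n (hn : max i j ≤ n) =>
      ((hS n b).2 _ (Finset.mem_image_of_mem a (hmem ((le_max_left i j).trans hn)))).2.2 _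
        (Finset.mem_image_of_mem k (hmem ((le_max_right i j).trans hn)))
    exact ⟨tendsto_of_dense ha (F := fun n c => (α (k j) (S n b) - S n b) * c)
        (fun n => norm_mul_sub_mul_right_le (hb n))
        (fun i => lim (max i j) fun n hn => (hSi i n hn).1) hc,
      tendsto_of_dense ha (F := fun n c => c * (α (k j) (S n b) - S n b))
        (fun n => norm_mul_sub_mul_left_le (hb n))
        (fun i => lim (max i j) fun n hn => (hSi i n hn).2) hc⟩
  · have hb : ∀ n, ‖star (S n b) * S n c - (if b = c then 1 else 0)‖ ≤ 5 := fun n => by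
      have h1 : ‖star (S n b) * S n c‖ ≤ 2 * 2 :=
        (norm_mul_le _ _).trans (mul_le_mul ((norm_star _).trans_le (hS2 n b)) (hS2 n c)
          (norm_nonneg _) zero_le_two)
      split_ifs
      · rcases subsingleton_or_nontrivial M with hM | hM
        · simp [Subsingleton.elim (star (S n b) * S n c - 1) 0]
        · linarith [norm_sub_le (star (S n b) * S n c) 1, CStarRing.norm_one (E := M)]
      · simp only [sub_zero]; linarith
    exact tendsto_of_dense ha
      (F := fun n y => (star (S n b) * S n c - (if b = c then 1 else 0)) * y)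
      (fun n => norm_mul_sub_mul_right_le (hb n))
      (fun i => lim i fun n hn => ((hS n b).2 _ (Finset.mem_image_of_mem a (hmem hn))).1 c) hy

omit [Group G] [PartialOrder M] [StarOrderedRing M] in
/-- The classes of such sequences are fixed isometries with orthogonal ranges. -/
theorem classes_of_isometry_seqs (hJm : ∀ a ∈ J, ∀ b ∈ J, a * b ∈ J)
    (hαJ : ∀ g a, α g a ∈ J ↔ a ∈ J) {N : ℕ} (S : Fin N → relSeq J ω hJs)
    (hi : ∀ g b, NullOn J ω fun n => α g (ent (S b) n) - ent (S b) n)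
    (ho : ∀ b c, ∀ y ∈ J, Tendsto (fun n =>
      (star (ent (S b) n) * ent (S c) n - if b = c then 1 else 0) * y) ω (𝓝 0)) :
    (∀ g b, mapC hJs hJm (hαJ g) (toC hJs (S b)) = toC hJs (S b)) ∧
      ∀ b c, star (toC hJs (S b)) * toC hJs (S c) = if b = c then 1 else 0 := by
  refine ⟨fun g b => ?_, fun b c => ?_⟩
  · rw [mapC_toC, toC_eq_iff hJs hJm]
    exact hi g b
  · rw [← map_star, ← map_mul]
    rcases eq_or_ne b c with h | h
    · rw [if_pos h, ← map_one (toC (ω := ω) hJs), toC_eq_iff hJs hJm]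
      exact nullOn_of_mul_right (star (S b) * S c - 1) fun y hy =>
        (ho b c y hy).congr fun n => by rw [if_pos h]; rfl
    · rw [if_neg h, toC_eq_zero_iff hJm]
      exact nullOn_of_mul_right _ fun y hy =>
        (ho b c y hy).congr fun n => by rw [if_neg h, sub_zero]; rfl

omit [StarOrderedRing M] in
/-- **The traceless case.** -/
theorem dropGoal_of_inf [Countable G] (hJ : IsBase J) (hαJ : ∀ g a, α g a ∈ J ↔ a ∈ J)
    (hfree : (ω : Filter ℕ) ≤ cofinite) {u : M} (hu : IsBdd J u) (hu0 : u ≠ 0)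
    (hT : ∀ T : ETr J, T.t u ≠ 1) (hinf : InfGoal J α) : DropGoal J ω hJs α := by
  intro m _
  have hJm : ∀ a ∈ J, ∀ b ∈ J, a * b ∈ J := fun x _ y hy => hJ.mul_left x hy
  obtain ⟨S, hi, ho⟩ := exists_isometry_seqs (hJs := hJs) hJ hfree hu hu0 hT hinf (2 ^ m)
  obtain ⟨hinv, hv⟩ := classes_of_isometry_seqs hJm hαJ S hi ho
  obtain ⟨φ, hφ⟩ := exists_fixed_hom_of_isometries (fun g => mapC hJs hJm (hαJ g))
    (fun b => toC hJs (S b)) hinv hv
  refine ⟨φ, fun g z x hx => ?_⟩
  have h := hφ g z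
  rw [← hx, mapC_toC, toC_eq_iff hJs hJm] at h
  exact h

end Main

end Vale.Agent.P095.NU
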