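import Vale.Agent.P095.Uni.FromZ.Step

/-!
# P095: maps between dimension drop algebras

For `p` and `q` large enough there is a unital map of `I(P,P+1)` into `I(p,q)`: the two endpoint
representations are joined through blocks evaluated at interior points.
-/

open scoped ComplexOrder Matrix Kronecker
open unitInterval
open Vale.Agent.P101
open Vale.Agent.P101.Drop (dropAlg IsLeft IsRight)
open Vale.Agent.P095.Uni.FromZ

set_option maxSynthPendingDepth 3

noncomputable section

namespace Vale.Agent.P095.NU.DropEmb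

variable {P Q : ℕ} [NeZero P] [NeZero Q]

set_option linter.unusedSectionVars false

/-- The representation at the left endpoint. -/
def atZero (f : dropAlg P Q ℂ) : Matrix (Fin P) (Fin P) ℂ := f.2.1.choose

/-- The representation at the right endpoint. -/
def atOne (f : dropAlg P Q ℂ) : Matrix (Fin Q) (Fin Q) ℂ := f.2.2.choose

/-- The value at a point. -/
def atPt (t : I) (f : dropAlg P Q ℂ) : Matrix (Fin P × Fin Q) (Fin P × Fin Q) ℂ :=
  CStarMatrix.ofMatrix.symm ((f : C(I, CStarMatrix (Fin P × Fin Q) (Fin P × Fin Q) ℂ)) t)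

theorem atPt_zero (f : dropAlg P Q ℂ) : atPt 0 f = rep (Equiv.refl _) (atZero f) := by
  ext a b
  exact f.2.1.choose_spec a b

theorem atPt_one (f : dropAlg P Q ℂ) : atPt 1 f = rep (Equiv.prodComm _ _) (atOne f) := by
  ext a b
  exact f.2.2.choose_spec a b

variable {J : Type*} [Fintype J] [DecidableEq J]
variable {S S' R R' : Type*} [Fintype S] [DecidableEq S] [Fintype S'] [DecidableEq S'] [Fintype R]
  [DecidableEq R] [Fintype R'] [DecidableEq R']

/-- Copies of the two endpoint representations. -/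
def std (e : J ≃ (Fin P × S) ⊕ (Fin Q × R)) (f : dropAlg P Q ℂ) : Matrix J J ℂ :=
  (Matrix.fromBlocks (atZero f ⊗ₖ (1 : Matrix S S ℂ)) 0 0
    (atOne f ⊗ₖ (1 : Matrix R R ℂ))).submatrix e e

theorem std_relabel (e : J ≃ (Fin P × S) ⊕ (Fin Q × R)) (e' : J ≃ (Fin P × S') ⊕ (Fin Q × R'))
    (gS : S' ≃ S) (gR : R' ≃ R) (f : dropAlg P Q ℂ) :
    std e' f = (std e f).submatrix
      ((e'.trans (((Equiv.refl (Fin P)).prodCongr gS).sumCongr
        ((Equiv.refl (Fin Q)).prodCongr gR))).trans e.symm)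
      ((e'.trans (((Equiv.refl (Fin P)).prodCongr gS).sumCongr
        ((Equiv.refl (Fin Q)).prodCongr gR))).trans e.symm) := by
  ext a b
  simp only [std, Matrix.submatrix_apply, Equiv.trans_apply, Equiv.apply_symm_apply]
  rcases e' a with ⟨i, s⟩ | ⟨k, r⟩ <;> rcases e' b with ⟨i', s'⟩ | ⟨k', r'⟩ <;>
    simp [Matrix.one_apply]

/-- The index of the interpolating blocks. -/
abbrev Blk (P Q A B L : ℕ) : Type :=
  ((Fin P × Fin A) ⊕ (Fin Q × Fin B)) ⊕ ((Fin P × Fin Q) × Fin L)

variable {A B L : ℕ}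

/-- The interpolating blocks at a point. -/
def blocks (t : I) (f : dropAlg P Q ℂ) : Matrix (Blk P Q A B L) (Blk P Q A B L) ℂ :=
  Matrix.fromBlocks (Matrix.fromBlocks (atZero f ⊗ₖ 1) 0 0 (atOne f ⊗ₖ 1)) 0 0 (atPt t f ⊗ₖ 1)

theorem atZero_add (f g : dropAlg P Q ℂ) : atZero (f + g) = atZero f + atZero g :=
  rep_injective (Equiv.refl (Fin P × Fin Q)) (by
    rw [rep_add, ← atPt_zero, ← atPt_zero, ← atPt_zero]; rfl)

theorem atZero_mul (f g : dropAlg P Q ℂ) : atZero (f * g) = atZero f * atZero g :=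
  rep_injective (Equiv.refl (Fin P × Fin Q)) (by
    rw [rep_mul, ← atPt_zero, ← atPt_zero, ← atPt_zero]; rfl)

theorem atZero_star (f : dropAlg P Q ℂ) : atZero (star f) = (atZero f)ᴴ :=
  rep_injective (Equiv.refl (Fin P × Fin Q)) (by
    rw [rep_star, ← atPt_zero, ← atPt_zero]; rfl)

theorem atZero_smul (c : ℂ) (f : dropAlg P Q ℂ) : atZero (c • f) = c • atZero f :=
  rep_injective (Equiv.refl (Fin P × Fin Q)) (by
    rw [rep_smul, ← atPt_zero, ← atPt_zero]; rfl)

theorem atZero_one : atZero (1 : dropAlg P Q ℂ) = 1 :=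
  rep_injective (Equiv.refl (Fin P × Fin Q)) (by rw [rep_one, ← atPt_zero]; rfl)

theorem atOne_add (f g : dropAlg P Q ℂ) : atOne (f + g) = atOne f + atOne g :=
  rep_injective (Equiv.prodComm (Fin P) (Fin Q)) (by
    rw [rep_add, ← atPt_one, ← atPt_one, ← atPt_one]; rfl)

theorem atOne_mul (f g : dropAlg P Q ℂ) : atOne (f * g) = atOne f * atOne g :=
  rep_injective (Equiv.prodComm (Fin P) (Fin Q)) (by
    rw [rep_mul, ← atPt_one, ← atPt_one, ← atPt_one]; rfl)

theorem atOne_star (f : dropAlg P Q ℂ) : atOne (star f) = (atOne f)ᴴ :=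
  rep_injective (Equiv.prodComm (Fin P) (Fin Q)) (by
    rw [rep_star, ← atPt_one, ← atPt_one]; rfl)

theorem atOne_smul (c : ℂ) (f : dropAlg P Q ℂ) : atOne (c • f) = c • atOne f :=
  rep_injective (Equiv.prodComm (Fin P) (Fin Q)) (by
    rw [rep_smul, ← atPt_one, ← atPt_one]; rfl)

theorem atOne_one : atOne (1 : dropAlg P Q ℂ) = 1 :=
  rep_injective (Equiv.prodComm (Fin P) (Fin Q)) (by rw [rep_one, ← atPt_one]; rfl)

theorem continuous_blocks (f : dropAlg P Q ℂ) :
    Continuous fun t => (blocks (A := A) (B := B) (L := L) t f) := by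
  refine Continuous.matrix_fromBlocks continuous_const continuous_const continuous_const ?_
  refine continuous_pi fun a => continuous_pi fun b => ?_
  exact ((continuous_apply b.1).comp ((continuous_apply a.1).comp
    (f : C(I, CStarMatrix (Fin P × Fin Q) (Fin P × Fin Q) ℂ)).continuous)).mul continuous_const

/-- The path of representations. -/
def pathHom (e : J ≃ Blk P Q A B L) (ξ : C(I, I)) (W : C(I, CStarMatrix J J ℂ))
    (hW : ∀ t, W t ∈ unitary (CStarMatrix J J ℂ)) :
    dropAlg P Q ℂ →⋆ₐ[ℂ] C(I, CStarMatrix J J ℂ) where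
  toFun f := ⟨fun t => W t * CStarMatrix.ofMatrix ((blocks (ξ t) f).submatrix e e) * star (W t),
    (W.continuous.mul (continuous_pi fun a => continuous_pi fun b =>
      ((continuous_blocks f).comp ξ.continuous).matrix_elem (e a) (e b))).mul W.continuous.star⟩
  map_one' := ContinuousMap.ext fun t => by
    show W t * _ * star (W t) = 1
    rw [show blocks (ξ t) (1 : dropAlg P Q ℂ) = 1 by
      simp [blocks, atZero_one, atOne_one, show atPt (ξ t) (1 : dropAlg P Q ℂ) = 1 from rfl],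
      Matrix.submatrix_one_equiv]
    exact (congrArg (· * star (W t)) (mul_one (W t))).trans (Unitary.mul_star_self_of_mem (hW t))
  map_zero' := ContinuousMap.ext fun t => by
    show W t * _ * star (W t) = 0
    have h0 : atZero (0 : dropAlg P Q ℂ) = 0 := by simpa using atZero_smul 0 (1 : dropAlg P Q ℂ)
    have h1 : atOne (0 : dropAlg P Q ℂ) = 0 := by simpa using atOne_smul 0 (1 : dropAlg P Q ℂ)
    rw [show blocks (ξ t) (0 : dropAlg P Q ℂ) = 0 by
      simp [blocks, h0, h1, show atPt (ξ t) (0 : dropAlg P Q ℂ) = 0 from rfl]]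
    exact (congrArg (· * star (W t)) (mul_zero (W t))).trans (zero_mul _)
  map_add' f g := ContinuousMap.ext fun t => by
    show W t * _ * star (W t) = W t * _ * star (W t) + W t * _ * star (W t)
    rw [show blocks (ξ t) (f + g) = blocks (A := A) (B := B) (L := L) (ξ t) f + blocks (ξ t) g by
      simp [blocks, atZero_add, atOne_add, Matrix.add_kronecker, Matrix.fromBlocks_add,
        show atPt (ξ t) (f + g) = atPt (ξ t) f + atPt (ξ t) g from rfl],
      ← add_mul, ← mul_add]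
    rfl
  map_mul' f g := ContinuousMap.ext fun t => by
    show W t * _ * star (W t) = W t * _ * star (W t) * (W t * _ * star (W t))
    rw [show blocks (ξ t) (f * g) = blocks (A := A) (B := B) (L := L) (ξ t) f * blocks (ξ t) g by
      simp [blocks, atZero_mul, atOne_mul, Matrix.fromBlocks_multiply, ← Matrix.mul_kronecker_mul,
        show atPt (ξ t) (f * g) = atPt (ξ t) f * atPt (ξ t) g from rfl],
      ← Matrix.submatrix_mul_equiv (e₂ := e)]
    simp only [mul_assoc]
    rw [← mul_assoc (star (W t)) (W t), Unitary.star_mul_self_of_mem (hW t), one_mul,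
      ← mul_assoc (CStarMatrix.ofMatrix ((blocks (ξ t) f).submatrix e e))]
    rfl
  commutes' c := ContinuousMap.ext fun t => by
    show W t * _ * star (W t) = algebraMap ℂ (CStarMatrix J J ℂ) c
    rw [show blocks (ξ t) (algebraMap ℂ (dropAlg P Q ℂ) c) = c • 1 by
      rw [Algebra.algebraMap_eq_smul_one]
      simp [blocks, atZero_smul, atOne_smul, atZero_one, atOne_one, Matrix.smul_kronecker,
        show atPt (ξ t) (c • 1 : dropAlg P Q ℂ) = c • 1 from rfl]
      rw [← Matrix.fromBlocks_one, ← Matrix.fromBlocks_one, Matrix.fromBlocks_smul,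
        Matrix.fromBlocks_smul]
      simp]
    rw [Algebra.algebraMap_eq_smul_one, show (c • (1 : Matrix (Blk P Q A B L) (Blk P Q A B L) ℂ)).submatrix e e =
      c • 1 by ext; simp [Matrix.one_apply]]
    exact ((congrArg (· * star (W t)) (mul_smul_comm c (W t) (1 : CStarMatrix J J ℂ))).trans
      (smul_mul_assoc _ _ _)).trans (by rw [mul_one, Unitary.mul_star_self_of_mem (hW t)])
  map_star' f := ContinuousMap.ext fun t => by
    show W t * _ * star (W t) = star (W t * _ * star (W t))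
    rw [show blocks (ξ t) (star f) = (blocks (A := A) (B := B) (L := L) (ξ t) f)ᴴ by
      simp [blocks, atZero_star, atOne_star, Matrix.fromBlocks_conjTranspose,
        Matrix.conjTranspose_kronecker, show atPt (ξ t) (star f) = (atPt (ξ t) f)ᴴ from rfl],
      ← Matrix.conjTranspose_submatrix]
    simp only [star_mul, star_star, mul_assoc]
    rfl

theorem pathHom_apply (e : J ≃ Blk P Q A B L) (ξ : C(I, I)) (W : C(I, CStarMatrix J J ℂ))
    (hW : ∀ t, W t ∈ unitary (CStarMatrix J J ℂ)) (f : dropAlg P Q ℂ) (t : I) :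
    pathHom e ξ W hW f t =
      W t * CStarMatrix.ofMatrix ((blocks (ξ t) f).submatrix e e) * star (W t) := rfl

/-- The blocks at the left end. -/
def leftEnd (P Q A B L : ℕ) :
    Blk P Q A B L ≃ (Fin P × (Fin A ⊕ Fin Q × Fin L)) ⊕ (Fin Q × Fin B) where
  toFun := Sum.elim (Sum.elim (fun x => .inl (x.1, .inl x.2)) .inr)
    fun x => .inl (x.1.1, .inr (x.1.2, x.2))
  invFun := Sum.elim
    (fun x => Sum.elim (fun a => .inl (.inl (x.1, a))) (fun y => .inr ((x.1, y.1), y.2)) x.2)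
    fun y => .inl (.inr y)
  left_inv := by rintro ((_ | _) | _) <;> rfl
  right_inv := by rintro (⟨_, (_ | _)⟩ | _) <;> rfl

/-- The blocks at the right end. -/
def rightEnd (P Q A B L : ℕ) :
    Blk P Q A B L ≃ (Fin P × Fin A) ⊕ (Fin Q × (Fin B ⊕ Fin P × Fin L)) where
  toFun := Sum.elim (Sum.elim .inl fun x => .inr (x.1, .inl x.2))
    fun x => .inr (x.1.2, .inr (x.1.1, x.2))
  invFun := Sum.elim (fun x => .inl (.inl x))
    fun y => Sum.elim (fun b => .inl (.inr (y.1, b))) (fun z => .inr ((z.1, y.1), z.2)) y.2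
  left_inv := by rintro ((_ | _) | _) <;> rfl
  right_inv := by rintro (_ | ⟨_, (_ | _)⟩) <;> rfl

theorem blocks_zero (e : J ≃ Blk P Q A B L) (f : dropAlg P Q ℂ) :
    (blocks 0 f).submatrix e e = std (e.trans (leftEnd P Q A B L)) f := by
  ext a b
  simp only [std, blocks, Matrix.submatrix_apply, Equiv.trans_apply, atPt_zero]
  rcases e a with ((x | x) | x) <;> rcases e b with ((y | y) | y) <;>
    simp [leftEnd, rep, Matrix.one_apply, Prod.ext_iff, ite_and]
  all_goals (split_ifs <;> simp_all)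

theorem blocks_one (e : J ≃ Blk P Q A B L) (f : dropAlg P Q ℂ) :
    (blocks 1 f).submatrix e e = std (e.trans (rightEnd P Q A B L)) f := by
  ext a b
  simp only [std, blocks, Matrix.submatrix_apply, Equiv.trans_apply, atPt_one]
  rcases e a with ((x | x) | x) <;> rcases e b with ((y | y) | y) <;>
    simp [rightEnd, rep, Matrix.one_apply, Prod.ext_iff, ite_and]
  all_goals (split_ifs <;> simp_all)

/-- Two standard representations joined through `L` interior blocks, in the order given by `ξ`. -/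
theorem exists_path (ξ : C(I, I)) (a b : I) (ha : ξ a = 0) (hb : ξ b = 1) (hab : (a = 0 ∧ b = 1) ∨
    (a = 1 ∧ b = 0)) (e₀ : J ≃ (Fin P × S) ⊕ (Fin Q × R)) (e₁ : J ≃ (Fin P × S') ⊕ (Fin Q × R'))
    (hA : Fintype.card S = A + Q * L) (hB : Fintype.card R = B) (hA' : Fintype.card S' = A)
    (hB' : Fintype.card R' = B + P * L) :
    ∃ θ : dropAlg P Q ℂ →⋆ₐ[ℂ] C(I, CStarMatrix J J ℂ), ∀ f,
      θ f a = CStarMatrix.ofMatrix (std e₀ f) ∧ θ f b = CStarMatrix.ofMatrix (std e₁ f) := by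
  classical
  have hJ : Fintype.card (Blk P Q A B L) = Fintype.card J := by
    rw [Fintype.card_congr e₀]
    simp [hA, hB]
    ring
  obtain ⟨e⟩ : Nonempty (J ≃ Blk P Q A B L) := ⟨(Fintype.equivOfCardEq hJ).symm⟩
  obtain ⟨gS⟩ : Nonempty (S ≃ Fin A ⊕ Fin Q × Fin L) :=
    ⟨Fintype.equivOfCardEq (by simp [hA])⟩
  obtain ⟨gR⟩ : Nonempty (R ≃ Fin B) := ⟨Fintype.equivOfCardEq (by simp [hB])⟩
  obtain ⟨gS'⟩ : Nonempty (S' ≃ Fin A) := ⟨Fintype.equivOfCardEq (by simp [hA'])⟩
  obtain ⟨gR'⟩ : Nonempty (R' ≃ Fin B ⊕ Fin P × Fin L) :=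
    ⟨Fintype.equivOfCardEq (by simp [hB'])⟩
  set s₀ : Equiv.Perm J := (e₀.trans (((Equiv.refl (Fin P)).prodCongr gS).sumCongr
    ((Equiv.refl (Fin Q)).prodCongr gR))).trans (e.trans (leftEnd P Q A B L)).symm
  set s₁ : Equiv.Perm J := (e₁.trans (((Equiv.refl (Fin P)).prodCongr gS').sumCongr
    ((Equiv.refl (Fin Q)).prodCongr gR'))).trans (e.trans (rightEnd P Q A B L)).symm
  set Wa := permM s₀
  set Wb := permM s₁
  obtain ⟨γ, hγu, hγ0, hγ1, -⟩ := exists_path_commuting (star Wa * Wb)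
    (mul_mem (Unitary.star_mem (permM_mem s₀)) (permM_mem s₁))
  have hpar : ∃ r : C(I, ℝ), r a = 0 ∧ r b = 1 := by
    rcases hab with ⟨rfl, rfl⟩ | ⟨rfl, rfl⟩
    · exact ⟨⟨fun t => (t : ℝ), by fun_prop⟩, rfl, rfl⟩
    · exact ⟨⟨fun t => 1 - (t : ℝ), by fun_prop⟩, by simp, by simp⟩
  obtain ⟨r, hra, hrb⟩ := hpar
  set W : C(I, CStarMatrix J J ℂ) := ⟨fun t => Wa * γ (r t),
    continuous_const.mul (γ.continuous.comp r.continuous)⟩
  refine ⟨pathHom e ξ W fun t => mul_mem (permM_mem s₀) (hγu _), fun f => ⟨?_, ?_⟩⟩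
  · rw [pathHom_apply, ha, blocks_zero, show W a = Wa by simp [W, hra, hγ0]]
    refine CStarMatrix.ext fun x y => ?_
    rw [permM_conj, std_relabel (e.trans (leftEnd P Q A B L)) e₀ gS gR f]
    rfl
  · rw [pathHom_apply, hb, blocks_one, show W b = Wb by
      show Wa * γ (r b) = Wb
      rw [hrb, hγ1, ← mul_assoc, Unitary.mul_star_self_of_mem (permM_mem s₀), one_mul]]
    refine CStarMatrix.ext fun x y => ?_
    rw [permM_conj, std_relabel (e.trans (rightEnd P Q A B L)) e₁ gS' gR' f]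
    rfl

theorem card_split {P n : ℕ} [NeZero P] (h : P * P ≤ n) :
    ∃ a b : ℕ, a * P + b * (P + 1) = n := by
  have hs : P ≤ n / P := (Nat.le_div_iff_mul_le (NeZero.pos P)).2 h
  have hr : n % P < P := Nat.mod_lt _ (NeZero.pos P)
  refine ⟨n / P - n % P, n % P, ?_⟩
  obtain ⟨c, hc⟩ := Nat.exists_eq_add_of_le (show n % P ≤ n / P by omega)
  rw [hc, Nat.add_sub_cancel_left]
  conv_rhs => rw [← Nat.div_add_mod n P, hc]
  ring

/-- A unital map of `I(P,P+1)` into `I(p,q)` for all large `p` and `q`. -/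
theorem exists_emb {P p q : ℕ} [NeZero P] [NeZero p] [NeZero q] (hp : P * P ≤ p) (hq : P * P ≤ q) :
    Nonempty (dropAlg P (P + 1) ℂ →⋆ₐ[ℂ] dropAlg p q ℂ) := by
  classical
  obtain ⟨a, b, hab⟩ := card_split (P := P) hp
  obtain ⟨a', b', hab'⟩ := card_split (P := P) hq
  obtain ⟨e₀⟩ : Nonempty (Fin p ≃ (Fin P × Fin a) ⊕ (Fin (P + 1) × Fin b)) :=
    ⟨Fintype.equivOfCardEq (by simp [← hab, mul_comm])⟩
  obtain ⟨e₁⟩ : Nonempty (Fin q ≃ (Fin P × Fin a') ⊕ (Fin (P + 1) × Fin b')) :=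
    ⟨Fintype.equivOfCardEq (by simp [← hab', mul_comm])⟩
  set E₀ : Fin p × Fin q ≃ (Fin P × (Fin a × Fin q)) ⊕ (Fin (P + 1) × (Fin b × Fin q)) :=
    ((e₀.prodCongr (Equiv.refl _)).trans (Equiv.sumProdDistrib _ _ _)).trans
      ((Equiv.prodAssoc _ _ _).sumCongr (Equiv.prodAssoc _ _ _))
  set E₁ : Fin p × Fin q ≃ (Fin P × (Fin a' × Fin p)) ⊕ (Fin (P + 1) × (Fin b' × Fin p)) :=
    (((Equiv.prodComm _ _).trans (e₁.prodCongr (Equiv.refl _))).trans
      (Equiv.sumProdDistrib _ _ _)).trans ((Equiv.prodAssoc _ _ _).sumCongr (Equiv.prodAssoc _ _ _))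
  have h0 : ∀ f, IsLeft (CStarMatrix.ofMatrix (std E₀ f) : Drop.Mat p q ℂ) := fun f => by
    refine ⟨std e₀ f, fun x y => ?_⟩
    obtain ⟨i, l⟩ := x
    obtain ⟨i', l'⟩ := y
    show std E₀ f (i, l) (i', l') = _
    simp only [std, Matrix.submatrix_apply, E₀, Equiv.trans_apply, Equiv.prodCongr_apply, Prod.map,
      Equiv.refl_apply]
    rcases e₀ i with (x | x) <;> rcases e₀ i' with (y | y) <;>
      simp [Matrix.one_apply, Prod.ext_iff, ite_and]
    all_goals (split_ifs <;> simp_all)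
  have h1 : ∀ f, IsRight (CStarMatrix.ofMatrix (std E₁ f) : Drop.Mat p q ℂ) := fun f => by
    refine ⟨std e₁ f, fun x y => ?_⟩
    obtain ⟨i, l⟩ := x
    obtain ⟨i', l'⟩ := y
    show std E₁ f (i, l) (i', l') = _
    simp only [std, Matrix.submatrix_apply, E₁, Equiv.trans_apply, Equiv.prodCongr_apply, Prod.map,
      Equiv.refl_apply, Equiv.prodComm_apply, Prod.swap_prod_mk]
    rcases e₁ l with (x | x) <;> rcases e₁ l' with (y | y) <;>
      simp [Matrix.one_apply, Prod.ext_iff, ite_and]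
    all_goals (split_ifs <;> simp_all)
  have hdim : a * q * P + b * q * (P + 1) = a' * p * P + b' * p * (P + 1) := by
    calc a * q * P + b * q * (P + 1) = (a * P + b * (P + 1)) * q := by ring
      _ = (a' * P + b' * (P + 1)) * p := by rw [hab, hab', mul_comm]
      _ = _ := by ring
  rcases le_total (a' * p) (a * q) with h | h
  · obtain ⟨L, hL, hL'⟩ : ∃ L, a * q = a' * p + (P + 1) * L ∧ b' * p = b * q + P * L := by
      obtain ⟨d, hd⟩ := Nat.exists_eq_add_of_le h
      have hbb : b * q ≤ b' * p := by nlinarith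
      obtain ⟨d', hd'⟩ := Nat.exists_eq_add_of_le hbb
      rw [hd, hd'] at hdim
      have hdd : d * P = d' * (P + 1) := by nlinarith
      have hdvd : P + 1 ∣ d := (Nat.Coprime.dvd_of_dvd_mul_right
        (Nat.coprime_self_add_left.2 (Nat.coprime_one_left P)) ⟨d', hdd.trans (mul_comm _ _)⟩)
      obtain ⟨L, rfl⟩ := hdvd
      exact ⟨L, hd, by rw [hd']; nlinarith⟩
    obtain ⟨θ, hθ⟩ := exists_path (A := a' * p) (B := b * q) (L := L) (.id I) 0 1 rfl rfl
      (.inl ⟨rfl, rfl⟩) E₀ E₁ (by simpa using hL) (by simp) (by simp) (by simpa using hL')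
    exact ⟨StarAlgHom.codRestrict θ _ fun f =>
      ⟨(hθ f).1 ▸ h0 f, (hθ f).2 ▸ h1 f⟩⟩
  · obtain ⟨L, hL, hL'⟩ : ∃ L, a' * p = a * q + (P + 1) * L ∧ b * q = b' * p + P * L := by
      obtain ⟨d, hd⟩ := Nat.exists_eq_add_of_le h
      have hbb : b' * p ≤ b * q := by nlinarith
      obtain ⟨d', hd'⟩ := Nat.exists_eq_add_of_le hbb
      rw [hd, hd'] at hdim
      have hdd : d * P = d' * (P + 1) := by nlinarith
      have hdvd : P + 1 ∣ d := (Nat.Coprime.dvd_of_dvd_mul_right
        (Nat.coprime_self_add_left.2 (Nat.coprime_one_left P)) ⟨d', hdd.trans (mul_comm _ _)⟩)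
      obtain ⟨L, rfl⟩ := hdvd
      exact ⟨L, hd, by rw [hd']; nlinarith⟩
    obtain ⟨θ, hθ⟩ := exists_path (A := a * q) (B := b' * p) (L := L)
      ⟨fun t => unitInterval.symm t, unitInterval.continuous_symm⟩ 1 0 (by simp) (by simp)
      (.inr ⟨rfl, rfl⟩) E₁ E₀ (by simpa using hL) (by simp) (by simp) (by simpa using hL')
    exact ⟨StarAlgHom.codRestrict θ _ fun f =>
      ⟨(hθ f).2 ▸ h0 f, (hθ f).1 ▸ h1 f⟩⟩

end Vale.Agent.P095.NU.DropEmb
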