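import Vale.Agent.P095.NU.Setting
import Vale.Agent.P095.NU.Basics
import Vale.Agent.P095.Uni.Excise

/-!
# P095: nested excision inside a simple essential ideal

The levels and the limit state are those of the unital file, started at a bounded element of `J`.
A central sequence with `‖b * w n‖` bounded below for a bounded `b` is detected by a state: high
powers give `‖g w g‖` almost as large, and on a bump `d` at this point `s` of the spectrum
`s d w d` dominates `s² d²` up to small errors, as `g² w d` is close to `s d`.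
-/

open scoped ComplexOrder
open Filter Topology

noncomputable section

namespace Vale.Agent.P095.NU

namespace Exc

open Uni.Exc (St Lev)

variable {M : Type*} [CStarAlgebra M] [PartialOrder M] [StarOrderedRing M] {J : Set M}

/-- A bounded sequence central on `J`. -/
def CenOn (J : Set M) (u : ℕ → M) : Prop :=
  (∃ C, ∀ n, ‖u n‖ ≤ C) ∧ ∀ c ∈ J, Tendsto (fun n => c * u n - u n * c) atTop (𝓝 0)

omit [PartialOrder M] [StarOrderedRing M] in
theorem CenOn.mul {u v : ℕ → M} (hu : CenOn J u) (hv : CenOn J v) :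
    CenOn J fun n => u n * v n := by
  obtain ⟨C, hC⟩ := hu.1
  obtain ⟨C', hC'⟩ := hv.1
  refine ⟨⟨C * C', fun n => (norm_mul_le _ _).trans
    (mul_le_mul (hC n) (hC' n) (norm_nonneg _) ((norm_nonneg _).trans (hC n)))⟩, fun c hc => ?_⟩
  have h1 := Uni.Exc.tendsto_mul_bdd hC' (hu.2 c hc)
  have h2 := Uni.Exc.tendsto_bdd_mul hC (hv.2 c hc)
  have h := h1.add h2
  rw [add_zero] at h
  exact h.congr fun n => by noncomm_ring

omit [PartialOrder M] [StarOrderedRing M] in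
theorem CenOn.pow {u : ℕ → M} (hu : CenOn J u) : ∀ j : ℕ, CenOn J fun n => u n ^ j
  | 0 => ⟨⟨‖(1 : M)‖, fun n => by simp⟩, fun c _ => by simp⟩
  | j + 1 => by simpa [pow_succ] using (CenOn.pow hu j).mul hu

omit [StarOrderedRing M] in
theorem mem_of_below [StarOrderedRing M] (hJ : IsBase J) {D L : Lev M} (h : D.Below L)
    (hL : L.top ∈ J) : D.top ∈ J := by
  have h' : L.top * D.top = D.top := h
  rw [← h']
  exact hJ.mul_right _ hL

/-- A bounded element sees the norm of central sequences through any nonzero element of `J`. -/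
theorem exists_full (hJ : IsBase J) {b : M} (hb : IsBdd J b) (hb1 : ‖b‖ ≤ 1) {e : M}
    (he : e ∈ J) (hp : e * e * e ≠ 0) :
    ∃ K : ℝ, 0 ≤ K ∧ ∀ u : ℕ → M, CenOn J u → ∀ ε : ℝ, 0 < ε →
      ∀ᶠ n in atTop, ‖b * u n‖ ≤ K * ‖e * u n * e‖ + ε := by
  set p := e * e * e with hpdef
  obtain ⟨L, s, hs⟩ := hb.2.2 (star p * p) (hJ.mul_left _ (hJ.mul_left _ he))
    (star_mul_self_nonneg p) fun h => hp (CStarRing.star_mul_self_eq_zero_iff p |>.1 h)
  refine ⟨∑ i, ‖e * s i‖, Finset.sum_nonneg fun i _ => norm_nonneg _, fun u hu ε hε => ?_⟩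
  have h1 : ∀ x : M, ‖b * x‖ ≤ ∑ i, ‖p * s i * x‖ := by
    intro x
    have hbb : b * b ≤ b := by
      have h := CStarAlgebra.pow_antitone hb.2.1
        ((CStarAlgebra.norm_le_one_iff_of_nonneg b hb.2.1).1 hb1) (show 1 ≤ 2 by norm_num)
      simpa [sq] using h
    refine (sq_le_sq₀ (norm_nonneg _) (Finset.sum_nonneg fun i _ => norm_nonneg _)).1 ?_
    refine le_trans ?_ (Finset.sum_sq_le_sq_sum_of_nonneg fun i _ => norm_nonneg _)
    have h2 : star (b * x) * (b * x) ≤ ∑ i, star (p * s i * x) * (p * s i * x) := by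
      have e1 : star (b * x) * (b * x) = star x * (b * b) * x := by
        rw [star_mul, (IsSelfAdjoint.of_nonneg hb.2.1).star_eq]; simp only [mul_assoc]
      rw [e1]
      refine (star_left_conjugate_le_conjugate (hbb.trans hs) x).trans (le_of_eq ?_)
      rw [Finset.mul_sum, Finset.sum_mul]
      exact Finset.sum_congr rfl fun i _ => by simp only [star_mul, mul_assoc]
    rw [sq, ← CStarRing.norm_star_mul_self]
    refine ((CStarAlgebra.norm_le_norm_of_nonneg_of_le (star_mul_self_nonneg _) h2).trans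
      (norm_sum_le _ _)).trans (le_of_eq ?_)
    exact Finset.sum_congr rfl fun i _ => by rw [CStarRing.norm_star_mul_self, sq]
  have hT : Tendsto (fun n => ∑ i, ‖p * s i * u n - e * u n * e * (e * s i)‖) atTop (𝓝 0) := by
    rw [← Finset.sum_const_zero (ι := Fin L)]
    refine tendsto_finsetSum _ fun i _ => ?_
    have h2 := ((hu.2 _ (hJ.mul_right (s i) he)).const_mul (e * e)).add
      (((hu.2 e he).const_mul e).mul_const (e * s i))
    simp only [mul_zero, zero_mul, add_zero] at h2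
    simpa using (h2.congr fun n => show _ = p * s i * u n - e * u n * e * (e * s i) by
      rw [hpdef]; noncomm_ring).norm
  filter_upwards [hT.eventually (eventually_le_nhds hε)] with n hn
  refine (h1 (u n)).trans ?_
  calc ∑ i, ‖p * s i * u n‖
      ≤ ∑ i, (‖e * u n * e‖ * ‖e * s i‖ + ‖p * s i * u n - e * u n * e * (e * s i)‖) :=
        Finset.sum_le_sum fun i _ => (norm_le_norm_add_norm_sub' _ _).trans
          (add_le_add (norm_mul_le _ _) le_rfl)
    _ ≤ _ := by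
      rw [Finset.sum_add_distrib, ← Finset.mul_sum, mul_comm]
      exact add_le_add le_rfl hn

omit [PartialOrder M] [StarOrderedRing M] in
theorem norm_pow_le_mul_pow {b w : M} (hb : IsSelfAdjoint b) (hb1 : ‖b‖ ≤ 1)
    (hw : IsSelfAdjoint w) : ∀ r : ℕ, ‖b * w‖ ^ 2 ^ r ≤ ‖b * w ^ 2 ^ r‖
  | 0 => by simp
  | r + 1 => by
    rw [pow_succ, pow_mul, pow_mul]
    refine (pow_le_pow_left₀ (by positivity) (norm_pow_le_mul_pow hb hb1 hw r) 2).trans ?_
    rw [sq, ← CStarRing.norm_self_mul_star]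
    have e : b * w ^ 2 ^ r * star (b * w ^ 2 ^ r) = b * (w ^ 2 ^ r) ^ 2 * b := by
      rw [star_mul, hb.star_eq, (hw.pow _).star_eq, sq]; simp only [mul_assoc]
    rw [e]
    exact (norm_mul_le _ _).trans (mul_le_of_le_one_right (norm_nonneg _) hb1)

/-! ### One step against an automorphism -/

theorem exists_detect [Nontrivial M] (hJ : IsBase J) (L : Lev M) (hL : L.top ∈ J) {b : M}
    (hb : IsBdd J b) (hb1 : ‖b‖ ≤ 1) {w : ℕ → M} (hw : CenOn J w)
    (hws : ∀ n, IsSelfAdjoint (w n)) (hw2 : ∀ n, ‖w n‖ ≤ 2) {c₀ : ℝ} (hc₀ : 0 < c₀)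
    (hwc : ∀ n, c₀ ≤ ‖b * w n‖) (N : ℕ) :
    ∃ (D : Lev M) (n : ℕ), N ≤ n ∧ D.Below L ∧
      ∀ ω : St M, (∀ a, ω.f (D.top * a * D.top) = ω.f a) → c₀ / 2 ≤ ‖ω.f (w n)‖ := by
  obtain ⟨G, hG⟩ := Uni.Exc.exists_down L
  obtain ⟨E, hE⟩ := Uni.Exc.exists_down G
  have hgJ : G.top ∈ J := mem_of_below hJ hG hL
  have heJ : E.top ∈ J := mem_of_below hJ hE hgJ
  set g := G.top with hg
  set e := E.top with he
  have hp : e * e * e ≠ 0 := fun h => by
    have h1 : e * e * e * E.b = E.b := by simp only [mul_assoc, he, E.top_mul]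
    rw [h, zero_mul] at h1
    have h2 := E.norm_b
    rw [← h1, norm_zero] at h2
    exact zero_ne_one h2
  obtain ⟨K, hK0, hK⟩ := exists_full hJ hb hb1 heJ hp
  have hc2 : c₀ ≤ 2 :=
    (hwc 0).trans ((norm_mul_le _ _).trans
      ((mul_le_of_le_one_left (norm_nonneg _) hb1).trans (hw2 0)))
  -- the number of squarings
  obtain ⟨r, hr⟩ : ∃ r : ℕ, K * (99 / 100 : ℝ) ^ (2 ^ r) ≤ 1 / 2 := by
    obtain ⟨r, hr⟩ := exists_pow_lt_of_lt_one (show (0 : ℝ) < 1 / (2 * (K + 1)) by positivity)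
      (show (99 / 100 : ℝ) < 1 by norm_num)
    refine ⟨r, ?_⟩
    calc K * (99 / 100 : ℝ) ^ (2 ^ r) ≤ (K + 1) * (1 / (2 * (K + 1))) :=
          mul_le_mul (by linarith) ((pow_le_pow_of_le_one (by norm_num) (by norm_num)
            Nat.lt_two_pow_self.le).trans hr.le) (by positivity) (by linarith)
      _ = 1 / 2 := by field_simp
  -- `(g w g)ʲ e` is close to `wʲ e`
  have hgwg : ∀ n, ‖g * w n * g‖ ≤ 2 := fun n => (G.norm_conj_le _).trans (hw2 n)
  have hpow : ∀ j, Tendsto (fun n => (g * w n * g) ^ j * e - w n ^ j * e) atTop (𝓝 0) := by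
    intro j
    induction j with
    | zero => simp
    | succ j ih =>
      obtain ⟨C', hC'⟩ := (hw.pow j).1
      have t1 := Uni.Exc.tendsto_bdd_mul hgwg ih
      have t2 : Tendsto (fun n => (g * w n - w n * g) * g * (w n ^ j * e)) atTop (𝓝 0) :=
        Uni.Exc.tendsto_mul_bdd (C := C' * ‖e‖) (fun n => (norm_mul_le _ _).trans
            (mul_le_mul_of_nonneg_right (hC' n) (norm_nonneg _)))
          (by simpa using (hw.2 g hgJ).mul_const g)
      have t3 : Tendsto (fun n => w n * ((g * g * w n ^ j - w n ^ j * (g * g)) * e)) atTop (𝓝 0) :=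
        Uni.Exc.tendsto_bdd_mul hw2
          (by simpa using ((hw.pow j).2 (g * g) (hJ.mul_left g hgJ)).mul_const e)
      have h := (t1.add t2).add t3
      rw [add_zero, add_zero] at h
      refine h.congr fun n => ?_
      have e1 : g * g * e = e := by rw [mul_assoc, hE, hE]
      simp only [sub_mul, mul_sub, mul_assoc (w n ^ j) (g * g) e, e1, pow_succ' (g * w n * g),
        pow_succ' (w n)]
      noncomm_ring
  have hlim := (hpow (2 ^ r)).norm
  rw [norm_zero] at hlim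
  set δ := c₀ ^ 2 ^ r / (4 * (K + 1)) with hδ
  have hδ0 : 0 < δ := by positivity
  have hcom := (hw.2 g hgJ).norm
  rw [norm_zero] at hcom
  obtain ⟨n, ⟨⟨hn1, hn2⟩, hn3⟩, hnN⟩ :=
    (((hK _ (hw.pow (2 ^ r)) δ hδ0).and (hlim.eventually (eventually_le_nhds hδ0))).and
      (hcom.eventually (eventually_le_nhds (show 0 < c₀ ^ 2 / 40 by positivity)))
      |>.and (eventually_ge_atTop N)).exists
  set z := g * w n * g with hz
  have hS : 99 / 100 * c₀ ≤ ‖z‖ := by
    by_contra hlt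
    push Not at hlt
    have h1 : ‖e * w n ^ 2 ^ r * e‖ ≤ ‖z‖ ^ 2 ^ r + δ := by
      have e1 : e * w n ^ 2 ^ r * e = e * (z ^ 2 ^ r * e) -
          e * (z ^ 2 ^ r * e - w n ^ 2 ^ r * e) := by noncomm_ring
      rw [e1]
      refine (norm_sub_le _ _).trans (add_le_add ?_ ?_)
      · exact (norm_mul_le _ _).trans ((mul_le_of_le_one_left (norm_nonneg _) E.top_le).trans
          ((norm_mul_le _ _).trans ((mul_le_of_le_one_right (norm_nonneg _) E.top_le).trans
            (norm_pow_le' _ (pow_pos two_pos r)))))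
      · exact (norm_mul_le _ _).trans ((mul_le_of_le_one_left (norm_nonneg _) E.top_le).trans hn2)
    have hzp : ‖z‖ ^ 2 ^ r ≤ (99 / 100 : ℝ) ^ 2 ^ r * c₀ ^ 2 ^ r := by
      rw [← mul_pow]; exact pow_le_pow_left₀ (norm_nonneg _) hlt.le _
    have h2 := mul_le_mul_of_nonneg_left (h1.trans (add_le_add hzp le_rfl)) hK0
    have h3 : c₀ ^ 2 ^ r ≤ ‖b * w n ^ 2 ^ r‖ := (pow_le_pow_left₀ hc₀.le (hwc n) _).trans
      (norm_pow_le_mul_pow (IsSelfAdjoint.of_nonneg hb.2.1) hb1 (hws n) r)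
    have h4 : (K + 1) * δ = c₀ ^ 2 ^ r / 4 := by rw [hδ]; field_simp
    nlinarith [mul_le_mul_of_nonneg_right hr (pow_nonneg hc₀.le (2 ^ r)),
      pow_pos hc₀ (2 ^ r)]
  have hzsa : IsSelfAdjoint z := (hws n).conjugate_self (IsSelfAdjoint.of_nonneg G.top_nonneg)
  obtain ⟨s, hs, hsn⟩ : ∃ s ∈ spectrum ℝ z, |s| = ‖z‖ := by
    rcases CStarAlgebra.norm_or_neg_norm_mem_spectrum hzsa with h | h
    · exact ⟨_, h, abs_of_nonneg (norm_nonneg _)⟩
    · exact ⟨_, h, by rw [abs_neg, abs_of_nonneg (norm_nonneg _)]⟩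
  obtain ⟨D, hD, hDz⟩ := Uni.Exc.exists_bump hzsa hs (show (0 : ℝ) < c₀ ^ 2 / 40 by positivity) (by
    rw [hsn]; nlinarith)
  refine ⟨D, n, hnN, hD _ (by rw [hz, hg, ← mul_assoc, ← mul_assoc, hG]), fun ω hω => ?_⟩
  set d := D.top with hd
  set q := g * g * w n * d with hq
  have hρ : ‖q - s • d‖ ≤ c₀ ^ 2 / 20 := by
    have e1 : q - s • d = g * (g * w n - w n * g) * d + (z - s • 1) * d := by
      rw [hq, hz, sub_mul, smul_one_mul]; noncomm_ring
    rw [e1]
    have h1 : ‖g * (g * w n - w n * g) * d‖ ≤ c₀ ^ 2 / 40 :=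
      (norm_mul_le _ _).trans ((mul_le_of_le_one_right (norm_nonneg _) D.top_le).trans
        ((norm_mul_le _ _).trans ((mul_le_of_le_one_left (norm_nonneg _) G.top_le).trans hn3)))
    exact (norm_add_le _ _).trans (by linarith)
  have hdd : ω.f (d * d) = 1 := by
    have := hω 1
    rwa [mul_one, ω.map_one'] at this
  have hsd : ω.nrm (s • d) = |s| := by
    refine (pow_left_inj₀ (ω.nrm_nonneg _) (abs_nonneg _) two_ne_zero).1 ?_
    rw [ω.nrm_sq, star_smul, star_trivial, hd, D.sa, smul_mul_assoc, mul_smul_comm, smul_smul,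
      ← Complex.coe_smul, map_smul, ← hd, hdd, smul_eq_mul, mul_one, Complex.ofReal_re, sq_abs, sq]
  have hlow : |s| - c₀ ^ 2 / 20 ≤ ω.nrm q := by
    have h1 := (abs_le.1 ((ω.nrm_sub_le q (s • d)).trans ((ω.nrm_le_norm _).trans hρ))).1
    linarith
  have hup : ω.nrm q ^ 2 ≤ |s| * ‖ω.f (w n)‖ + 2 * (c₀ ^ 2 / 20) := by
    have h1 : ω.nrm q ≤ ω.nrm (g * w n * d) := by
      rw [hq, mul_assoc g g, mul_assoc g (g * w n)]
      exact (ω.nrm_mul_left g _).trans (mul_le_of_le_one_left (ω.nrm_nonneg _) G.top_le)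
    refine (pow_le_pow_left₀ (ω.nrm_nonneg _) h1 2).trans ?_
    have e1 : star (g * w n * d) * (g * w n * d) =
        (s : ℂ) • (d * w n * d) + d * w n * (q - s • d) := by
      rw [star_mul, star_mul, hd, D.sa, hg, G.sa, (hws n).star_eq, ← hg, ← hd, mul_sub,
        ← Complex.coe_smul, mul_smul_comm, hq]
      simp only [mul_assoc]
      abel
    rw [ω.nrm_sq, e1, map_add, map_smul, hω, smul_eq_mul]
    refine (Complex.re_le_norm _).trans ((norm_add_le _ _).trans (add_le_add ?_ ?_))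
    · rw [norm_mul, Complex.norm_real, Real.norm_eq_abs]
    · exact (ω.norm_apply_le _).trans ((norm_mul_le _ _).trans (mul_le_mul
        ((norm_mul_le _ _).trans ((mul_le_of_le_one_left (norm_nonneg _) D.top_le).trans (hw2 n)))
        hρ (norm_nonneg _) two_pos.le))
  have hs1 : 99 / 100 * c₀ ≤ |s| := hsn ▸ hS
  have hs2 : |s| ≤ 2 := hsn ▸ hgwg n
  have h3 := mul_self_le_mul_self (show 0 ≤ |s| - c₀ ^ 2 / 20 by nlinarith) hlow
  by_contra hlt
  push Not at hlt
  nlinarith [mul_lt_mul_of_pos_left hlt (show 0 < |s| by linarith),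
    mul_le_mul_of_nonneg_right hs2 (sq_nonneg c₀), mul_le_mul_of_nonneg_left hs1 hc₀.le,
    mul_le_mul_of_nonneg_left hs1 (abs_nonneg s)]

/-! ### Witnesses -/

omit [PartialOrder M] [StarOrderedRing M] in
theorem exists_dense (hJ : IsBase J) :
    ∃ q : ℕ → M, (∀ i, q i ∈ J) ∧ J ⊆ closure (Set.range q) := by
  obtain ⟨S, hS, hSJ, hJS⟩ := hJ.separable
  obtain ⟨x, hx, -⟩ := hJ.exists_ne_zero
  obtain ⟨y, hy⟩ := closure_nonempty_iff.1 ⟨x, hJS hx⟩
  obtain ⟨q, rfl⟩ := hS.exists_eq_range ⟨y, hy⟩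
  exact ⟨q, fun i => hSJ ⟨i, rfl⟩, hJS⟩

omit [PartialOrder M] [StarOrderedRing M] in
theorem cenOn_of_dense {q : ℕ → M} (hq : J ⊆ closure (Set.range q)) {x : ℕ → M}
    (hx : ∀ n, ‖x n‖ ≤ 1)
    (h : ∀ i, Tendsto (fun n => q i * x n - x n * q i) atTop (𝓝 0)) : CenOn J x := by
  refine ⟨⟨1, hx⟩, fun c hc => Metric.tendsto_nhds.2 fun ε hε => ?_⟩
  obtain ⟨_, ⟨i, rfl⟩, hi⟩ := Metric.mem_closure_iff.1 (hq hc) (ε / 4) (by linarith)
  rw [dist_eq_norm] at hi
  filter_upwards [Metric.tendsto_nhds.1 (h i) (ε / 4) (by linarith)] with n hn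
  rw [dist_zero_right] at hn ⊢
  have e : c * x n - x n * c =
      (c - q i) * x n - x n * (c - q i) + (q i * x n - x n * q i) := by noncomm_ring
  rw [e]
  have h1 := (norm_mul_le (c - q i) (x n)).trans (mul_le_of_le_one_right (norm_nonneg _) (hx n))
  have h2 := (norm_mul_le (x n) (c - q i)).trans (mul_le_of_le_one_left (norm_nonneg _) (hx n))
  linarith [norm_add_le ((c - q i) * x n - x n * (c - q i)) (q i * x n - x n * q i),
    norm_sub_le ((c - q i) * x n) (x n * (c - q i))]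

/-- An automorphism which is not centrally trivial moves a central sequence of selfadjoints,
seen by a bounded element. -/
theorem exists_witness (hJ : IsBase J)
    (hu : ∀ c ∈ J, ∀ η : ℝ, 0 < η → ∃ v, IsBdd J v ∧ ‖v‖ ≤ 1 ∧ ‖v * c - c‖ ≤ η)
    {σ : M ≃⋆ₐ[ℂ] M} (hσJ : ∀ x, σ x ∈ J ↔ x ∈ J) (hσ : ¬CentrallyTrivial J σ) :
    ∃ (b : M) (c₀ : ℝ) (a : ℕ → M), IsBdd J b ∧ ‖b‖ ≤ 1 ∧ 0 < c₀ ∧ CenOn J a ∧
      CenOn J (fun n => σ (a n)) ∧ (∀ n, IsSelfAdjoint (a n - σ (a n))) ∧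
      (∀ n, ‖a n - σ (a n)‖ ≤ 2) ∧ ∀ n, c₀ ≤ ‖b * (a n - σ (a n))‖ := by
  obtain ⟨c, hc, ε, hε, hσ⟩ : ∃ c ∈ J, ∃ ε : ℝ, 0 < ε ∧ ∀ (F : Finset M) (δ : ℝ),
      (↑F : Set M) ⊆ J → 0 < δ → ∃ x : M, ‖x‖ ≤ 1 ∧ (∀ a ∈ F, ‖a * x - x * a‖ ≤ δ) ∧
        ε < ‖(σ x - x) * c‖ := by
    unfold CentrallyTrivial at hσ
    push Not at hσ
    exact hσ
  classical
  obtain ⟨q, hqJ, hq⟩ := exists_dense hJ
  choose x hx hxc hxσ using fun n : ℕ =>
    hσ ((Finset.range (n + 1)).image q) (1 / ((n : ℝ) + 1)) (fun y hy => by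
      obtain ⟨i, -, rfl⟩ := Finset.mem_image.1 hy
      exact hqJ i) (by positivity)
  have hxC : CenOn J x := cenOn_of_dense hq hx fun i => squeeze_zero_norm' (by
    filter_upwards [eventually_ge_atTop i] with n hn
    exact hxc n _ (Finset.mem_image_of_mem q (Finset.mem_range.2 (by omega))))
    tendsto_one_div_add_atTop_nhds_zero_nat
  have hxs : CenOn J fun n => star (x n) := by
    refine ⟨⟨1, fun n => (norm_star _).trans_le (hx n)⟩, fun c hc => ?_⟩
    have h := ((hxC.2 (star c) (hJ.star_mem hc)).star).neg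
    rw [star_zero, neg_zero] at h
    exact h.congr fun n => by simp [star_sub]
  have hchoice : ∀ n, ∃ a : M, IsSelfAdjoint a ∧ ε / 2 ≤ ‖(a - σ a) * c‖ ∧ ‖a‖ ≤ 1 ∧
      ∀ y : M, ‖y * a - a * y‖ ≤
        ‖y * x n - x n * y‖ + ‖y * star (x n) - star (x n) * y‖ := by
    intro n
    set a : M := (1 / 2 : ℂ) • (x n + star (x n)) with hadef
    set b : M := (Complex.I / 2) • (star (x n) - x n) with hbdef
    have hsa : IsSelfAdjoint a := by
      rw [hadef, IsSelfAdjoint, star_smul, star_add, star_star, add_comm (star (x n))]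
      congr 1
      rw [Complex.star_def, map_div₀, map_one, map_ofNat]
    have hsb : IsSelfAdjoint b := by
      rw [hbdef, IsSelfAdjoint, star_smul, star_sub, star_star, Complex.star_def, map_div₀,
        Complex.conj_I, map_ofNat, ← neg_sub (star (x n)) (x n), smul_neg, ← neg_smul]
      congr 1
      ring
    have h1 := hx n
    have h2 := (norm_star (x n)).trans_le h1
    by_cases h : ε / 2 ≤ ‖(a - σ a) * c‖
    · refine ⟨a, hsa, h, ?_, fun y => ?_⟩ <;> rw [hadef]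
      · rw [norm_smul]; norm_num; linarith [norm_add_le (x n) (star (x n))]
      · rw [mul_smul_comm, smul_mul_assoc, ← smul_sub, norm_smul, mul_add, add_mul,
          add_sub_add_comm]
        norm_num
        linarith [norm_add_le (y * x n - x n * y) (y * star (x n) - star (x n) * y),
          norm_nonneg (y * x n - x n * y + (y * star (x n) - star (x n) * y))]
    refine ⟨b, hsb, ?_, ?_, fun y => ?_⟩
    · have e : (x n - σ (x n)) * c = (a - σ a) * c + Complex.I • ((b - σ b) * c) := by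
        have e1 : x n = a + Complex.I • b := by
          simp only [hadef, hbdef, smul_smul, ← mul_div_assoc, Complex.I_mul_I, smul_add,
            smul_sub]
          module
        clear_value a b
        conv_lhs => rw [e1]
        rw [map_add, map_smul, ← smul_mul_assoc, ← add_mul, smul_sub]
        congr 1
        abel
      have h3 := norm_add_le ((a - σ a) * c) (Complex.I • ((b - σ b) * c))
      rw [← e, ← neg_sub (σ (x n)), neg_mul, norm_neg, norm_smul, Complex.norm_I, one_mul] at h3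
      linarith [hxσ n, not_le.1 h]
    · rw [hbdef, norm_smul]; norm_num; linarith [norm_sub_le (star (x n)) (x n)]
    · rw [hbdef, mul_smul_comm, smul_mul_assoc, ← smul_sub, norm_smul, mul_sub, sub_mul,
        sub_sub_sub_comm]
      norm_num
      linarith [norm_sub_le (y * star (x n) - star (x n) * y) (y * x n - x n * y),
        norm_nonneg (y * star (x n) - star (x n) * y - (y * x n - x n * y))]
  choose a hsa hac ha1 hacom using hchoice
  have ha : CenOn J a := ⟨⟨1, ha1⟩, fun c hc => squeeze_zero_norm (fun n => hacom n c)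
    (by simpa using (hxC.2 c hc).norm.add (hxs.2 c hc).norm)⟩
  have h2 : ∀ n, ‖a n - σ (a n)‖ ≤ 2 := fun n => by
    have h := norm_sub_le (a n) (σ (a n))
    rw [StarAlgEquiv.norm_map] at h
    linarith [ha1 n]
  -- trade `c` for a bounded element
  obtain ⟨v, hv, hv1, hvc⟩ := hu c hc (ε / 8) (by positivity)
  refine ⟨v, ε / 4 / (‖c‖ + 1), a, hv, hv1, by positivity, ha,
    ⟨⟨1, fun n => by rw [StarAlgEquiv.norm_map]; exact ha1 n⟩, fun d hd => ?_⟩,
    fun n => (hsa n).sub ((hsa n).map σ), h2, fun n => ?_⟩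
  · have hd' : σ.symm d ∈ J := (hσJ _).1 (by rwa [StarAlgEquiv.apply_symm_apply])
    refine squeeze_zero_norm (fun n => le_of_eq ?_) (by simpa using (ha.2 _ hd').norm)
    rw [← StarAlgEquiv.norm_map σ (σ.symm d * a n - a n * σ.symm d), map_sub, map_mul, map_mul,
      StarAlgEquiv.apply_symm_apply]
  · set w := a n - σ (a n) with hw
    have hsw : star w = w := ((hsa n).sub ((hsa n).map σ)).star_eq
    have e : ‖v * w‖ = ‖w * v‖ := by
      rw [← norm_star, star_mul, hsw, (IsSelfAdjoint.of_nonneg hv.2.1).star_eq]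
    have h3 : ‖w * c‖ ≤ ‖w * v‖ * ‖c‖ + 2 * (ε / 8) := by
      have e1 : w * c = w * v * c - w * (v * c - c) := by noncomm_ring
      rw [e1]
      exact (norm_sub_le _ _).trans (add_le_add (norm_mul_le _ _)
        ((norm_mul_le _ _).trans (mul_le_mul (h2 n) hvc (norm_nonneg _) two_pos.le)))
    rw [e, div_le_iff₀ (by positivity)]
    nlinarith [hac n, norm_nonneg (w * v), norm_nonneg c]

/-! ### The chain -/

/-- All requirements along one chain started at `L₀`. -/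
theorem exists_chain [Nontrivial M] {G : Type*} [Countable G] (hJ : IsBase J)
    (hu : ∀ c ∈ J, ∀ η : ℝ, 0 < η → ∃ v, IsBdd J v ∧ ‖v‖ ≤ 1 ∧ ‖v * c - c‖ ≤ η)
    (α : G → M ≃⋆ₐ[ℂ] M) (hmem : ∀ g x, α g x ∈ J ↔ x ∈ J) (L₀ : Lev M) (hL₀ : L₀.top ∈ J) :
    ∃ h : ℕ → Lev M, h 0 = L₀ ∧ (∀ i j, i < j → (h j).Below (h i)) ∧
      (∀ y : M, ∀ ε : ℝ, 0 < ε → ∃ c : ℂ, ∀ᶠ m in atTop,
        ‖(h m).top * y * (h m).top - c • ((h m).top * (h m).top)‖ ≤ ε) ∧
      ∀ g, ¬CentrallyTrivial J (α g) → ∃ (c₀ : ℝ) (a : ℕ → M), 0 < c₀ ∧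
        CenOn J (fun n => α g (a n)) ∧ ∀ N, ∃ n, N ≤ n ∧ ∃ m, ∀ ω : St M,
          (∀ x, ω.f ((h m).top * x * (h m).top) = ω.f x) →
            c₀ ≤ ‖ω.f (a n - α g (a n))‖ := by
  classical
  obtain ⟨q, hqJ, hq⟩ := exists_dense hJ
  let _ : Encodable G := Encodable.ofCountable G
  choose b c₀ a hb hb1 hc₀ ha hσa hwsa hw2 hwc using
    fun (g : G) (hg : ¬CentrallyTrivial J (α g)) => exists_witness hJ hu (hmem g) hg
  have step : ∀ (j : ℕ) (L : Lev M), ∃ D : Lev M, D.Below L ∧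
      (∀ E : Lev M, E.Below D → ∃ c : ℂ,
        ‖E.top * q j.unpair.1 * E.top - c • (E.top * E.top)‖ ≤ 1 / ((j : ℝ) + 1)) ∧
      (L.top ∈ J → ∀ g, Encodable.decode (α := G) j.unpair.1 = some g →
        ∀ hg : ¬CentrallyTrivial J (α g),
        ∃ n, j ≤ n ∧ ∀ ω : St M, (∀ x, ω.f (D.top * x * D.top) = ω.f x) →
          c₀ g hg / 2 ≤ ‖ω.f (a g hg n - α g (a g hg n))‖) := by
    intro j L
    obtain ⟨D, hD, hD'⟩ := Uni.Exc.exists_excise L (q j.unpair.1)
      (show (0 : ℝ) < 1 / ((j : ℝ) + 1) by positivity)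
    by_cases hg : L.top ∈ J ∧
        ∃ g, Encodable.decode (α := G) j.unpair.1 = some g ∧ ¬CentrallyTrivial J (α g)
    · obtain ⟨hLJ, g, hg, hgc⟩ := hg
      have hw : CenOn J fun n => a g hgc n - α g (a g hgc n) := by
        refine ⟨⟨2, hw2 g hgc⟩, fun c hc => ?_⟩
        have h := ((ha g hgc).2 c hc).sub ((hσa g hgc).2 c hc)
        rw [sub_zero] at h
        exact h.congr fun n => by rw [mul_sub, sub_mul]; abel
      obtain ⟨E, n, hn, hE, hdet⟩ := exists_detect hJ D (mem_of_below hJ hD hLJ) (hb g hgc)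
        (hb1 g hgc) hw (hwsa g hgc) (hw2 g hgc) (hc₀ g hgc) (hwc g hgc) j
      refine ⟨E, hE.trans hD, fun F hF => hD' F (hF.trans hE), fun _ g' hg' hgc' => ?_⟩
      obtain rfl : g = g' := Option.some.inj (hg.symm.trans hg')
      exact ⟨n, hn, hdet⟩
    · exact ⟨D, hD, hD', fun hLJ g hg' hgc => absurd ⟨hLJ, g, hg', hgc⟩ hg⟩
  choose nx hnx hex hdet using step
  let h : ℕ → Lev M := fun k => Nat.rec L₀ (fun j L => nx j L) k
  have hsucc : ∀ j, h (j + 1) = nx j (h j) := fun j => rfl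
  have hbel : ∀ i j, i < j → (h j).Below (h i) := by
    intro i j hij
    induction j, hij using Nat.le_induction with
    | base => rw [hsucc]; exact hnx _ _
    | succ j _ ih => exact (show (h (j + 1)).Below (h j) by rw [hsucc]; exact hnx _ _).trans ih
  have hhJ : ∀ j, (h j).top ∈ J := fun j => by
    rcases j with _ | j
    · exact hL₀
    · exact mem_of_below hJ (hbel 0 (j + 1) j.succ_pos) hL₀
  refine ⟨h, rfl, hbel, fun y ε hε => ?_, fun g hg => ⟨c₀ g hg / 2, a g hg, half_pos (hc₀ g hg),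
    hσa g hg, fun N => ?_⟩⟩
  · set y' := L₀.top * y * L₀.top with hy'
    obtain ⟨_, ⟨i, rfl⟩, hi⟩ := Metric.mem_closure_iff.1
      (hq (hJ.mul_right (x := L₀.top * y) L₀.top (hJ.mul_right y hL₀))) (ε / 4) (by linarith)
    rw [dist_eq_norm] at hi
    obtain ⟨k, hk⟩ := exists_nat_gt (4 / ε)
    set j := Nat.pair i k with hj
    have hjk : 1 / ((j : ℝ) + 1) ≤ ε / 4 := by
      have h1 : (k : ℝ) ≤ j := by exact_mod_cast Nat.right_le_pair i k
      rw [div_lt_iff₀ hε] at hk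
      rw [div_le_iff₀ (by positivity)]
      nlinarith
    have hc : ∀ m, j + 1 < m → ∃ c : ℂ,
        ‖(h m).top * q i * (h m).top - c • ((h m).top * (h m).top)‖ ≤ ε / 4 := fun m hm => by
      obtain ⟨c, hc⟩ := hex j (h j) (h m) (hsucc j ▸ hbel _ _ hm)
      rw [hj, Nat.unpair_pair] at hc
      exact ⟨c, hc.trans hjk⟩
    obtain ⟨c, hc⟩ := hc (j + 2) (by omega)
    refine ⟨c, ?_⟩
    filter_upwards [eventually_gt_atTop (j + 2)] with m hm
    have h1 := (hbel _ _ hm).conj_le hc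
    have h0 : (h m).top * y' * (h m).top = (h m).top * y * (h m).top := by
      have hb0 : (h m).Below L₀ := hbel 0 m (by omega)
      rw [hy', ← mul_assoc, ← mul_assoc, hb0.comm, mul_assoc _ L₀.top, hb0]
    have e : (h m).top * y * (h m).top - c • ((h m).top * (h m).top) =
        (h m).top * (y' - q i) * (h m).top +
          ((h m).top * q i * (h m).top - c • ((h m).top * (h m).top)) := by
      rw [← h0]; noncomm_ring
    rw [e]
    refine (norm_add_le _ _).trans (le_trans (add_le_add ((h m).norm_conj_le _) h1) ?_)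
    linarith
  · set j := Nat.pair (Encodable.encode g) N with hj
    obtain ⟨n, hn, hω⟩ := hdet j (h j) (hhJ j) g
      (by rw [hj, Nat.unpair_pair]; exact Encodable.encodek g) hg
    refine ⟨n, (Nat.right_le_pair _ N).trans hn, j + 1, fun ω h1 => hω ω fun x => ?_⟩
    rw [← hsucc]
    exact h1 x

/-- The excision, given a first level and bounded local units. -/
theorem excise_of_units {G : Type*} [Countable G] (hJ : IsBase J)
    (h₀ : ∃ v, IsTri J v ∧ v ≠ 0)
    (hu : ∀ c ∈ J, ∀ η : ℝ, 0 < η → ∃ v, IsBdd J v ∧ ‖v‖ ≤ 1 ∧ ‖v * c - c‖ ≤ η)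
    (α : G → M ≃⋆ₐ[ℂ] M) (hmem : ∀ g x, α g x ∈ J ↔ x ∈ J) : ExciseGoal J α := by
  obtain ⟨x₀, -, hx₀⟩ := hJ.exists_ne_zero
  have : Nontrivial M := ⟨⟨x₀, 0, hx₀⟩⟩
  obtain ⟨v, ⟨-, -, w, g, hw, hw1, hg, hg1, hwv, hgw, hgb⟩, hv⟩ := h₀
  have hwn : ‖w‖ ≠ 0 := fun h => hv (by
    rw [← hwv, norm_eq_zero.1 h, zero_mul])
  let L₀ : Lev M := ⟨g, ‖w‖⁻¹ • w, hg, hg1, smul_nonneg (by positivity) hw, by
    rw [norm_smul, norm_inv, norm_norm, inv_mul_cancel₀ hwn], by rw [mul_smul_comm, hgw]⟩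
  obtain ⟨h, h0, hb, hy, hgd⟩ := exists_chain hJ hu α hmem L₀ hgb.1
  obtain ⟨ω, hex, hfix⟩ := Uni.Exc.exists_state hb hy
  have hhJ : ∀ j, (h j).top ∈ J := fun j => by
    rcases j with _ | j
    · rw [h0]; exact hgb.1
    · exact mem_of_below hJ (hb 0 (j + 1) j.succ_pos) (by rw [h0]; exact hgb.1)
  refine ⟨⟨fun m => (h m).top, ω.f.toLinearMap, hhJ, by simpa only [h0] using hgb,
    fun m => (h m).top_nonneg, fun m => (h m).norm_top, fun m => hb m (m + 1) m.lt_succ_self,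
    ω.map_one', fun a => map_nonneg ω.f (star_mul_self_nonneg a), fun y _ => hex y,
    fun k hkc z _ => ?_⟩⟩
  obtain ⟨c₀, a, hc₀, hσa, hdet⟩ := hgd k hkc
  refine Uni.Exc.tendsto_moved hb ω hex hfix (α k) hσa.1
    (fun m => hσa.2 _ ((hmem k _).2 (hhJ m))) hc₀ (fun N => ?_) z
    fun m => hσa.2 _ (hJ.star_mem (hJ.mul_right z (hhJ m)))
  obtain ⟨n, hn, m, hω⟩ := hdet N
  exact ⟨n, hn, hω ω (hfix m)⟩

/-- Bounded local units exist. -/
theorem hasUnits (hJ : IsBase J) :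
    ∀ c ∈ J, ∀ η : ℝ, 0 < η → ∃ v, IsBdd J v ∧ ‖v‖ ≤ 1 ∧ ‖v * c - c‖ ≤ η := by
  intro c hc η hη
  obtain ⟨v, hv, hvc⟩ := hJ.exists_tri {c} (by simpa using hc) hη
  exact ⟨v, hv.isBdd hJ, hv.norm_le, (hvc c (Finset.mem_singleton_self c)).1⟩

/-- **Nested excision in a simple essential ideal.** -/
theorem excise_goal {G : Type*} [Countable G] (hJ : IsBase J) (α : G → M ≃⋆ₐ[ℂ] M)
    (hmem : ∀ g x, α g x ∈ J ↔ x ∈ J) : ExciseGoal J α := by
  obtain ⟨x, hx, hx0⟩ := hJ.exists_ne_zero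
  obtain ⟨v, hv, hvx⟩ := hJ.exists_tri {x} (by simpa using hx)
    (show 0 < ‖x‖ / 2 by positivity)
  refine excise_of_units hJ ⟨v, hv, fun h0 => ?_⟩ (hasUnits hJ) α hmem
  have h1 := (hvx x (Finset.mem_singleton_self x)).1
  rw [h0, zero_mul, zero_sub, norm_neg] at h1
  linarith [norm_pos_iff.2 hx0]

/-- An action by a group preserving `J` maps it onto itself. -/
theorem mem_iff_of_action {G : Type*} [Group G] {α : G → M ≃⋆ₐ[ℂ] M}
    (hα : ∀ g h a, α (g * h) a = α g (α h a)) (hmem : ∀ g, ∀ x ∈ J, α g x ∈ J) (g : G) (x : M) :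
    α g x ∈ J ↔ x ∈ J := by
  refine ⟨fun h => ?_, hmem g x⟩
  have h1 := hmem g⁻¹ _ h
  have h2 : α 1 x = x := (α 1).injective (show α 1 (α 1 x) = α 1 x by rw [← hα, mul_one])
  rwa [← hα, inv_mul_cancel, h2] at h1

end Exc

end Vale.Agent.P095.NU
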