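import Vale.Agent.P095.Uni.Goals

/-!
# P095: a simple algebra inside a unital one

`J` is a simple separable essential ideal of the unital algebra `M`; in the application `J` is
`A` and `M` is its multiplier algebra. Traces are additive functionals on the positive cone of `J`
with values in `[0, ∞]`.
-/

open scoped ComplexOrder ENNReal
open Filter Topology Matrix

noncomputable section

namespace Vale.Agent.P095.NU

variable {M : Type*} [CStarAlgebra M]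

/-- `J` is a nonzero separable closed essential ideal, simple as a C⋆-algebra. -/
structure IsBase (J : Set M) : Prop where
  isClosed : IsClosed J
  zero_mem : (0 : M) ∈ J
  add_mem : ∀ {x y}, x ∈ J → y ∈ J → x + y ∈ J
  smul_mem : ∀ (z : ℂ) {x}, x ∈ J → z • x ∈ J
  star_mem : ∀ {x}, x ∈ J → star x ∈ J
  mul_left : ∀ (m : M) {x}, x ∈ J → m * x ∈ J
  mul_right : ∀ {x} (m : M), x ∈ J → x * m ∈ J
  essential : ∀ m : M, (∀ x ∈ J, m * x = 0) → m = 0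
  exists_ne_zero : ∃ x ∈ J, x ≠ 0
  separable : ∃ S : Set M, S.Countable ∧ S ⊆ J ∧ J ⊆ closure S
  simple : ∀ p ∈ J, p ≠ 0 → ∀ x ∈ J,
    x ∈ closure (AddSubgroup.closure {y | ∃ w ∈ J, ∃ z ∈ J, y = w * p * z} : Set M)

/-- `p J p` is infinite dimensional for all nonzero `p` in `J`. -/
def NoFinite (J : Set M) : Prop :=
  ∀ p ∈ J, p ≠ 0 →
    ¬FiniteDimensional ℂ (Submodule.span ℂ (Set.range fun x : M => star p * x * p))

/-- Completely positive approximation of the elements of `J` through matrix algebras. -/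
def IsNuclearOn (J : Set M) : Prop :=
  ∀ (C : Finset M), (↑C : Set M) ⊆ J → ∀ ε : ℝ, 0 < ε →
    ∃ (D : ℕ) (φ : M →ₗ[ℂ] Matrix (Fin D) (Fin D) ℂ) (ψ : Matrix (Fin D) (Fin D) ℂ →ₗ[ℂ] M),
    (∀ (k : ℕ) (x : Fin k → M) (v : Fin k → Fin D → ℂ),
      0 ≤ ∑ i, ∑ j, star (v i) ⬝ᵥ (φ (star (x i) * x j) *ᵥ v j)) ∧
    (∀ v : Fin D → ℂ, star v ⬝ᵥ (φ 1 *ᵥ v) ≤ star v ⬝ᵥ v) ∧
    (∀ (k : ℕ) (y : Fin k → Matrix (Fin D) (Fin D) ℂ) (b : Fin k → M),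
      ∃ a : M, ∑ i, ∑ j, star (b i) * ψ (star (y i) * y j) * b j = star a * a) ∧
    ‖ψ 1‖ ≤ 1 ∧
    ∀ c ∈ C, ‖ψ (φ c) - c‖ ≤ ε

/-- Large prime dimension drop algebras map unitally into `M`, almost commuting with given
elements of `J`. -/
def DropMapsOn (J : Set M) : Prop :=
  ∀ C : Finset M, (↑C : Set M) ⊆ J → ∀ (ε : ℝ), 0 < ε → ∀ N : ℕ,
    ∃ p q : ℕ, N ≤ p ∧ N ≤ q ∧ p.Coprime q ∧
    ∃ ψ : (unitInterval → Matrix (Fin p × Fin q) (Fin p × Fin q) ℂ) → M,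
      IsUnitalHomOn (IsDropElement p q) ψ ∧ ∀ c ∈ C, IsNearlyCentral (IsDropElement p q) ψ c ε

/-- The slot elements, almost commuting with given elements of `J`. -/
def SlotsGoal (J : Set M) : Prop :=
  ∀ (n k : ℕ), 0 < k → 4 * k ≤ n → ∀ C : Finset M, (↑C : Set M) ⊆ J → ∀ (ε : ℝ), 0 < ε →
    ∃ R : Fin k → Fin n → M,
      (∀ s t, s ≠ t → ∀ j l, star (R s j) * R t l = 0) ∧
      (∀ s t j l, star (R s j) * R s l = star (R t j) * R t l) ∧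
      (∀ s, ∑ j, star (R s j) * R s j = 1) ∧
      ∀ c ∈ C, ∀ s j, ‖c * R s j - R s j * c‖ ≤ ε

/-- Bounded sequences `x` with `x n * c` and `c * x n` tending to zero for `c` in `J`. -/
def NullOn (J : Set M) (l : Filter ℕ) (x : ℕ → M) : Prop :=
  ∀ c ∈ J, Tendsto (fun n => x n * c) l (𝓝 0) ∧ Tendsto (fun n => c * x n) l (𝓝 0)

/-- The automorphism is trivial on central sequences, read on elements of `J`. -/
def CentrallyTrivial (J : Set M) (σ : M ≃⋆ₐ[ℂ] M) : Prop :=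
  ∀ c ∈ J, ∀ ε : ℝ, 0 < ε → ∃ (F : Finset M) (δ : ℝ), (↑F : Set M) ⊆ J ∧ 0 < δ ∧
    ∀ x : M, ‖x‖ ≤ 1 → (∀ a ∈ F, ‖a * x - x * a‖ ≤ δ) → ‖(σ x - x) * c‖ ≤ ε

section Order

variable [PartialOrder M]

/-- A positive element lying algebraically below every nonzero positive element of `J`. -/
def IsBdd (J : Set M) (v : M) : Prop :=
  v ∈ J ∧ 0 ≤ v ∧ ∀ p ∈ J, 0 ≤ p → p ≠ 0 → ∃ (L : ℕ) (s : Fin L → M),
    v ≤ ∑ i, star (s i) * p * s i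

/-- A positive contraction with two successive units, the last one bounded. -/
def IsTri (J : Set M) (v : M) : Prop :=
  0 ≤ v ∧ ‖v‖ ≤ 1 ∧ ∃ w g : M, 0 ≤ w ∧ ‖w‖ ≤ 1 ∧ 0 ≤ g ∧ ‖g‖ ≤ 1 ∧
    w * v = v ∧ g * w = w ∧ IsBdd J g

/-- A trace on the positive cone of `J`. -/
structure ETr (J : Set M) where
  t : M → ℝ≥0∞
  add : ∀ x y, x ∈ J → y ∈ J → 0 ≤ x → 0 ≤ y → t (x + y) = t x + t y
  mono : ∀ x y, x ∈ J → y ∈ J → 0 ≤ x → x ≤ y → t x ≤ t y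
  smul : ∀ (r : ℝ) x, 0 ≤ r → x ∈ J → 0 ≤ x → t (r • x) = ENNReal.ofReal r * t x
  comm : ∀ x ∈ J, t (star x * x) = t (x * star x)

/-- The value at `x` of the trace compressed by `v`. -/
def ETr.val {J : Set M} (T : ETr J) (v x : M) : ℝ := (T.t (star v * x * v)).toReal

/-- Domination in every normalised trace gives a decomposition. -/
def DecompGoal (J : Set M) : Prop :=
  ∀ u : M, IsBdd J u → u ≠ 0 → ∀ (a b : M) (κ ε : ℝ), IsBdd J a → b ∈ J → 0 ≤ b → b ≠ 0 →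
    0 < κ → 0 < ε → (∀ T : ETr J, T.t u = 1 → T.t a < ENNReal.ofReal κ * T.t b) →
    ∃ (L : ℕ) (x : Fin L → M), (∀ i, x i ∈ J) ∧
      ‖∑ i, star (x i) * x i - a‖ ≤ ε ∧ ∑ i, x i * star (x i) ≤ κ • b

/-- Comparison of an element of small trace with one of trace bounded below. -/
def CompareGoal (J : Set M) : Prop :=
  ∀ u : M, IsBdd J u → u ≠ 0 → ∀ c K ε : ℝ, 0 < c → 0 < K → 0 < ε →
    ∃ δ η : ℝ, 0 < δ ∧ 0 < η ∧ ∀ a b g : M,
      IsBdd J a → ‖a‖ ≤ 1 → 0 ≤ b → ‖b‖ ≤ 1 → ‖g‖ ≤ 1 → IsBdd J g → g * b = b →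
      (∃ T : ETr J, T.t u = 1) →
      (∀ T : ETr J, T.t u = 1 → T.t g ≤ ENNReal.ofReal K ∧
        ENNReal.ofReal c ≤ T.t b ∧ T.t a ≤ ENNReal.ofReal δ) →
      ∃ x ∈ J, ‖star x * x - a‖ ≤ ε ∧ cfc (Uni.ramp η) b * x = x

/-- A decreasing sequence in `J` excising a state, moved away by every member of the action which
is not trivial on central sequences. -/
structure Excision {G : Type*} (J : Set M) (α : G → M ≃⋆ₐ[ℂ] M) where
  h : ℕ → M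
  φ : M →ₗ[ℂ] ℂ
  mem : ∀ j, h j ∈ J
  bdd : IsBdd J (h 0)
  nonneg : ∀ j, 0 ≤ h j
  norm_eq : ∀ j, ‖h j‖ = 1
  nested : ∀ j, h j * h (j + 1) = h (j + 1)
  φ_one : φ 1 = 1
  φ_nonneg : ∀ a, 0 ≤ φ (star a * a)
  excise : ∀ y ∈ J, Tendsto (fun j => h j * y * h j - φ y • (h j * h j)) atTop (𝓝 0)
  moved : ∀ g, ¬CentrallyTrivial J (α g) →
    ∀ z ∈ J, Tendsto (fun j => h j * z * α g (h j)) atTop (𝓝 0)

/-- The excising sequence exists. -/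
def ExciseGoal {G : Type*} (J : Set M) (α : G → M ≃⋆ₐ[ℂ] M) : Prop := Nonempty (Excision J α)

end Order

/-- The identity of `J` is approximated by one-step elementary maps through any state living on
`J`. -/
def OneStepGoal (J : Set M) : Prop :=
  ∀ (φ : M →ₗ[ℂ] ℂ), φ 1 = 1 → (∀ a, 0 ≤ φ (star a * a)) →
    (∃ h ∈ J, ‖h‖ ≤ 1 ∧ φ h = 1) →
    ∀ C : Finset M, (↑C : Set M) ⊆ J → ∀ ε : ℝ, 0 < ε → ∃ (n : ℕ) (d c : Fin n → M),
      (∀ i, d i ∈ J ∧ c i ∈ J) ∧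
      ∀ y ∈ C, ‖∑ i, ∑ j, φ (star (d i) * y * d j) • (star (c i) * c j) - y‖ ≤ ε

section Goals

variable [PartialOrder M] {G : Type*}

/-- Almost central, almost invariant bounded sequences, relative to `J`. -/
def IsCentralInv (J : Set M) (l : Filter ℕ) (α : G → M ≃⋆ₐ[ℂ] M) (x : ℕ → M) : Prop :=
  (∀ c ∈ J, Tendsto (fun n => c * x n - x n * c) l (𝓝 0)) ∧
    ∀ g, NullOn J l fun n => α g (x n) - x n

/-- Equivariant property (SI) relative to `J`, for the elements needed. -/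
def SIGoal (J : Set M) (α : G → M ≃⋆ₐ[ℂ] M) : Prop :=
  ∀ u : M, IsBdd J u → u ≠ 0 → (∃ T : ETr J, T.t u = 1) →
  ∀ (l : Filter ℕ) (e f : ℕ → M) (ρ : ℝ), 0 < ρ →
    (∀ n, 0 ≤ e n ∧ ‖e n‖ ≤ 1 ∧ 0 ≤ f n ∧ ‖f n‖ ≤ 1) →
    IsCentralInv J l α e → IsCentralInv J l α f →
    (∀ v, IsTri J v → ∀ ε : ℝ, 0 < ε → ∀ᶠ n in l, ∀ T : ETr J, T.t u = 1 →
      T.val v (e n) ≤ ε ∧ T.val v (f n - f n * f n) ≤ ε ∧
        |T.val v (f n) - ρ * T.val v 1| ≤ ε) →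
    ∀ C : Finset M, (↑C : Set M) ⊆ J → ∀ (K : Finset G) (ε : ℝ), 0 < ε → ∀ᶠ n in l,
      ∃ s : M, ‖s‖ ≤ 2 ∧ (∀ c ∈ C, ‖(star s * s - e n) * c‖ ≤ ε ∧
        ‖(f n * s - s) * c‖ ≤ ε ∧ ‖c * s - s * c‖ ≤ ε) ∧
        ∀ k ∈ K, ∀ c ∈ C, ‖(α k s - s) * c‖ ≤ ε ∧ ‖c * (α k s - s)‖ ≤ ε

/-- Without traces there are almost central almost invariant isometries with orthogonal ranges. -/
def InfGoal (J : Set M) (α : G → M ≃⋆ₐ[ℂ] M) : Prop :=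
  ∀ u : M, IsBdd J u → u ≠ 0 → (∀ T : ETr J, T.t u ≠ 1) →
    ∀ (N : ℕ) (C : Finset M), (↑C : Set M) ⊆ J → ∀ (K : Finset G) (ε : ℝ), 0 < ε →
      ∃ s : Fin N → M, ∀ a, ‖s a‖ ≤ 2 ∧ ∀ c ∈ C,
        (∀ b, ‖(star (s a) * s b - if a = b then 1 else 0) * c‖ ≤ ε) ∧
        ‖c * s a - s a * c‖ ≤ ε ∧
        ∀ k ∈ K, ‖(α k (s a) - s a) * c‖ ≤ ε ∧ ‖c * (α k (s a) - s a)‖ ≤ ε

end Goals

end Vale.Agent.P095.NU
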