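import Vale.Agent.P095.NU.Closed
import Vale.Agent.P095.NU.Setting
import Vale.Agent.P101.SeqAlg
import Vale.Agent.P095.AF.Goals

/-!
# P095: the central sequence algebra relative to an ideal

`J` is a star-closed ideal of the unital algebra `M`. The classes of the bounded sequences of `M`
which commute with `J` along `ω` act on the corner `J M_ω J` of the sequence algebra `M_ω`; the
image `CSeq J ω` in its multipliers is the quotient by the sequences which are null on `J`.
-/

open Filter Topology
open scoped ComplexOrder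

set_option maxSynthPendingDepth 3

noncomputable section

namespace Vale.Agent.P095.NU

set_option linter.unusedVariables false

open P101.SeqAlg (SQ bseq toSQ)

variable {M : Type*} [CStarAlgebra M] {J : Set M} {ω : Ultrafilter ℕ}

variable (J ω) in
/-- The classes commuting with `J`. -/
def relComm : StarSubalgebra ℂ (SQ M ω) :=
  StarSubalgebra.centralizer ℂ (P101.SeqAlg.const ω '' J)

instance : IsClosed (relComm J ω : Set (SQ M ω)) := by
  rw [relComm, StarSubalgebra.coe_centralizer]
  exact Set.isClosed_centralizer _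

variable (J ω) in
/-- The products with a constant of `J` on both sides. -/
def cornerGens : Set (SQ M ω) :=
  {d | ∃ a ∈ J, ∃ y : SQ M ω, ∃ b ∈ J,
    d = P101.SeqAlg.const ω a * y * P101.SeqAlg.const ω b}

variable (J ω) in
/-- The corner cut out by `J`. -/
def corner : NonUnitalStarSubalgebra ℂ (SQ M ω) :=
  (NonUnitalStarAlgebra.adjoin ℂ (cornerGens J ω)).topologicalClosure

instance : IsClosed (corner J ω : Set (SQ M ω)) :=
  NonUnitalStarSubalgebra.isClosed_topologicalClosure _

theorem const_commute {x : SQ M ω} (hx : x ∈ relComm J ω) {a : M} (ha : a ∈ J) :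
    P101.SeqAlg.const ω a * x = x * P101.SeqAlg.const ω a :=
  ((StarSubalgebra.mem_centralizer_iff ℂ).1 hx _ (Set.mem_image_of_mem _ ha)).1

theorem mul_mem_corner {x d : SQ M ω} (hx : x ∈ relComm J ω) (hd : d ∈ corner J ω) :
    x * d ∈ corner J ω ∧ d * x ∈ corner J ω := by
  set S := NonUnitalStarAlgebra.adjoin ℂ (cornerGens J ω) with hS
  have key : ∀ d ∈ S, ∀ x ∈ relComm J ω, x * d ∈ S ∧ d * x ∈ S := by
    intro d hd
    induction hd using NonUnitalStarAlgebra.adjoin_induction with
    | mem e he =>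
      obtain ⟨a, ha, y, b, hb, rfl⟩ := he
      intro x hx
      refine ⟨NonUnitalStarAlgebra.subset_adjoin ℂ _ ⟨a, ha, x * y, b, hb, ?_⟩,
        NonUnitalStarAlgebra.subset_adjoin ℂ _ ⟨a, ha, y * x, b, hb, ?_⟩⟩
      · rw [← mul_assoc, ← mul_assoc, ← mul_assoc, const_commute hx ha]
      · simp only [mul_assoc]
        rw [const_commute hx hb]
    | zero => exact fun x _ => by simp
    | add e f _ _ he hf =>
      exact fun x hx => ⟨by rw [mul_add]; exact add_mem (he x hx).1 (hf x hx).1,
        by rw [add_mul]; exact add_mem (he x hx).2 (hf x hx).2⟩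
    | smul c e _ he =>
      exact fun x hx => ⟨by rw [mul_smul_comm]; exact SMulMemClass.smul_mem c (he x hx).1,
        by rw [smul_mul_assoc]; exact SMulMemClass.smul_mem c (he x hx).2⟩
    | mul e f he hf ihe ihf =>
      exact fun x hx => ⟨by rw [← mul_assoc]; exact mul_mem (ihe x hx).1 hf,
        by rw [mul_assoc]; exact mul_mem he (ihf x hx).2⟩
    | star e _ he =>
      exact fun x hx => ⟨by simpa using star_mem (he (star x) (star_mem hx)).2,
        by simpa using star_mem (he (star x) (star_mem hx)).1⟩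
  have hd' : d ∈ closure (S : Set (SQ M ω)) := hd
  exact ⟨map_mem_closure (continuous_const_mul x) hd' fun e he => (key e he x hx).1,
    map_mem_closure (f := fun e => e * x) (continuous_mul_const x) hd' fun e he =>
      (key e he x hx).2⟩

/-- An element commuting with `J` as a pair of operators on the corner. -/
def cornerPair (x : relComm J ω) : DoubleCentralizer ℂ (corner J ω) where
  fst := LinearMap.mkContinuous
    { toFun := fun d => ⟨(x : SQ M ω) * (d : SQ M ω), (mul_mem_corner x.2 d.2).1⟩
      map_add' := fun d e => Subtype.ext (mul_add _ _ _)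
      map_smul' := fun c d => Subtype.ext (mul_smul_comm _ _ _) }
    ‖(x : SQ M ω)‖ fun d => norm_mul_le (x : SQ M ω) (d : SQ M ω)
  snd := LinearMap.mkContinuous
    { toFun := fun d => ⟨(d : SQ M ω) * (x : SQ M ω), (mul_mem_corner x.2 d.2).2⟩
      map_add' := fun d e => Subtype.ext (add_mul _ _ _)
      map_smul' := fun c d => Subtype.ext (smul_mul_assoc _ _ _) }
    ‖(x : SQ M ω)‖ fun d =>
      (norm_mul_le (d : SQ M ω) (x : SQ M ω)).trans_eq (mul_comm _ _)
  central d e := Subtype.ext (mul_assoc _ _ _)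

theorem cornerPair_fst (x : relComm J ω) (d : corner J ω) :
    (((cornerPair x).fst d : corner J ω) : SQ M ω) = (x : SQ M ω) * (d : SQ M ω) := rfl

theorem cornerPair_snd (x : relComm J ω) (d : corner J ω) :
    (((cornerPair x).snd d : corner J ω) : SQ M ω) = (d : SQ M ω) * (x : SQ M ω) := rfl

theorem pair_ext {a b : DoubleCentralizer ℂ (corner J ω)}
    (h₁ : ∀ d, ((a.fst d : corner J ω) : SQ M ω) = b.fst d)
    (h₂ : ∀ d, ((a.snd d : corner J ω) : SQ M ω) = b.snd d) : a = b :=
  DoubleCentralizer.ext ℂ _ a b (Prod.ext (ContinuousLinearMap.ext fun d => Subtype.ext (h₁ d))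
    (ContinuousLinearMap.ext fun d => Subtype.ext (h₂ d)))

variable (J ω) in
/-- The representation on the corner. -/
def cornerHom : relComm J ω →⋆ₐ[ℂ] DoubleCentralizer ℂ (corner J ω) where
  toFun := cornerPair
  map_one' := pair_ext (fun d => one_mul _) (fun d => mul_one _)
  map_mul' x y := pair_ext (fun d => mul_assoc _ _ _) (fun d => (mul_assoc _ _ _).symm)
  map_zero' := pair_ext (fun d => zero_mul _) (fun d => mul_zero _)
  map_add' x y := pair_ext (fun d => add_mul _ _ _) (fun d => mul_add _ _ _)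
  commutes' c := pair_ext
    (fun d => show algebraMap ℂ (SQ M ω) c * (d : SQ M ω) = c • (d : SQ M ω) from
      (Algebra.smul_def _ _).symm)
    (fun d => show (d : SQ M ω) * algebraMap ℂ (SQ M ω) c = c • (d : SQ M ω) from
      ((Algebra.smul_def _ _).trans (Algebra.commutes _ _)).symm)
  map_star' x := pair_ext
    (fun d => show star (x : SQ M ω) * (d : SQ M ω) = star (star (d : SQ M ω) * (x : SQ M ω)) by
      rw [star_mul, star_star])
    (fun d => show (d : SQ M ω) * star (x : SQ M ω) = star ((x : SQ M ω) * star (d : SQ M ω)) by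
      rw [star_mul, star_star])

variable (J ω) in
/-- The central sequence algebra relative to `J`. -/
abbrev CSeq : Type _ := (cornerHom J ω).range

instance : IsClosed ((cornerHom J ω).range : Set (DoubleCentralizer ℂ (corner J ω))) := by
  exact isClosed_range _

variable (J ω) in
/-- The bounded sequences commuting with `J` along `ω`. -/
def relSeq (hJs : ∀ a ∈ J, star a ∈ J) : StarSubalgebra ℂ (bseq M ω) where
  carrier := {x | ∀ a ∈ J, Tendsto (fun n => a * (x : ℕ → M) n - (x : ℕ → M) n * a) ω (𝓝 0)}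
  mul_mem' {x y} hx hy a ha := by
    obtain ⟨C, hC⟩ := x.2
    obtain ⟨D, hD⟩ := y.2
    have h : Tendsto (fun n => ‖a * (x : ℕ → M) n - (x : ℕ → M) n * a‖ * D +
        C * ‖a * (y : ℕ → M) n - (y : ℕ → M) n * a‖) ω (𝓝 0) := by
      simpa using (((hx a ha).norm.mul_const D).add ((hy a ha).norm.const_mul C))
    refine squeeze_zero_norm (fun n => ?_) h
    show ‖a * ((x : ℕ → M) n * (y : ℕ → M) n) - (x : ℕ → M) n * (y : ℕ → M) n * a‖ ≤ _
    rw [show a * ((x : ℕ → M) n * (y : ℕ → M) n) - (x : ℕ → M) n * (y : ℕ → M) n * a =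
      (a * (x : ℕ → M) n - (x : ℕ → M) n * a) * (y : ℕ → M) n +
        (x : ℕ → M) n * (a * (y : ℕ → M) n - (y : ℕ → M) n * a) by noncomm_ring]
    refine (norm_add_le _ _).trans (add_le_add ((norm_mul_le _ _).trans ?_)
      ((norm_mul_le _ _).trans ?_))
    · exact mul_le_mul_of_nonneg_left (hD n) (norm_nonneg _)
    · exact mul_le_mul_of_nonneg_right (hC n) (norm_nonneg _)
  one_mem' a _ := by simp
  add_mem' {x y} hx hy a ha := by
    have := (hx a ha).add (hy a ha)
    rw [add_zero] at this
    refine this.congr fun n => ?_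
    show _ = a * ((x : ℕ → M) n + (y : ℕ → M) n) - ((x : ℕ → M) n + (y : ℕ → M) n) * a
    noncomm_ring
  zero_mem' a _ := by simp
  algebraMap_mem' c a _ := by
    simp [Pi.algebraMap_apply, Algebra.commutes c a]
  star_mem' {x} hx a ha := by
    have := (hx (star a) (hJs a ha)).star.neg
    rw [star_zero, neg_zero] at this
    refine this.congr fun n => ?_
    simp [Pi.star_apply, star_sub, star_mul]

variable {hJs : ∀ a ∈ J, star a ∈ J}

theorem toSQ_mem_relComm (x : relSeq J ω hJs) : toSQ (x : bseq M ω) ∈ relComm J ω := by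
  rw [relComm, StarSubalgebra.mem_centralizer_iff]
  rintro _ ⟨a, ha, rfl⟩
  have key : ∀ a ∈ J, P101.SeqAlg.const ω a * toSQ (x : bseq M ω) =
      toSQ (x : bseq M ω) * P101.SeqAlg.const ω a := fun a ha => by
    show toSQ _ * _ = _ * toSQ _
    rw [← P101.SeqAlg.toSQ_mul, ← P101.SeqAlg.toSQ_mul, P101.SeqAlg.toSQ_eq_iff]
    exact x.2 a ha
  exact ⟨key a ha, by rw [← map_star]; exact key _ (hJs a ha)⟩

variable (hJs) in
/-- The class of a central sequence. -/
def toC : relSeq J ω hJs →⋆ₐ[ℂ] CSeq J ω where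
  toFun x := ⟨cornerHom J ω ⟨toSQ (x : bseq M ω), toSQ_mem_relComm x⟩, _, rfl⟩
  map_one' := Subtype.ext (map_one (cornerHom J ω))
  map_mul' x y := Subtype.ext ((congrArg (cornerHom J ω)
    (Subtype.ext (P101.SeqAlg.toSQ_mul (x : bseq M ω) (y : bseq M ω)))).trans (map_mul _ _ _))
  map_zero' := Subtype.ext (map_zero (cornerHom J ω))
  map_add' x y := Subtype.ext ((congrArg (cornerHom J ω)
    (Subtype.ext (P101.SeqAlg.toSQ_add (x : bseq M ω) (y : bseq M ω)))).trans (map_add _ _ _))
  commutes' c := Subtype.ext ((congrArg (cornerHom J ω)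
    (Subtype.ext (P101.SeqAlg.toSQ_algebraMap c))).trans (AlgHomClass.commutes _ _))
  map_star' x := Subtype.ext ((congrArg (cornerHom J ω)
    (Subtype.ext (P101.SeqAlg.star_toSQ (x : bseq M ω)).symm)).trans (map_star _ _))

variable (hJs) in
theorem toC_surjective : Function.Surjective (toC (ω := ω) hJs) := by
  rintro ⟨_, ⟨z, hz⟩, rfl⟩
  obtain ⟨x, rfl⟩ := P101.SeqAlg.toSQ_surjective z
  refine ⟨⟨x, fun a ha => ?_⟩, rfl⟩
  have h : toSQ ⟨fun _ => a, ‖a‖, fun _ => le_rfl⟩ * toSQ x =
      toSQ x * toSQ ⟨fun _ => a, ‖a‖, fun _ => le_rfl⟩ := const_commute hz ha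
  rwa [← P101.SeqAlg.toSQ_mul, ← P101.SeqAlg.toSQ_mul, P101.SeqAlg.toSQ_eq_iff] at h

/-- The kernel consists of the sequences null on `J`. -/
theorem toC_eq_zero_iff (hJm : ∀ a ∈ J, ∀ b ∈ J, a * b ∈ J) (x : relSeq J ω hJs) :
    toC hJs x = 0 ↔ NullOn J ω ((x : bseq M ω) : ℕ → M) := by
  set t := toSQ (x : bseq M ω) with ht
  set c : M → SQ M ω := fun a => P101.SeqAlg.const ω a with hc
  have hcomm : ∀ a ∈ J, c a * t = t * c a := fun a ha => const_commute (toSQ_mem_relComm x) ha
  have hr : ∀ a : M, t * c a = 0 ↔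
      Tendsto (fun n => ((x : bseq M ω) : ℕ → M) n * a) ω (𝓝 0) := fun a => by
    show toSQ _ * toSQ _ = 0 ↔ _
    rw [← P101.SeqAlg.toSQ_mul, ← P101.SeqAlg.toSQ_zero, P101.SeqAlg.toSQ_eq_iff]
    simp
  have hl : ∀ a : M, c a * t = 0 ↔
      Tendsto (fun n => a * ((x : bseq M ω) : ℕ → M) n) ω (𝓝 0) := fun a => by
    show toSQ _ * toSQ _ = 0 ↔ _
    rw [← P101.SeqAlg.toSQ_mul, ← P101.SeqAlg.toSQ_zero, P101.SeqAlg.toSQ_eq_iff]
    simp
  constructor
  · intro h a ha
    have h0 : cornerHom J ω ⟨t, toSQ_mem_relComm x⟩ = 0 := congrArg Subtype.val h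
    have hd : c a * 1 * c (star a * a) ∈ corner J ω :=
      subset_closure (NonUnitalStarAlgebra.subset_adjoin ℂ _
        ⟨a, ha, 1, _, hJm _ (hJs a ha) a ha, rfl⟩)
    have h1 : t * (c a * 1 * c (star a * a)) = 0 :=
      congrArg Subtype.val (congrArg (fun m => m.fst ⟨_, hd⟩) h0)
    have e : (t * c a) = 0 := by
      have h2 : (t * c a) * star (c a) * c a = 0 := by
        rw [mul_assoc (t * c a), mul_assoc t]
        have e' : star (c a) * c a = c (star a * a) := by simp [hc, map_star]
        rw [e']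
        simpa [mul_one] using h1
      have h3 : (t * c a * star (c a)) * star (t * c a * star (c a)) = 0 := by
        rw [star_mul, star_star, ← mul_assoc, h2, zero_mul]
      have h4 : t * c a * star (c a) = 0 := by
        exact norm_eq_zero.1 (mul_self_eq_zero.1 (by
          rw [← CStarRing.norm_self_mul_star, h3, norm_zero]))
      have h5 : (t * c a) * star (t * c a) = 0 := by
        rw [star_mul, ← mul_assoc, h4, zero_mul]
      exact norm_eq_zero.1 (mul_self_eq_zero.1 (by
        rw [← CStarRing.norm_self_mul_star, h5, norm_zero]))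
    exact ⟨(hr a).1 e, (hl a).1 (by rw [hcomm a ha, e])⟩
  · intro h
    have hs : ∀ a ∈ J, star t * c a = 0 ∧ c a * star t = 0 := fun a ha => by
      have e : c a = star (c (star a)) := by simp [hc, ← map_star]
      rw [e, ← star_mul, ← star_mul, (hl _).2 (h _ (hJs a ha)).2, (hr _).2 (h _ (hJs a ha)).1]
      simp
    set K : Set (SQ M ω) := {e | t * e = 0 ∧ e * t = 0 ∧ star t * e = 0 ∧ e * star t = 0}
    have hK : IsClosed K := (isClosed_eq (continuous_const_mul t) continuous_const).inter
      ((isClosed_eq (continuous_mul_const t) continuous_const).inter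
        ((isClosed_eq (continuous_const_mul (star t)) continuous_const).inter
          (isClosed_eq (continuous_mul_const (star t)) continuous_const)))
    have hsub : (NonUnitalStarAlgebra.adjoin ℂ (cornerGens J ω) : Set (SQ M ω)) ⊆ K := by
      intro e he
      induction he using NonUnitalStarAlgebra.adjoin_induction with
      | mem e he =>
        obtain ⟨a, ha, y, b, hb, rfl⟩ := he
        refine ⟨?_, ?_, ?_, ?_⟩
        · rw [← mul_assoc, ← mul_assoc, (hr a).2 (h a ha).1, zero_mul, zero_mul]
        · rw [mul_assoc, (hl b).2 (h b hb).2, mul_zero]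
        · rw [← mul_assoc, ← mul_assoc, (hs a ha).1, zero_mul, zero_mul]
        · rw [mul_assoc, (hs b hb).2, mul_zero]
      | zero => exact ⟨mul_zero _, zero_mul _, mul_zero _, zero_mul _⟩
      | add e f _ _ he hf =>
        exact ⟨by rw [mul_add, he.1, hf.1, add_zero], by rw [add_mul, he.2.1, hf.2.1, add_zero],
          by rw [mul_add, he.2.2.1, hf.2.2.1, add_zero],
          by rw [add_mul, he.2.2.2, hf.2.2.2, add_zero]⟩
      | smul r e _ he =>
        exact ⟨by rw [mul_smul_comm, he.1, smul_zero], by rw [smul_mul_assoc, he.2.1, smul_zero],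
          by rw [mul_smul_comm, he.2.2.1, smul_zero],
          by rw [smul_mul_assoc, he.2.2.2, smul_zero]⟩
      | mul e f _ _ he hf =>
        exact ⟨by rw [← mul_assoc, he.1, zero_mul], by rw [mul_assoc, hf.2.1, mul_zero],
          by rw [← mul_assoc, he.2.2.1, zero_mul], by rw [mul_assoc, hf.2.2.2, mul_zero]⟩
      | star e _ he =>
        exact ⟨by simpa using congrArg star he.2.2.2, by simpa using congrArg star he.2.2.1,
          by simpa using congrArg star he.2.1, by simpa using congrArg star he.1⟩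
    exact Subtype.ext (pair_ext (fun d => (closure_minimal hsub hK d.2).1)
      fun d => (closure_minimal hsub hK d.2).2.1)

variable (J ω hJs) in
/-- Invariant unital maps from `Z_{2^m,2^m+1}` into the relative central sequences. -/
def DropGoal {G : Type*} (α : G → M ≃⋆ₐ[ℂ] M) : Prop :=
  ∀ m : ℕ, 1 ≤ m → ∃ φ : P101.Drop.dropAlg (2 ^ m) (2 ^ m + 1) ℂ →⋆ₐ[ℂ] CSeq J ω,
    ∀ (g : G) z (x : relSeq J ω hJs), toC hJs x = φ z →
      NullOn J ω fun n => α g (((x : bseq M ω) : ℕ → M) n) - ((x : bseq M ω) : ℕ → M) n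

end Vale.Agent.P095.NU
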