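import Vale.Agent.P095.NU.Setting
import Vale.Agent.P095.Uni.Spread

/-!
# P095: averaging over cosets of the centrally trivial part, relative to `J`

The averages `∑ wᵢ α_{rᵢ} x` have Gram matrix close, in norm, to the weighted diagonal
`∑ wᵢ² α_{rᵢ} (x⋆ y)`; only that diagonal has to be read on elements of `J`.
-/

open scoped ComplexOrder
open Filter Topology

noncomputable section

namespace Vale.Agent.P095.NU

variable {G : Type*} [Group G] {M : Type*} [CStarAlgebra M] {J : Set M}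
variable {α : G → M ≃⋆ₐ[ℂ] M}

/-- The elements acting trivially on central sequences form a subgroup. -/
def trivialPart (hα : ∀ g h a, α (g * h) a = α g (α h a))
    (hmem : ∀ g, ∀ x ∈ J, α g x ∈ J) : Subgroup G where
  carrier := {g | CentrallyTrivial J (α g)}
  one_mem' := fun c _ ε hε => ⟨∅, 1, by simp, one_pos, fun x _ _ => by
    simp [AF.alpha_one hα, hε.le]⟩
  inv_mem' := by
    intro g hg c hc ε hε
    obtain ⟨F, δ, hFJ, hδ, hF⟩ := hg _ (hmem g c hc) ε hε
    refine ⟨F, δ, hFJ, hδ, fun x hx hcx => ?_⟩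
    rw [← StarAlgEquiv.norm_map (α g), map_mul, map_sub, AF.alpha_inv hα, ← neg_sub, neg_mul,
      norm_neg]
    exact hF x hx hcx
  mul_mem' := by
    classical
    intro g h hg hh c hc ε hε
    obtain ⟨F, δ, hFJ, hδ, hF⟩ := hg c hc (ε / 2) (half_pos hε)
    obtain ⟨F', δ', hFJ', hδ', hF'⟩ := hh _ (hmem g⁻¹ c hc) (ε / 2) (half_pos hε)
    refine ⟨F ∪ F', min δ δ', by rw [Finset.coe_union]; exact Set.union_subset hFJ hFJ',
      lt_min hδ hδ', fun x hx hcx => ?_⟩
    have h1 := hF x hx fun a ha => (hcx a (Finset.mem_union_left _ ha)).trans (min_le_left _ _)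
    have h2 := hF' x hx fun a ha => (hcx a (Finset.mem_union_right _ ha)).trans (min_le_right _ _)
    have e : (α (g * h) x - x) * c =
        α g ((α h x - x) * α g⁻¹ c) + (α g x - x) * c := by
      rw [map_mul, map_sub, AF.alpha_inv hα, hα]; noncomm_ring
    rw [e]
    refine (norm_add_le _ _).trans ?_
    rw [StarAlgEquiv.norm_map]
    linarith

/-- The bookkeeping of one Følner set. -/
structure Spread (J : Set M) (α : G → M ≃⋆ₐ[ℂ] M) (K : Finset G) (ε : ℝ) where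
  n : ℕ
  r : Fin n → G
  w : Fin n → ℝ
  w_sq : ∑ i, w i ^ 2 = 1
  moved : ∀ i j, i ≠ j → ¬CentrallyTrivial J (α ((r i)⁻¹ * r j))
  shift : ∀ k ∈ K, ∃ σ : Fin n → Fin n,
    (∀ i, w i ≠ 0 → CentrallyTrivial J (α ((r (σ i))⁻¹ * (k * r i)))) ∧
    ∑ j, ((∑ i ∈ Finset.univ.filter (fun i => σ i = j), w i) - w j) ^ 2 ≤ ε

theorem exists_spread (hG : IsAmenableGroup G)
    (hα : ∀ g h a, α (g * h) a = α g (α h a)) (hmem : ∀ g, ∀ x ∈ J, α g x ∈ J) (K : Finset G)
    {ε : ℝ} (hε : 0 < ε) : Nonempty (Spread J α K ε) := by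
  obtain ⟨n, r, w, h1, h2, h3⟩ :=
    Uni.exists_spread_subgroup hG (trivialPart hα hmem) K hε
  exact ⟨⟨n, r, w, h1, h2, h3⟩⟩

/-- A double sum with small terms off the diagonal. -/
theorem norm_gram_sub_le {S : Type*} [Fintype S] [DecidableEq S] (a : S → ℝ) (x y : S → M)
    {θ : ℝ} (hθ : 0 ≤ θ) (h : ∀ i j, i ≠ j → ‖star (x i) * y j‖ ≤ θ) :
    ‖star (∑ i, a i • x i) * (∑ i, a i • y i) - ∑ i, a i ^ 2 • (star (x i) * y i)‖ ≤
      (∑ i, |a i|) ^ 2 * θ := by
  have e : star (∑ i, a i • x i) * (∑ i, a i • y i) - ∑ i, a i ^ 2 • (star (x i) * y i) =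
      ∑ i, ∑ j, if i = j then 0 else (a i * a j) • (star (x i) * y j) := by
    rw [star_sum, Finset.sum_mul, ← Finset.sum_sub_distrib]
    refine Finset.sum_congr rfl fun i _ => ?_
    rw [Finset.mul_sum, ← Finset.sum_erase_add _ _ (Finset.mem_univ i),
      ← Finset.sum_erase_add (f := fun j => if i = j then 0 else (a i * a j) • (star (x i) * y j))
        _ (Finset.mem_univ i), if_pos rfl, add_zero, star_smul, star_trivial, smul_mul_smul_comm,
      ← sq, add_sub_cancel_right]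
    refine Finset.sum_congr rfl fun j hj => ?_
    rw [if_neg (Finset.ne_of_mem_erase hj).symm, smul_mul_smul_comm]
  rw [e, sq, Finset.sum_mul, Finset.sum_mul]
  refine norm_sum_le_of_le _ fun i _ => ?_
  rw [Finset.mul_sum, Finset.sum_mul]
  refine norm_sum_le_of_le _ fun j _ => ?_
  split_ifs with hij
  · rw [norm_zero]; positivity
  · rw [norm_smul, Real.norm_eq_abs, abs_mul]
    exact mul_le_mul_of_nonneg_left (h i j hij) (by positivity)

namespace Spread

variable {K : Finset G} {δ : ℝ} (P : Spread J α K δ)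

/-- The average of the translates of `x`. -/
def avg (x : M) : M := ∑ i, P.w i • α (P.r i) x

theorem abs_w_le (i : Fin P.n) : |P.w i| ≤ 1 := (sq_le_one_iff₀ (abs_nonneg _)).1 (by
  rw [sq_abs, ← P.w_sq]
  exact Finset.single_le_sum (f := fun i => P.w i ^ 2) (fun i _ => sq_nonneg _) (Finset.mem_univ i))

theorem sum_abs_le : ∑ i, |P.w i| ≤ P.n := by
  refine (Finset.sum_le_sum fun i _ => P.abs_w_le i).trans ?_
  simp

variable {θ : ℝ}

/-- A bound on every translate passes to the average. -/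
theorem norm_wsum_le (y : Fin P.n → M) (hθ : 0 ≤ θ) (h : ∀ i, P.w i ≠ 0 → ‖y i‖ ≤ θ) :
    ‖∑ i, P.w i • y i‖ ≤ P.n * θ := by
  refine (norm_sum_le_of_le _ (n := fun i => |P.w i| * θ) fun i _ => ?_).trans ?_
  · rw [norm_smul, Real.norm_eq_abs]
    by_cases hw : P.w i = 0
    · simp [hw]
    · exact mul_le_mul_of_nonneg_left (h i hw) (abs_nonneg _)
  · rw [← Finset.sum_mul]
    exact mul_le_mul_of_nonneg_right P.sum_abs_le hθ

theorem commutator_le (hα : ∀ g h a, α (g * h) a = α g (α h a)) (c x : M) (hθ : 0 ≤ θ)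
    (h : ∀ i, ‖α (P.r i)⁻¹ c * x - x * α (P.r i)⁻¹ c‖ ≤ θ) :
    ‖c * P.avg x - P.avg x * c‖ ≤ P.n * θ := by
  have e1 : c * P.avg x - P.avg x * c = ∑ i, P.w i • (c * α (P.r i) x - α (P.r i) x * c) := by
    simp only [avg, Finset.mul_sum, Finset.sum_mul, mul_smul_comm, smul_mul_assoc, smul_sub,
      Finset.sum_sub_distrib]
  rw [e1]
  refine P.norm_wsum_le _ hθ fun i _ => ?_
  have e2 : c * α (P.r i) x - α (P.r i) x * c =
      α (P.r i) (α (P.r i)⁻¹ c * x - x * α (P.r i)⁻¹ c) := by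
    rw [map_sub, map_mul, map_mul, AF.alpha_inv hα]
  rw [e2, StarAlgEquiv.norm_map]
  exact h i

theorem cross_le (hα : ∀ g h a, α (g * h) a = α g (α h a)) {x y : M}
    (ho : ∀ i j, i ≠ j → ‖star x * α ((P.r i)⁻¹ * P.r j) y‖ ≤ θ) (i j : Fin P.n) (hij : i ≠ j) :
    ‖star (α (P.r i) x) * α (P.r j) y‖ ≤ θ := by
  have e1 : star (α (P.r i) x) * α (P.r j) y =
      α (P.r i) (star x * α ((P.r i)⁻¹ * P.r j) y) := by
    rw [map_mul, map_star, ← hα (P.r i), mul_inv_cancel_left]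
  rw [e1, StarAlgEquiv.norm_map]
  exact ho i j hij

/-- The Gram matrix of averages is the averaged one. -/
theorem gram_le (hα : ∀ g h a, α (g * h) a = α g (α h a)) {x y : M} (hθ : 0 ≤ θ)
    (ho : ∀ i j, i ≠ j → ‖star x * α ((P.r i)⁻¹ * P.r j) y‖ ≤ θ) :
    ‖star (P.avg x) * P.avg y - ∑ i, P.w i ^ 2 • α (P.r i) (star x * y)‖ ≤
      (P.n : ℝ) ^ 2 * θ := by
  have h := norm_gram_sub_le P.w (fun i => α (P.r i) x) (fun i => α (P.r i) y) hθ (P.cross_le hα ho)
  simp only [← map_star, ← map_mul] at h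
  exact h.trans (mul_le_mul_of_nonneg_right
    (pow_le_pow_left₀ (Finset.sum_nonneg fun i _ => abs_nonneg _) P.sum_abs_le 2) hθ)

/-- The average is almost fixed, read on `c` from the right. -/
theorem invariant_le (hα : ∀ g h a, α (g * h) a = α g (α h a)) {k : G} {σ : Fin P.n → Fin P.n}
    (hσ : ∑ j, ((∑ i ∈ Finset.univ.filter (fun i => σ i = j), P.w i) - P.w j) ^ 2 ≤ δ)
    {x c : M} {B : ℝ} (hθ : 0 ≤ θ) (hB : 0 ≤ B) (hx : ‖star x * x‖ ≤ B)
    (ho : ∀ i j, i ≠ j → ‖star x * α ((P.r i)⁻¹ * P.r j) x‖ ≤ θ)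
    (hfix : ∀ i, P.w i ≠ 0 →
      ‖(α ((P.r (σ i))⁻¹ * (k * P.r i)) x - x) * α (P.r (σ i))⁻¹ c‖ ≤ θ) :
    ‖(α k (P.avg x) - P.avg x) * c‖ ≤
      P.n * θ + Real.sqrt (B * δ + 4 * (P.n : ℝ) ^ 2 * θ) * ‖c‖ := by
  set w' : Fin P.n → ℝ := fun j => ∑ i ∈ Finset.univ.filter (fun i => σ i = j), P.w i
  have e1 : α k (P.avg x) - P.avg x = (∑ i, P.w i • (α k (α (P.r i) x) - α (P.r (σ i)) x)) +
      ∑ j, (w' j - P.w j) • α (P.r j) x := by
    have e2 : ∑ i, P.w i • α (P.r (σ i)) x = ∑ j, w' j • α (P.r j) x := by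
      simp only [w', Finset.sum_smul]
      rw [← Finset.sum_fiberwise Finset.univ σ]
      refine Finset.sum_congr rfl fun j _ => Finset.sum_congr rfl fun i hi => ?_
      rw [(Finset.mem_filter.1 hi).2]
    have e0 : ∀ i, α k (P.w i • α (P.r i) x) = P.w i • α k (α (P.r i) x) := fun i => by
      rw [← Complex.coe_smul, map_smul, Complex.coe_smul]
    simp only [avg, map_sum, e0, smul_sub, sub_smul, Finset.sum_sub_distrib, e2]
    abel
  rw [e1, add_mul, Finset.sum_mul]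
  simp only [smul_mul_assoc]
  refine (norm_add_le _ _).trans (add_le_add (P.norm_wsum_le _ hθ fun i hi => ?_) ?_)
  · have e3 : (α k (α (P.r i) x) - α (P.r (σ i)) x) * c =
        α (P.r (σ i)) ((α ((P.r (σ i))⁻¹ * (k * P.r i)) x - x) * α (P.r (σ i))⁻¹ c) := by
      rw [map_mul, map_sub, ← hα (P.r (σ i)), mul_inv_cancel_left, hα, AF.alpha_inv hα]
    rw [e3, StarAlgEquiv.norm_map]
    exact hfix i hi
  refine (norm_mul_le _ _).trans (mul_le_mul_of_nonneg_right ?_ (norm_nonneg _))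
  set T := ∑ j, (w' j - P.w j) • α (P.r j) x
  refine Real.le_sqrt_of_sq_le ?_
  have h := norm_gram_sub_le (fun j => w' j - P.w j) (fun i => α (P.r i) x) (fun i => α (P.r i) x)
    hθ (P.cross_le hα ho)
  have h1 : ∑ j, |w' j - P.w j| ≤ 2 * P.n := by
    refine (Finset.sum_le_sum fun j _ => abs_sub (w' j) (P.w j)).trans ?_
    rw [Finset.sum_add_distrib]
    have h2 : ∑ j, |w' j| ≤ ∑ i, |P.w i| := by
      rw [← Finset.sum_fiberwise Finset.univ σ fun i => |P.w i|]
      exact Finset.sum_le_sum fun j _ => Finset.abs_sum_le_sum_abs _ _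
    linarith [P.sum_abs_le]
  have h3 : ‖∑ j, (w' j - P.w j) ^ 2 • (star (α (P.r j) x) * α (P.r j) x)‖ ≤ B * δ := by
    refine (norm_sum_le_of_le _ (n := fun j => (w' j - P.w j) ^ 2 * B) fun j _ => ?_).trans ?_
    · rw [norm_smul, Real.norm_of_nonneg (sq_nonneg _), ← map_star, ← map_mul,
        StarAlgEquiv.norm_map]
      exact mul_le_mul_of_nonneg_left hx (sq_nonneg _)
    · rw [← Finset.sum_mul, mul_comm]
      exact mul_le_mul_of_nonneg_left hσ hB
  rw [sq, ← CStarRing.norm_star_mul_self]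
  have h4 := norm_sub_norm_le (star T * T)
    (∑ j, (w' j - P.w j) ^ 2 • (star (α (P.r j) x) * α (P.r j) x))
  have h5 := mul_le_mul_of_nonneg_right
    (pow_le_pow_left₀ (Finset.sum_nonneg fun j _ => abs_nonneg _) h1 2) hθ
  nlinarith [h4.trans h]

end Spread

end Vale.Agent.P095.NU
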