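import Vale.Agent.P095.NU.Setting
import Vale.Agent.P095.NU.Spread
import Vale.Agent.P095.NU.Excise
import Vale.Agent.P095.NU.Compare
import Vale.Agent.P095.Uni.Levels

/-!
# P095: the case without traces, inside a simple essential ideal

Below an excising element there are orthogonal levels, each receiving an element `x` with
`x⋆ x` close to a bounded unit for the coefficients; spreading gives almost central, almost
invariant elements which are isometries with orthogonal ranges on given elements of `J`.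
-/

open scoped ComplexOrder
open Filter Topology

noncomputable section

namespace Vale.Agent.P095.NU

/-- Every bounded positive contraction almost embeds under every bounded element of norm one. -/
def EmbedsGoal {M : Type*} [CStarAlgebra M] [PartialOrder M] (J : Set M) : Prop :=
  ∀ a b : M, IsBdd J a → ‖a‖ ≤ 1 → IsBdd J b → ‖b‖ = 1 → ∀ ε : ℝ, 0 < ε →
    ∃ (η : ℝ) (x : M), 0 < η ∧ ‖star x * x - a‖ ≤ ε ∧ cfc (Uni.ramp η) b * x = x

namespace Inf

open Uni.Exc (Lev)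

variable {G M : Type*} [CStarAlgebra M] [PartialOrder M] [StarOrderedRing M] {J : Set M}
  {α : G → M ≃⋆ₐ[ℂ] M}

/-- The bounded local units used here. -/
abbrev HasUnits (J : Set M) : Prop :=
  ∀ c ∈ J, ∀ η : ℝ, 0 < η → ∃ v, IsBdd J v ∧ ‖v‖ ≤ 1 ∧ ‖v * c - c‖ ≤ η

theorem exists_units (hJ : IsBase J) (hu : HasUnits J) (C : Finset M) (hC : (↑C : Set M) ⊆ J)
    {η : ℝ} (hη : 0 < η) :
    ∃ v, IsBdd J v ∧ ‖v‖ ≤ 1 ∧ ∀ c ∈ C, ‖v * c - c‖ ≤ η := by
  set u : M := ∑ c ∈ C, c * star c with hudef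
  have huJ : u ∈ J := Finset.sum_induction _ (· ∈ J) (fun _ _ => hJ.add_mem) hJ.zero_mem
    fun c hc => hJ.mul_right _ (hC hc)
  obtain ⟨v, hv, hv1, hvu⟩ := hu u huJ (η ^ 2 / 2) (by positivity)
  refine ⟨v, hv, hv1, fun c hc => ?_⟩
  have hle : c * star c ≤ u :=
    Finset.single_le_sum (f := fun c => c * star c) (fun c _ => mul_star_self_nonneg c) hc
  refine (sq_le_sq₀ (norm_nonneg _) hη.le).1 ?_
  rw [sq, ← CStarRing.norm_self_mul_star]
  have e1 : (v * c - c) * star (v * c - c) = (v - 1) * (c * star c) * star (v - 1) := by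
    simp only [star_sub, star_mul, star_one]; noncomm_ring
  have e2 : (v - 1) * u * star (v - 1) = (v * u - u) * (v - 1) := by
    rw [star_sub, star_one, (IsSelfAdjoint.of_nonneg hv.2.1).star_eq, sub_mul v 1 u, one_mul]
  refine (CStarAlgebra.norm_le_norm_of_nonneg_of_le (mul_star_self_nonneg _) ?_).trans
    ((norm_mul_le (v * u - u) (v - 1)).trans ?_)
  · rw [e1, ← e2]
    exact star_right_conjugate_le_conjugate hle _
  · have h1 : ‖v - 1‖ ≤ 2 := by
      rcases subsingleton_or_nontrivial M with hM | hM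
      · rw [Subsingleton.elim (v - 1) 0, norm_zero]; norm_num
      · exact (norm_sub_le _ _).trans (by rw [CStarRing.norm_one]; linarith)
    calc ‖v * u - u‖ * ‖v - 1‖ ≤ η ^ 2 / 2 * 2 :=
          mul_le_mul hvu h1 (norm_nonneg _) (by positivity)
      _ = η ^ 2 := by ring

omit [PartialOrder M] [StarOrderedRing M] in
theorem no_corner (hfin : NoFinite J) {b : M} (hb : b ∈ J) (hbs : IsSelfAdjoint b) (hb0 : b ≠ 0) :
    ¬∀ a, ∃ c : ℂ, b * a * b = c • b := by
  intro h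
  refine hfin b hb hb0 (Submodule.finiteDimensional_of_le (S₂ := Submodule.span ℂ {b}) ?_)
  refine Submodule.span_le.2 ?_
  rintro _ ⟨a, rfl⟩
  obtain ⟨c, hc⟩ := h a
  show star b * a * b ∈ _
  rw [hbs.star_eq, hc]
  exact Submodule.smul_mem _ _ (Submodule.mem_span_singleton_self b)

omit [StarOrderedRing M] in
theorem exc_fix (E : Excision J α) : ∀ j, E.h 0 * E.h (j + 1) = E.h (j + 1)
  | 0 => E.nested 0
  | j + 1 => by rw [← E.nested (j + 1), ← mul_assoc, exc_fix E j]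

theorem norm_sq_h (E : Excision J α) (j : ℕ) : ‖E.h j * E.h j‖ = 1 := by
  conv_lhs => arg 1; arg 1; rw [← (IsSelfAdjoint.of_nonneg (E.nonneg j)).star_eq]
  rw [CStarRing.norm_star_mul_self, E.norm_eq, mul_one]

theorem φ_h_zero (E : Excision J α) : E.φ (E.h 0) = 1 := by
  have h1 := ((E.excise (E.h 0) (E.mem 0)).comp (tendsto_add_atTop_nat 1)).norm
  rw [norm_zero] at h1
  have h2 : ∀ j, ‖E.h (j + 1) * E.h 0 * E.h (j + 1) - E.φ (E.h 0) • (E.h (j + 1) * E.h (j + 1))‖ =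
      ‖1 - E.φ (E.h 0)‖ := fun j => by
    rw [mul_assoc _ (E.h 0), exc_fix E j]
    conv_lhs => arg 1; arg 1; rw [← one_smul ℂ (E.h (j + 1) * E.h (j + 1))]
    rw [← sub_smul, norm_smul, norm_sq_h, mul_one]
  simp only [Function.comp_def, h2] at h1
  exact (sub_eq_zero.1 (norm_eq_zero.1 (tendsto_nhds_unique tendsto_const_nhds h1))).symm

theorem top_fixes {D : Lev M} {η : ℝ} (hη : 0 < η) {x : M}
    (hx : cfc (Uni.ramp η) D.b * x = x) : D.top * x = x := by
  have h := Uni.Exc.mul_cfc_eq (IsSelfAdjoint.of_nonneg D.b_nonneg) D.top_mul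
    (f := Uni.ramp η) (by unfold Uni.ramp; fun_prop) (half_pos hη) fun t ht => by
      have h1 : 2 * t / η - 1 ≤ 0 := by
        rw [sub_nonpos, div_le_one hη]; linarith [le_abs_self t]
      simp [Uni.ramp, max_eq_left h1]
  rw [← hx, ← mul_assoc, h]

/-- Elements under orthogonal levels below `h k`, with `x⋆ x` close to `u`. -/
theorem exists_levels (hJ : IsBase J) (hfin : NoFinite J) (hc : EmbedsGoal J) (E : Excision J α)
    (k : ℕ) {u : M} (hub : IsBdd J u) (hu1 : ‖u‖ ≤ 1) (N : ℕ) {θ : ℝ} (hθ : 0 < θ) :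
    ∃ x : Fin N → M, (∀ a, E.h k * x a = x a) ∧
      ∀ a b, ‖star (x a) * x b - (if a = b then u else 0)‖ ≤ θ := by
  let L : Lev M := ⟨E.h k, E.h (k + 1), E.nonneg k, (E.norm_eq k).le, E.nonneg _, E.norm_eq _,
    E.nested k⟩
  set PJ : Lev M → Prop := fun D => D.top ∈ J ∧ D.top ≤ E.h 0
  have hPL : PJ L := by
    refine ⟨E.mem k, ?_⟩
    rcases k with _ | k
    · exact le_rfl
    · let L₀ : Lev M := ⟨E.h 0, E.h 1, E.nonneg 0, (E.norm_eq 0).le, E.nonneg _, E.norm_eq _,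
        E.nested 0⟩
      have hb : Lev.Below ⟨E.h (k + 1), E.h (k + 2), E.nonneg _, (E.norm_eq _).le, E.nonneg _,
        E.norm_eq _, E.nested _⟩ L₀ := exc_fix E k
      exact hb.le_sq.1.trans L₀.sq_le
  have hPD : ∀ D L : Lev M, D.Below L → PJ L → PJ D := fun D L hD hL =>
    ⟨Exc.mem_of_below hJ hD hL.1, (hD.le_sq.1.trans L.sq_le).trans hL.2⟩
  have hbJ : ∀ D : Lev M, PJ D → D.b ∈ J := fun D hD => by
    rw [← D.top_mul]
    exact hJ.mul_right _ hD.1
  obtain ⟨D, hD, hDo⟩ := Uni.Exc.exists_orth_of PJ hPD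
    (fun D hD => no_corner hfin (hbJ D hD) (IsSelfAdjoint.of_nonneg D.b_nonneg)
      fun h => by simpa [h] using D.norm_b) N L hPL
  have hDb : ∀ a, IsBdd J (D a).b := fun a => by
    have hP' := hPD _ L (hD a) hPL
    refine ⟨hbJ _ hP', (D a).b_nonneg, fun p hp hp0 hpn => ?_⟩
    obtain ⟨n, s, hs⟩ := E.bdd.2.2 p hp hp0 hpn
    refine ⟨n, s, le_trans ?_ (hP'.2.trans hs)⟩
    have h1 := conjugate_le_conjugate_of_nonneg
      ((CStarAlgebra.norm_le_one_iff_of_nonneg _ (D a).b_nonneg).1 (D a).norm_b.le)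
      (D a).top_nonneg
    have h2 : (D a).top * (D a).b * (D a).top = (D a).b := by
      have h3 := congrArg star (D a).top_mul
      rw [star_mul, (D a).sa, (IsSelfAdjoint.of_nonneg (D a).b_nonneg).star_eq] at h3
      rw [(D a).top_mul, h3]
    rw [h2, mul_one] at h1
    exact h1.trans (D a).sq_le
  choose η x hη hx hxD using fun a : Fin N =>
    hc u (D a).b hub hu1 (hDb a) (D a).norm_b θ hθ
  have hDx : ∀ a, (D a).top * x a = x a := fun a => top_fixes (hη a) (hxD a)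
  set h := E.h k
  have hh : star h = h := (IsSelfAdjoint.of_nonneg (E.nonneg k)).star_eq
  have hhx : ∀ a, h * x a = x a := fun a => by
    rw [← hDx a, ← mul_assoc]
    exact congrArg (· * x a) (hD a)
  have hxx : ∀ a b, ‖star (x a) * x b - (if a = b then u else 0)‖ ≤ θ := fun a b => by
    by_cases hab : a = b
    · subst hab; rw [if_pos rfl]; exact hx a
    · have e : star (x a) * x b = star (x a) * ((D a).top * (D b).top) * x b := by
        have h1 := congrArg star (hDx a)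
        rw [star_mul, (D a).sa] at h1
        rw [← mul_assoc, h1, mul_assoc, hDx]
      rw [if_neg hab, e, hDo a b hab]
      simpa using hθ.le
  exact ⟨x, hhx, hxx⟩

omit [PartialOrder M] [StarOrderedRing M] in
theorem mid_le {h z xa xb u w : M} {φ : ℂ} {p : Prop} [Decidable p] {θ₂ θ₃ R : ℝ}
    (hh : star h = h) (hxa : h * xa = xa) (hxb : h * xb = xb) (hn : ‖xa‖ * ‖xb‖ ≤ 2)
    (hR : 0 ≤ R) (hex : ‖h * z * h - φ • (h * h)‖ ≤ θ₂) (hφ : ‖φ‖ ≤ R)
    (hxx : ‖star xa * xb - (if p then u else 0)‖ ≤ θ₃) (huw : ‖u * w - w‖ ≤ θ₃) :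
    ‖star xa * z * xb * w - φ • (if p then w else 0)‖ ≤
      (2 * θ₂ + 2 * R * θ₃) * (‖w‖ + 1) := by
  have hxh : star xa * h = star xa := by
    have h1 := congrArg star hxa
    rwa [star_mul, hh] at h1
  have hθ₂ : 0 ≤ θ₂ := (norm_nonneg _).trans hex
  have hθ₃ : 0 ≤ θ₃ := (norm_nonneg _).trans huw
  have e : star xa * z * xb * w - φ • (if p then w else 0) =
      star xa * (h * z * h - φ • (h * h)) * xb * w +
        φ • ((star xa * xb - (if p then u else 0)) * w + if p then u * w - w else 0) := by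
    have h1 : star xa * (h * z * h) * xb = star xa * z * xb :=
      calc _ = star xa * h * z * (h * xb) := by simp only [mul_assoc]
        _ = _ := by rw [hxh, hxb]
    have h2 : star xa * (h * h) * xb = star xa * xb :=
      calc _ = star xa * h * (h * xb) := by simp only [mul_assoc]
        _ = _ := by rw [hxh, hxb]
    rw [mul_sub, sub_mul (star xa * (h * z * h)), mul_smul_comm, smul_mul_assoc, h1, h2]
    split_ifs <;>
      simp only [sub_mul, smul_mul_assoc, smul_sub, smul_add, smul_zero, zero_mul] <;> abel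
  rw [e]
  have hn' : ‖star xa * (h * z * h - φ • (h * h)) * xb‖ ≤ 2 * θ₂ := by
    refine norm_mul₃_le.trans ?_
    rw [norm_star, mul_right_comm]
    exact mul_le_mul hn hex (norm_nonneg _) zero_le_two
  have hucj : ‖if p then u * w - w else 0‖ ≤ θ₃ := by
    split_ifs
    · exact huw
    · simpa using hθ₃
  have h5 : ‖(star xa * xb - (if p then u else 0)) * w + if p then u * w - w else 0‖ ≤
      2 * θ₃ * (‖w‖ + 1) := by
    refine (norm_add_le _ _).trans ((add_le_add ((norm_mul_le _ _).trans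
      (mul_le_mul_of_nonneg_right hxx (norm_nonneg _))) hucj).trans ?_)
    nlinarith [norm_nonneg w]
  refine (norm_add_le _ _).trans ((add_le_add ((norm_mul_le _ _).trans
    (mul_le_mul hn' (le_add_of_nonneg_right zero_le_one) (norm_nonneg _) (by positivity)))
    ((norm_smul _ _).trans_le (mul_le_mul hφ h5 (norm_nonneg _) hR))).trans ?_)
  linarith

omit [PartialOrder M] [StarOrderedRing M] in
theorem gram_expand {m : ℕ} (c d : Fin m → M) {v : M} (hv : star v = v) (y xa xb : M)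
    (φ : Fin m → Fin m → ℂ) (p : Prop) [Decidable p] :
    star (∑ i, v * d i * xa * c i) * y * (∑ i, v * d i * xb * c i) -
        (if p then ∑ i, ∑ j, φ i j • (star (c i) * c j) else 0) =
      ∑ i, ∑ j, star (c i) * (star xa * (star (d i) * (v * y * v) * d j) * xb * c j -
        φ i j • (if p then c j else 0)) := by
  simp only [mul_sub, mul_smul_comm, Finset.sum_sub_distrib, star_sum, Finset.sum_mul,
    Finset.mul_sum]
  congr 1
  · rw [Finset.sum_comm]
    refine Finset.sum_congr rfl fun i _ => Finset.sum_congr rfl fun j _ => ?_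
    simp only [star_mul, hv, mul_assoc]
  · split_ifs <;> simp

omit [PartialOrder M] [StarOrderedRing M] in
theorem double_le {m : ℕ} (c : Fin m → M) (F : Fin m → Fin m → M) {γ : ℝ} (hγ : 0 ≤ γ)
    (hF : ∀ i j, ‖F i j‖ ≤ (‖c i‖ + 1) * γ * (‖c j‖ + 1)) :
    ‖∑ i, ∑ j, F i j‖ ≤ (1 + ∑ i, (‖c i‖ + 1)) ^ 2 * γ := by
  refine (norm_sum_le_of_le _ (n := fun i => ∑ j, (‖c i‖ + 1) * γ * (‖c j‖ + 1))
    fun i _ => norm_sum_le_of_le _ fun j _ => hF i j).trans ?_
  rw [← Finset.sum_mul_sum, ← Finset.sum_mul, mul_right_comm]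
  refine mul_le_mul_of_nonneg_right ?_ hγ
  rw [sq]
  exact mul_le_mul (le_add_of_nonneg_left zero_le_one) (le_add_of_nonneg_left zero_le_one)
    (Finset.sum_nonneg fun _ _ => by positivity) (by positivity)

omit [PartialOrder M] [StarOrderedRing M] in
theorem sandwich_le {m : ℕ} (c d : Fin m → M) {v : M} (hv : star v = v) (y xa xb : M)
    (φ : Fin m → Fin m → ℂ) (p : Prop) [Decidable p] {γ : ℝ} (hγ : 0 ≤ γ)
    (hmid : ∀ i j, ‖star xa * (star (d i) * (v * y * v) * d j) * xb * c j -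
      φ i j • (if p then c j else 0)‖ ≤ γ * (‖c j‖ + 1)) :
    ‖star (∑ i, v * d i * xa * c i) * y * (∑ i, v * d i * xb * c i) -
        (if p then ∑ i, ∑ j, φ i j • (star (c i) * c j) else 0)‖ ≤
      (1 + ∑ i, (‖c i‖ + 1)) ^ 2 * γ := by
  rw [gram_expand c d hv]
  refine double_le c _ hγ fun i j => (norm_mul_le _ _).trans ?_
  rw [norm_star, mul_assoc (‖c i‖ + 1)]
  exact mul_le_mul (le_add_of_nonneg_right zero_le_one) (hmid i j) (norm_nonneg _) (by positivity)

omit [PartialOrder M] [StarOrderedRing M] in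
theorem moved_expand {m : ℕ} (c e : Fin m → M) (σ : M ≃⋆ₐ[ℂ] M) {h xa xb : M}
    (hxh : star xa * h = star xa) (hxb : h * xb = xb) :
    star (∑ i, e i * xa * c i) * σ (∑ i, e i * xb * c i) = ∑ i, ∑ j, star (c i) *
      (star xa * (h * (star (e i) * σ (e j)) * σ h) * σ xb) * σ (c j) := by
  rw [star_sum, map_sum, Finset.sum_mul]
  refine Finset.sum_congr rfl fun i _ => ?_
  rw [Finset.mul_sum]
  refine Finset.sum_congr rfl fun j _ => ?_
  have e3 : star xa * (h * (star (e i) * σ (e j)) * σ h) * σ xb =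
      star xa * h * (star (e i) * σ (e j)) * σ (h * xb) := by
    rw [map_mul]; simp only [mul_assoc]
  rw [e3, hxh, hxb]
  simp only [star_mul, map_mul, mul_assoc]

omit [PartialOrder M] [StarOrderedRing M] in
theorem comm_sq_le {c s : M} {β : ℝ} (b1 : ‖star s * (star c * c) * s - star c * c‖ ≤ β)
    (b2 : ‖star s * star c * s - star c‖ ≤ β) (b3 : ‖star s * c * s - c‖ ≤ β)
    (b4 : ‖(star s * s - 1) * c‖ ≤ β) : ‖c * s - s * c‖ ^ 2 ≤ β * (1 + 3 * ‖c‖) := by
  rw [sq, ← CStarRing.norm_star_mul_self]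
  have e : star (c * s - s * c) * (c * s - s * c) =
      (star s * (star c * c) * s - star c * c) - (star s * star c * s - star c) * c -
      star c * (star s * c * s - c) + star c * ((star s * s - 1) * c) := by
    simp only [star_sub, star_mul]; noncomm_ring
  rw [e]
  have n2 : ‖(star s * star c * s - star c) * c‖ ≤ β * ‖c‖ :=
    (norm_mul_le _ _).trans (mul_le_mul_of_nonneg_right b2 (norm_nonneg _))
  have n3 : ‖star c * (star s * c * s - c)‖ ≤ ‖c‖ * β :=
    (norm_mul_le _ _).trans (by rw [norm_star]; exact mul_le_mul_of_nonneg_left b3 (norm_nonneg _))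
  have n4 : ‖star c * ((star s * s - 1) * c)‖ ≤ ‖c‖ * β :=
    (norm_mul_le _ _).trans (by rw [norm_star]; exact mul_le_mul_of_nonneg_left b4 (norm_nonneg _))
  refine (norm_add_le _ _).trans ?_
  refine (add_le_add ((norm_sub_le _ _).trans (add_le_add ((norm_sub_le _ _).trans
    (add_le_add b1 n2)) n3)) n4).trans ?_
  linarith

/-- The seed: `s⋆ y s` is close to `v y v` on the diagonal and to zero off it. -/
theorem exists_seed (hJ : IsBase J) (hfin : NoFinite J) (hu : HasUnits J)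
    (he : ExciseGoal J α) (ho : OneStepGoal J) (hc : EmbedsGoal J) (N : ℕ) (Y : Finset M)
    {v : M} (hvJ : v ∈ J) (hvs : star v = v) (P : Finset G)
    (hP : ∀ r ∈ P, ¬CentrallyTrivial J (α r)) {θ₀ : ℝ} (hθ₀ : 0 < θ₀) :
    ∃ s : Fin N → M,
      (∀ y ∈ Y, ∀ a b, ‖star (s a) * y * s b - (if a = b then v * y * v else 0)‖ ≤ θ₀) ∧
      ∀ r ∈ P, ∀ a b, ‖star (s a) * α r (s b)‖ ≤ θ₀ := by
  classical
  obtain ⟨E⟩ := he
  set C' : Finset M := Y.image fun y => v * y * v with hC'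
  have hC'J : (↑C' : Set M) ⊆ J := by
    intro y hy
    obtain ⟨z, -, rfl⟩ := Finset.mem_image.1 hy
    exact hJ.mul_left _ hvJ
  obtain ⟨m, d, c, hdcJ, hdc⟩ := ho E.φ E.φ_one E.φ_nonneg
    ⟨E.h 0, E.mem 0, (E.norm_eq 0).le, φ_h_zero E⟩ C' hC'J (θ₀ / 4) (by positivity)
  set B : ℝ := 1 + ∑ i, (‖c i‖ + 1)
  have hB0 : 1 ≤ B :=
    le_add_of_nonneg_right (Finset.sum_nonneg fun _ _ => by positivity)
  set R : ℝ := 2 + ∑ y ∈ C', ∑ i, ∑ j, ‖star (d i) * y * d j‖
  have hR : 2 ≤ R := le_add_of_nonneg_right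
    (Finset.sum_nonneg fun _ _ => Finset.sum_nonneg fun _ _ => Finset.sum_nonneg fun _ _ =>
      norm_nonneg _)
  set θ₂ := min 1 (θ₀ / (8 * B ^ 2)) with hθ₂
  have hθ₂0 : 0 < θ₂ := lt_min one_pos (by positivity)
  set θ₃ := min 1 (θ₀ / (8 * B ^ 2 * (R + 1)))
  have hθ₃0 : 0 < θ₃ := lt_min one_pos (by positivity)
  obtain ⟨u, hub, hu1, huc⟩ := exists_units hJ hu (Finset.univ.image c)
    (fun y hy => by
      obtain ⟨i, -, rfl⟩ := Finset.mem_image.1 hy
      exact (hdcJ i).2) hθ₃0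
  -- the excising element
  have E1 : ∀ᶠ k in atTop, ∀ y : C', ∀ i j,
      ‖E.h k * (star (d i) * y * d j) * E.h k -
        E.φ (star (d i) * y * d j) • (E.h k * E.h k)‖ ≤ θ₂ :=
    eventually_all.2 fun y => eventually_all.2 fun i => eventually_all.2 fun j => by
      have h := (E.excise (star (d i) * (y : M) * d j) (hJ.mul_left _ (hdcJ j).1)).norm
      rw [norm_zero] at h
      exact h.eventually (eventually_le_nhds hθ₂0)
  have E2 : ∀ᶠ k in atTop, ∀ r : P, ∀ i j,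
      ‖E.h k * (star (v * d i) * α r (v * d j)) * α r (E.h k)‖ ≤ θ₂ :=
    eventually_all.2 fun r => eventually_all.2 fun i => eventually_all.2 fun j => by
      have h := (E.moved r (hP r r.2) (star (v * d i) * α r (v * d j))
        (hJ.mul_right _ (hJ.star_mem (hJ.mul_left v (hdcJ i).1)))).norm
      rw [norm_zero] at h
      exact h.eventually (eventually_le_nhds hθ₂0)
  obtain ⟨k, hk1, hk2⟩ := (E1.and E2).exists
  obtain ⟨x, hhx, hxx⟩ := exists_levels hJ hfin hc E k hub hu1 N hθ₃0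
  set h := E.h k
  have hh : star h = h := (IsSelfAdjoint.of_nonneg (E.nonneg k)).star_eq
  have hxh : ∀ a, star (x a) * h = star (x a) := fun a => by
    have h1 := congrArg star (hhx a)
    rwa [star_mul, hh] at h1
  have hxn : ∀ a, ‖x a‖ ^ 2 ≤ 2 := fun a => by
    rw [sq, ← CStarRing.norm_star_mul_self]
    have h1 := norm_le_norm_add_norm_sub' (star (x a) * x a) u
    have h2 := hxx a a
    rw [if_pos rfl] at h2
    linarith [h2, min_le_left (1 : ℝ) (θ₀ / (8 * B ^ 2 * (R + 1)))]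
  have hxn2 : ∀ a b, ‖x a‖ * ‖x b‖ ≤ 2 := fun a b => by
    nlinarith [hxn a, hxn b, sq_nonneg (‖x a‖ - ‖x b‖)]
  -- the middle of each term
  have mid : ∀ y ∈ C', ∀ i j a b, ‖star (x a) * (star (d i) * y * d j) * x b * c j -
      E.φ (star (d i) * y * d j) • (if a = b then c j else 0)‖ ≤
        (2 * θ₂ + 2 * (R + 1) * θ₃) * (‖c j‖ + 1) := by
    intro y hy i j a b
    set z := star (d i) * y * d j with hz
    have hex := hk1 ⟨y, hy⟩ i j
    have hφz : ‖E.φ z‖ ≤ R + 1 := by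
      have h1 : ‖h * z * h‖ ≤ ‖z‖ := norm_mul₃_le.trans (by rw [E.norm_eq, one_mul, mul_one])
      have h2 : ‖E.φ z • (h * h)‖ = ‖E.φ z‖ := by rw [norm_smul, norm_sq_h, mul_one]
      have h3 : ‖z‖ ≤ R := by
        refine le_trans ?_ (le_add_of_nonneg_left zero_le_two)
        refine le_trans ?_ (Finset.single_le_sum (f := fun y => ∑ i, ∑ j, ‖star (d i) * y * d j‖)
          (fun _ _ => by positivity) hy)
        refine le_trans ?_ (Finset.single_le_sum (f := fun i => ∑ j, ‖star (d i) * y * d j‖)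
          (fun _ _ => by positivity) (Finset.mem_univ i))
        exact Finset.single_le_sum (f := fun j => ‖star (d i) * y * d j‖)
          (fun _ _ => norm_nonneg _) (Finset.mem_univ j)
      have h4 := norm_le_norm_add_norm_sub' (E.φ z • (h * h)) (h * z * h)
      rw [norm_sub_rev] at h4
      linarith [min_le_left (1 : ℝ) (θ₀ / (8 * B ^ 2))]
    exact mid_le hh (hhx a) (hhx b) (hxn2 a b) (by linarith) hex hφz (hxx a b)
      (huc _ (Finset.mem_image_of_mem c (Finset.mem_univ j)))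
  set s : Fin N → M := fun a => ∑ i, v * d i * x a * c i
  have hsy : ∀ y ∈ Y, ∀ a b,
      ‖star (s a) * y * s b - (if a = b then v * y * v else 0)‖ ≤ θ₀ := by
    intro y hy a b
    have hy' : v * y * v ∈ C' := Finset.mem_image_of_mem (fun y => v * y * v) hy
    set y' := v * y * v with hy'def
    set S := ∑ i, ∑ j, E.φ (star (d i) * y' * d j) • (star (c i) * c j)
    have h1 : ‖star (s a) * y * s b - (if a = b then S else 0)‖ ≤
        B ^ 2 * (2 * θ₂ + 2 * (R + 1) * θ₃) :=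
      sandwich_le c d hvs y (x a) (x b) _ (a = b) (by positivity) fun i j => mid y' hy' i j a b
    have h2 : ‖S - y'‖ ≤ θ₀ / 4 := hdc y' hy'
    have h3 : ‖(if a = b then S else 0) - (if a = b then y' else 0)‖ ≤ θ₀ / 4 := by
      split_ifs
      · exact h2
      · rw [sub_zero, norm_zero]; positivity
    have h4 : B ^ 2 * (2 * θ₂) ≤ θ₀ / 4 := by
      have := min_le_right (1 : ℝ) (θ₀ / (8 * B ^ 2))
      rw [← hθ₂, le_div_iff₀ (by positivity)] at this
      linarith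
    have h5 : B ^ 2 * (2 * (R + 1) * θ₃) ≤ θ₀ / 4 := by
      have h6 : θ₃ ≤ θ₀ / (8 * B ^ 2 * (R + 1)) := min_le_right _ _
      rw [le_div_iff₀ (by positivity)] at h6
      linarith
    rw [mul_add] at h1
    linarith [norm_sub_le_norm_sub_add_norm_sub (star (s a) * y * s b)
      (if a = b then S else 0) (if a = b then y' else 0)]
  refine ⟨s, hsy, fun r hr a b => ?_⟩
  have e : star (s a) * α r (s b) = ∑ i, ∑ j, star (c i) *
      (star (x a) * (h * (star (v * d i) * α r (v * d j)) * α r h) * α r (x b)) * α r (c j) :=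
    moved_expand c (fun i => v * d i) (α r) (hxh a) (hhx b)
  rw [e]
  refine (double_le c _ (show (0 : ℝ) ≤ 2 * θ₂ by positivity) fun i j => norm_mul₃_le.trans ?_).trans ?_
  · rw [norm_star, StarAlgEquiv.norm_map]
    refine mul_le_mul (mul_le_mul (le_add_of_nonneg_right zero_le_one) (norm_mul₃_le.trans ?_)
      (norm_nonneg _) (by positivity)) (le_add_of_nonneg_right zero_le_one) (norm_nonneg _)
      (by positivity)
    rw [norm_star, StarAlgEquiv.norm_map, mul_right_comm]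
    exact mul_le_mul (hxn2 a b) (hk2 ⟨r, hr⟩ i j) (norm_nonneg _) zero_le_two
  · have := min_le_right (1 : ℝ) (θ₀ / (8 * B ^ 2))
    rw [← hθ₂, le_div_iff₀ (by positivity)] at this
    linarith

/-- Almost isometries with orthogonal ranges on `C`, almost commuting with it and moved by `P`. -/
theorem exists_family (hJ : IsBase J) (hfin : NoFinite J) (hu : HasUnits J)
    (he : ExciseGoal J α) (ho : OneStepGoal J) (hc : EmbedsGoal J) (N : ℕ) (C : Finset M)
    (hC : (↑C : Set M) ⊆ J) (P : Finset G) (hP : ∀ r ∈ P, ¬CentrallyTrivial J (α r)) {θ : ℝ}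
    (hθ : 0 < θ) :
    ∃ s : Fin N → M, (∀ a, ‖star (s a) * s a‖ ≤ 1 + θ) ∧
      (∀ c ∈ C, ∀ a b, ‖(star (s a) * s b - if a = b then 1 else 0) * c‖ ≤ θ) ∧
      (∀ c ∈ C, ∀ a, ‖c * s a - s a * c‖ ≤ θ) ∧
      ∀ r ∈ P, ∀ a b, ‖star (s a) * α r (s b)‖ ≤ θ := by
  classical
  set BC : ℝ := 1 + ∑ c ∈ C, ‖c‖
  have hBC : 1 ≤ BC := le_add_of_nonneg_right (Finset.sum_nonneg fun _ _ => norm_nonneg _)
  set β := min θ (θ ^ 2 / (BC + 1) ^ 2)
  have hβ : 0 < β := lt_min hθ (by positivity)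
  set θ₀ := β / (4 * BC) with hθ₀def
  have hθ₀ : 0 < θ₀ := by positivity
  -- the unit and the elements for the one step approximation
  set Y : Finset M := C ∪ C.image (fun c => star c) ∪ C.image fun c => star c * c with hY
  have hYs : ∀ y ∈ Y, star y ∈ Y := by
    intro y hy
    simp only [hY, Finset.mem_union, Finset.mem_image] at hy ⊢
    rcases hy with (hy | ⟨c, hc, rfl⟩) | ⟨c, hc, rfl⟩
    · exact Or.inl (Or.inr ⟨y, hy, rfl⟩)
    · exact Or.inl (Or.inl (by rwa [star_star]))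
    · exact Or.inr ⟨c, hc, by simp⟩
  have hYJ : (↑Y : Set M) ⊆ J := by
    intro y hy
    simp only [hY, Finset.coe_union, Finset.coe_image, Set.mem_union, Set.mem_image] at hy
    rcases hy with (hy | ⟨c, hc, rfl⟩) | ⟨c, hc, rfl⟩
    · exact hC hy
    · exact hJ.star_mem (hC hc)
    · exact hJ.mul_left _ (hC hc)
  obtain ⟨v, hvb, hv1, hvY⟩ := exists_units hJ hu Y hYJ hθ₀
  have hvs : star v = v := (IsSelfAdjoint.of_nonneg hvb.2.1).star_eq
  have hYv : ∀ y ∈ Y, ‖y * v - y‖ ≤ θ₀ := fun y hy => by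
    rw [← norm_star, star_sub, star_mul, hvs]
    exact hvY _ (hYs y hy)
  have hvyv : ∀ y ∈ Y, ‖v * y * v - y‖ ≤ 2 * θ₀ := fun y hy => by
    have e : v * y * v - y = (v * y - y) * v + (y * v - y) := by noncomm_ring
    rw [e]
    refine (norm_add_le _ _).trans ?_
    linarith [hYv y hy, (norm_mul_le (v * y - y) v).trans
      ((mul_le_of_le_one_right (norm_nonneg _) hv1).trans (hvY y hy))]
  obtain ⟨s, hsy, hsm⟩ :=
    exists_seed hJ hfin hu he ho hc N (insert 1 Y) hvb.1 hvs P hP hθ₀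
  have hθ₀β : θ₀ * (4 * BC) = β := div_mul_cancel₀ _ (by positivity)
  have hss : ∀ a, ‖star (s a) * s a‖ ≤ 1 + θ₀ := fun a => by
    have h1 := hsy 1 (Finset.mem_insert_self _ _) a a
    rw [if_pos rfl, mul_one, mul_one] at h1
    have h2 := (norm_mul_le v v).trans (mul_le_one₀ hv1 (norm_nonneg _) hv1)
    linarith [norm_le_norm_add_norm_sub' (star (s a) * s a) (v * v)]
  have hBc : ∀ c₁ ∈ C, ‖c₁‖ + 1 ≤ BC := fun c₁ hc₁ => by
    have := Finset.single_le_sum (f := fun c : M => ‖c‖) (fun _ _ => norm_nonneg _) hc₁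
    linarith
  have hgram : ∀ c₁ ∈ C, ∀ a b,
      ‖(star (s a) * s b - if a = b then 1 else 0) * c₁‖ ≤ β := by
    intro c₁ hc₁ a b
    have hm : c₁ ∈ Y := Finset.mem_union_left _ (Finset.mem_union_left _ hc₁)
    have h1 := hsy 1 (Finset.mem_insert_self _ _) a b
    rw [mul_one, mul_one] at h1
    have e : (star (s a) * s b - if a = b then 1 else 0) * c₁ =
        (star (s a) * s b - if a = b then v * v else 0) * c₁ +
          if a = b then v * (v * c₁ - c₁) + (v * c₁ - c₁) else 0 := by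
      split_ifs <;> noncomm_ring
    rw [e]
    have h2 : ‖if a = b then v * (v * c₁ - c₁) + (v * c₁ - c₁) else 0‖ ≤ 2 * θ₀ := by
      split_ifs
      · refine (norm_add_le _ _).trans ?_
        linarith [hvY _ hm, (norm_mul_le v (v * c₁ - c₁)).trans
          (mul_le_of_le_one_left (norm_nonneg _) hv1)]
      · rw [norm_zero]; positivity
    have h3 : ‖(star (s a) * s b - if a = b then v * v else 0) * c₁‖ ≤ θ₀ * BC :=
      (norm_mul_le _ _).trans (mul_le_mul h1 (by linarith [hBc c₁ hc₁]) (norm_nonneg _) hθ₀.le)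
    refine (norm_add_le _ _).trans ?_
    nlinarith
  refine ⟨s, fun a => (hss a).trans ?_, fun c₁ hc₁ a b => (hgram c₁ hc₁ a b).trans (min_le_left _ _),
    fun c₁ hc₁ a => ?_, fun r hr a b => ?_⟩
  · have := min_le_left θ (θ ^ 2 / (BC + 1) ^ 2)
    nlinarith
  · have hm1 : c₁ ∈ Y := Finset.mem_union_left _ (Finset.mem_union_left _ hc₁)
    have hm2 : star c₁ ∈ Y := hYs _ hm1
    have hm3 : star c₁ * c₁ ∈ Y :=
      Finset.mem_union_right _ (Finset.mem_image_of_mem (fun c => star c * c) hc₁)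
    have hb : ∀ y ∈ Y, ‖star (s a) * y * s a - y‖ ≤ β := fun y hy => by
      have h1 := hsy y (Finset.mem_insert_of_mem hy) a a
      rw [if_pos rfl] at h1
      refine (norm_sub_le_norm_sub_add_norm_sub _ (v * y * v) _).trans ?_
      have := hvyv y hy
      nlinarith
    have b4 := hgram c₁ hc₁ a a
    rw [if_pos rfl] at b4
    refine (sq_le_sq₀ (norm_nonneg _) hθ.le).1 ((comm_sq_le (hb _ hm3) (hb _ hm2) (hb _ hm1)
      b4).trans ?_)
    have h2 : β * (BC + 1) ^ 2 ≤ θ ^ 2 := by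
      have := min_le_right θ (θ ^ 2 / (BC + 1) ^ 2)
      rw [le_div_iff₀ (by positivity)] at this
      exact this
    refine le_trans (mul_le_mul_of_nonneg_left ?_ hβ.le) h2
    nlinarith [hBc c₁ hc₁, norm_nonneg c₁]
  · exact (hsm r hr a b).trans (by nlinarith [min_le_left θ (θ ^ 2 / (BC + 1) ^ 2)])

section avg

variable {H : Type*} [Group H] {β : H → M ≃⋆ₐ[ℂ] M} {K : Finset H} {δ : ℝ}

omit [PartialOrder M] [StarOrderedRing M] in
theorem norm_avg_le (P : Spread J β K δ) (hα : ∀ g h a, β (g * h) a = β g (β h a)) {x : M}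
    {θ : ℝ} (hθ : 0 ≤ θ) (hx : ‖star x * x‖ ≤ 1 + θ)
    (ho : ∀ i j, i ≠ j → ‖star x * β ((P.r i)⁻¹ * P.r j) x‖ ≤ θ) :
    ‖P.avg x‖ ^ 2 ≤ 1 + θ + (P.n : ℝ) ^ 2 * θ := by
  have h1 := P.gram_le hα hθ ho
  have h2 : ‖∑ i, P.w i ^ 2 • β (P.r i) (star x * x)‖ ≤ 1 + θ := by
    refine (norm_sum_le_of_le _ (n := fun i => P.w i ^ 2 * (1 + θ)) fun i _ => ?_).trans ?_
    · rw [norm_smul, Real.norm_of_nonneg (sq_nonneg _), StarAlgEquiv.norm_map]
      exact mul_le_mul_of_nonneg_left hx (sq_nonneg _)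
    · rw [← Finset.sum_mul, P.w_sq, one_mul]
  have h3 := norm_le_norm_add_norm_sub' (star (P.avg x) * P.avg x)
    (∑ i, P.w i ^ 2 • β (P.r i) (star x * x))
  rw [CStarRing.norm_star_mul_self] at h3
  rw [sq ‖P.avg x‖]
  linarith

omit [PartialOrder M] [StarOrderedRing M] in
theorem avg_gram_le (P : Spread J β K δ) (hα : ∀ g h a, β (g * h) a = β g (β h a)) {x y c : M}
    (e : M) (he : ∀ g, β g e = e) {θ : ℝ} (hθ : 0 ≤ θ)
    (ho : ∀ i j, i ≠ j → ‖star x * β ((P.r i)⁻¹ * P.r j) y‖ ≤ θ)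
    (hd : ∀ i, ‖(star x * y - e) * β (P.r i)⁻¹ c‖ ≤ θ) :
    ‖(star (P.avg x) * P.avg y - e) * c‖ ≤ (P.n : ℝ) ^ 2 * θ * ‖c‖ + θ := by
  have e1 : ∀ i, P.w i ^ 2 • β (P.r i) ((star x * y - e) * β (P.r i)⁻¹ c) =
      (P.w i ^ 2 • β (P.r i) (star x * y)) * c - P.w i ^ 2 • (e * c) := fun i => by
    rw [map_mul, map_sub, AF.alpha_inv hα, he, sub_mul, smul_sub, smul_mul_assoc]
  have e2 : (star (P.avg x) * P.avg y - e) * c =
      (star (P.avg x) * P.avg y - ∑ i, P.w i ^ 2 • β (P.r i) (star x * y)) * c +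
        ∑ i, P.w i ^ 2 • β (P.r i) ((star x * y - e) * β (P.r i)⁻¹ c) := by
    simp only [e1, Finset.sum_sub_distrib, ← Finset.sum_mul, ← Finset.sum_smul, P.w_sq, one_smul]
    rw [sub_mul, sub_mul]
    abel
  rw [e2]
  refine (norm_add_le _ _).trans (add_le_add ((norm_mul_le _ _).trans
    (mul_le_mul_of_nonneg_right (P.gram_le hα hθ ho) (norm_nonneg _))) ?_)
  refine (norm_sum_le_of_le _ (n := fun i => P.w i ^ 2 * θ) fun i _ => ?_).trans ?_
  · rw [norm_smul, Real.norm_of_nonneg (sq_nonneg _), StarAlgEquiv.norm_map]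
    exact mul_le_mul_of_nonneg_left (hd i) (sq_nonneg _)
  · rw [← Finset.sum_mul, P.w_sq, one_mul]

end avg

/-- Almost central, almost invariant elements, isometric with orthogonal ranges on `C`. -/
theorem exists_isometries [Group G] (hJ : IsBase J) (hG : IsAmenableGroup G)
    (hα : ∀ g h a, α (g * h) a = α g (α h a)) (hmem : ∀ g, ∀ x ∈ J, α g x ∈ J)
    (hfin : NoFinite J) (hu : HasUnits J) (he : ExciseGoal J α) (ho : OneStepGoal J)
    (hc : EmbedsGoal J) (N : ℕ) (C : Finset M) (hC : (↑C : Set M) ⊆ J) (K : Finset G) {ε : ℝ}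
    (hε : 0 < ε) :
    ∃ S : Fin N → M, ∀ a, ‖S a‖ ≤ 2 ∧ ∀ c ∈ C,
      (∀ b, ‖(star (S a) * S b - if a = b then 1 else 0) * c‖ ≤ ε) ∧
      ‖c * S a - S a * c‖ ≤ ε ∧
      ∀ k ∈ K, ‖(α k (S a) - S a) * c‖ ≤ ε ∧ ‖c * (α k (S a) - S a)‖ ≤ ε := by
  classical
  set BC : ℝ := 1 + ∑ c ∈ C, ‖c‖
  have hBC : 1 ≤ BC := le_add_of_nonneg_right (Finset.sum_nonneg fun _ _ => norm_nonneg _)
  set ε₁ := min ε 1
  have hε₁ : 0 < ε₁ := lt_min hε one_pos
  obtain ⟨P⟩ := exists_spread (J := J) hG hα hmem K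
    (show (0 : ℝ) < ε₁ ^ 2 / (64 * BC ^ 2) by positivity)
  choose σ hσN hσ2 using P.shift
  set M₁ : ℝ := (P.n : ℝ) + 1
  set θ := ε₁ ^ 2 / (100 * M₁ ^ 2 * BC ^ 2) with hθdef
  have hθ : 0 < θ := by positivity
  set X := (K × Fin P.n) × C
  have hF : ∀ x : X, ∃ (F : Finset M) (δ : ℝ), (↑F : Set M) ⊆ J ∧ 0 < δ ∧ (P.w x.1.2 ≠ 0 →
      ∀ y : M, ‖y‖ ≤ 1 → (∀ c ∈ F, ‖c * y - y * c‖ ≤ δ) →
        ‖(α ((P.r (σ x.1.1 x.1.1.2 x.1.2))⁻¹ * (x.1.1 * P.r x.1.2)) y - y) *
          α (P.r (σ x.1.1 x.1.1.2 x.1.2))⁻¹ (x.2 : M)‖ ≤ θ / 2) := fun x => by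
    by_cases hx : P.w x.1.2 = 0
    · exact ⟨∅, 1, by simp, one_pos, fun h => absurd hx h⟩
    · obtain ⟨F, δ, hFJ, hδ, hF⟩ :=
        hσN x.1.1 x.1.1.2 x.1.2 hx _ (hmem _ _ (hC x.2.2)) (θ / 2) (half_pos hθ)
      exact ⟨F, δ, hFJ, hδ, fun _ => hF⟩
  choose F δ hFJ hδ hF using hF
  obtain ⟨θ₁, hθ₁0, hθ₁θ, hθ₁δ⟩ : ∃ θ₁ : ℝ, 0 < θ₁ ∧ θ₁ ≤ θ ∧ ∀ x, θ₁ ≤ δ x := by
    rcases isEmpty_or_nonempty X with hE | hE
    · exact ⟨θ, hθ, le_rfl, fun x => isEmptyElim x⟩
    · obtain ⟨x₀, -, hx₀⟩ := Finset.exists_min_image Finset.univ δ Finset.univ_nonempty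
      exact ⟨min θ (δ x₀), lt_min hθ (hδ x₀), min_le_left _ _,
        fun x => (min_le_right _ _).trans (hx₀ x (Finset.mem_univ _))⟩
  set C2 : Finset M := C ∪ K.biUnion fun k => C.image fun c => α k⁻¹ c
  have hC2 : (↑C2 : Set M) ⊆ J := by
    intro y hy
    simp only [C2, Finset.coe_union, Finset.coe_biUnion, Set.mem_union, Set.mem_iUnion,
      Finset.coe_image, Set.mem_image] at hy
    rcases hy with hy | ⟨k, -, c, hc, rfl⟩
    · exact hC hy
    · exact hmem _ _ (hC hc)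
  obtain ⟨s, hsn, hs1, hs2, hs3⟩ := exists_family (α := α) hJ hfin hu he ho hc N
    (Finset.univ.biUnion F ∪ Finset.univ.biUnion fun i => C2.image fun c => α (P.r i)⁻¹ c)
    (by
      intro y hy
      simp only [Finset.coe_union, Finset.coe_biUnion, Set.mem_union, Set.mem_iUnion,
        Finset.coe_image, Set.mem_image] at hy
      rcases hy with ⟨x, -, hx⟩ | ⟨i, -, c, hc, rfl⟩
      · exact hFJ x hx
      · exact hmem _ _ (hC2 hc))
    (Finset.univ.biUnion fun i => (Finset.univ.filter (i ≠ ·)).image fun j => (P.r i)⁻¹ * P.r j)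
    (fun r hr => by
      simp only [Finset.mem_biUnion, Finset.mem_image, Finset.mem_filter, Finset.mem_univ,
        true_and] at hr
      obtain ⟨i, j, hij, rfl⟩ := hr
      exact P.moved i j hij)
    hθ₁0
  have hmemU : ∀ c ∈ C2, ∀ i, α (P.r i)⁻¹ c ∈
      Finset.univ.biUnion F ∪ Finset.univ.biUnion fun i => C2.image fun c => α (P.r i)⁻¹ c :=
    fun c hc i => Finset.mem_union_right _ (Finset.mem_biUnion.2
      ⟨i, Finset.mem_univ _, Finset.mem_image_of_mem _ hc⟩)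
  have hr : ∀ i j, i ≠ j → ∀ a b, ‖star (s a) * α ((P.r i)⁻¹ * P.r j) (s b)‖ ≤ θ := by
    intro i j hij a b
    refine (hs3 _ ?_ a b).trans hθ₁θ
    simp only [Finset.mem_biUnion, Finset.mem_image, Finset.mem_filter, Finset.mem_univ, true_and]
    exact ⟨i, j, hij, rfl⟩
  have hn0 : (0 : ℝ) ≤ P.n := Nat.cast_nonneg _
  have hM : θ * (100 * M₁ ^ 2 * BC ^ 2) = ε₁ ^ 2 := div_mul_cancel₀ _ (by positivity)
  have hn2 : 100 * ((P.n : ℝ) ^ 2 * θ * BC ^ 2) ≤ ε₁ ^ 2 := by
    refine le_trans ?_ hM.le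
    have : (P.n : ℝ) ^ 2 ≤ M₁ ^ 2 := pow_le_pow_left₀ hn0 (le_add_of_nonneg_right zero_le_one) 2
    nlinarith [mul_le_mul_of_nonneg_right this (show 0 ≤ θ * BC ^ 2 by positivity)]
  have hn1 : 100 * ((P.n : ℝ) * θ) ≤ ε₁ ^ 2 := by
    refine le_trans ?_ hM.le
    have h1 : (P.n : ℝ) ≤ M₁ ^ 2 := by nlinarith
    nlinarith [mul_le_mul h1 (show 1 ≤ BC ^ 2 by nlinarith) zero_le_one (sq_nonneg M₁)]
  have hθ1 : 100 * θ ≤ ε₁ ^ 2 := by
    refine le_trans ?_ hM.le
    nlinarith [mul_le_mul (show (1 : ℝ) ≤ M₁ ^ 2 by nlinarith) (show 1 ≤ BC ^ 2 by nlinarith)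
      zero_le_one (sq_nonneg M₁)]
  have hεε : ε₁ ^ 2 ≤ ε₁ := by nlinarith [min_le_right ε (1 : ℝ)]
  have hε1 : ε₁ ≤ ε := min_le_left _ _
  have hε11 : ε₁ ≤ 1 := min_le_right _ _
  have hsa : ∀ a, ‖s a‖ ≤ 2 := fun a => by
    have h1 := hsn a
    rw [CStarRing.norm_star_mul_self] at h1
    nlinarith [norm_nonneg (s a)]
  refine ⟨fun a => P.avg (s a), fun a => ⟨?_, fun c hc => ?_⟩⟩
  · have h1 := norm_avg_le P hα hθ.le ((hsn a).trans (by linarith)) fun i j hij => hr i j hij a a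
    have h4 : (P.n : ℝ) ^ 2 * θ ≤ (P.n : ℝ) ^ 2 * θ * BC ^ 2 :=
      le_mul_of_one_le_right (by positivity) (one_le_pow₀ hBC)
    exact (sq_le_sq₀ (norm_nonneg _) two_pos.le).1 (by linarith)
  have hc2 : c ∈ C2 := Finset.mem_union_left _ hc
  have hcB : ‖c‖ ≤ BC := by
    have := Finset.single_le_sum (f := fun c : M => ‖c‖) (fun _ _ => norm_nonneg _) hc
    linarith
  have hcom : ∀ d ∈ C2, ‖d * P.avg (s a) - P.avg (s a) * d‖ ≤ P.n * θ := fun d hd =>
    P.commutator_le hα d (s a) hθ.le fun i => (hs2 _ (hmemU d hd i) a).trans hθ₁θ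
  refine ⟨fun b => ?_, (hcom c hc2).trans (by linarith), fun k hk => ?_⟩
  · have h1 := avg_gram_le P hα (if a = b then (1 : M) else 0)
      (fun g => by split_ifs <;> simp) hθ.le (fun i j hij => hr i j hij a b) (c := c)
      fun i => (hs1 _ (hmemU c hc2 i) a b).trans hθ₁θ
    refine h1.trans ?_
    have h4 : (P.n : ℝ) ^ 2 * θ * ‖c‖ ≤ (P.n : ℝ) ^ 2 * θ * BC ^ 2 :=
      mul_le_mul_of_nonneg_left (hcB.trans (le_self_pow₀ hBC two_ne_zero)) (by positivity)
    linarith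
  have hfix : ∀ i, P.w i ≠ 0 → ‖(α ((P.r (σ k hk i))⁻¹ * (k * P.r i)) (s a) - s a) *
      α (P.r (σ k hk i))⁻¹ c‖ ≤ θ := by
    intro i hi
    have h2 : ‖(2⁻¹ : ℂ)‖ = 2⁻¹ := by norm_num
    have h1 := hF ((⟨k, hk⟩, i), ⟨c, hc⟩) hi ((2⁻¹ : ℂ) • s a)
      (by rw [norm_smul, h2]; linarith [hsa a])
      (fun c' hc' => by
        rw [mul_smul_comm, smul_mul_assoc, ← smul_sub, norm_smul, h2]
        have hmem' : c' ∈ Finset.univ.biUnion F :=
          Finset.mem_biUnion.2 ⟨_, Finset.mem_univ _, hc'⟩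
        have := (hs2 c' (Finset.mem_union_left _ hmem') a).trans
          (hθ₁δ ((⟨k, hk⟩, i), ⟨c, hc⟩))
        linarith [norm_nonneg (c' * s a - s a * c')])
    rw [map_smul, ← smul_sub, smul_mul_assoc, norm_smul, h2] at h1
    dsimp only at h1
    linarith
  have h1 := P.invariant_le (c := c) hα (hσ2 k hk) hθ.le (show (0 : ℝ) ≤ 4 by norm_num)
    (show ‖star (s a) * s a‖ ≤ 4 by
      rw [CStarRing.norm_star_mul_self]
      exact (mul_le_mul (hsa a) (hsa a) (norm_nonneg _) two_pos.le).trans (by norm_num))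
    (fun i j hij => hr i j hij a a) hfix
  have h2 : Real.sqrt (4 * (ε₁ ^ 2 / (64 * BC ^ 2)) + 4 * (P.n : ℝ) ^ 2 * θ) * ‖c‖ ≤ ε₁ / 3 := by
    refine (mul_le_mul_of_nonneg_left hcB (Real.sqrt_nonneg _)).trans ?_
    rw [← le_div_iff₀ (by positivity)]
    refine Real.sqrt_le_iff.2 ⟨by positivity, ?_⟩
    rw [div_pow, div_pow, le_div_iff₀ (by positivity), add_mul]
    have h3 : 4 * (ε₁ ^ 2 / (64 * BC ^ 2)) * BC ^ 2 = ε₁ ^ 2 / 16 := by field_simp; ring
    nlinarith
  have hright : ‖(α k (P.avg (s a)) - P.avg (s a)) * c‖ ≤ P.n * θ + ε₁ / 3 := h1.trans (by linarith)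
  refine ⟨hright.trans (by linarith), ?_⟩
  have hk' : α k⁻¹ c ∈ C2 := Finset.mem_union_right _
    (Finset.mem_biUnion.2 ⟨k, hk, Finset.mem_image_of_mem _ hc⟩)
  have e : c * (α k (P.avg (s a)) - P.avg (s a)) =
      α k (α k⁻¹ c * P.avg (s a) - P.avg (s a) * α k⁻¹ c) -
        (c * P.avg (s a) - P.avg (s a) * c) + (α k (P.avg (s a)) - P.avg (s a)) * c := by
    rw [map_sub, map_mul, map_mul, AF.alpha_inv hα]; noncomm_ring
  rw [e]
  refine (norm_add_le _ _).trans ((add_le_add ((norm_sub_le _ _).trans (add_le_add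
    ((StarAlgEquiv.norm_map _ _).trans_le (hcom _ hk')) (hcom c hc2))) hright).trans ?_)
  linarith

/-- **The traceless case.** -/
theorem inf_goal_of [Group G] (hJ : IsBase J) (hG : IsAmenableGroup G)
    (hα : ∀ g h a, α (g * h) a = α g (α h a)) (hmem : ∀ g, ∀ x ∈ J, α g x ∈ J)
    (hfin : NoFinite J) (hu : HasUnits J) (he : ExciseGoal J α) (ho : OneStepGoal J)
    (hc : ∀ u : M, IsBdd J u → u ≠ 0 → (∀ T : ETr J, T.t u ≠ 1) → EmbedsGoal J) :
    InfGoal J α :=
  fun u hub hu0 hT N C hC K _ε hε =>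
    exists_isometries hJ hG hα hmem hfin hu he ho (hc u hub hu0 hT) N C hC K hε

/-- Without a normalised trace bounded elements embed under each other. -/
theorem embedsGoal (hJ : IsBase J) (hn : IsNuclearOn J) (hs : SlotsGoal J) (hd : DecompGoal J)
    (hm : Uni.MatrixGoal) {u : M} (hub : IsBdd J u) (hu0 : u ≠ 0)
    (hT : ∀ T : ETr J, T.t u ≠ 1) : EmbedsGoal J := by
  intro a b ha ha1 hb hb1 ε hε
  obtain ⟨κ, -, hcore⟩ := Compare.core hJ hn hs hd hm hε
  have : Nontrivial M := ⟨⟨u, 0, hu0⟩⟩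
  have hsp : (1 : ℝ) ∈ spectrum ℝ b :=
    hb1 ▸ CStarAlgebra.norm_mem_spectrum_of_nonneg hb.2.1
  obtain ⟨x, -, hx1, hx2⟩ := hcore u hub hu0 a b (1 / 4) ha ha1 hb.1 hb.2.1 hb1.le (by norm_num)
    (Uni.Compare.cut_ne_zero (IsSelfAdjoint.of_nonneg hb.2.1) hsp (by norm_num))
    fun T h => absurd h (hT T)
  exact ⟨1 / 4, x, by norm_num, hx1, hx2⟩

/-- **InfGoal.** -/
theorem inf_goal [Group G] [Countable G] (hJ : IsBase J) (hG : IsAmenableGroup G)
    (hα : ∀ g h a, α (g * h) a = α g (α h a)) (hmem : ∀ g, ∀ x ∈ J, α g x ∈ J)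
    (hfin : NoFinite J) (hn : IsNuclearOn J) (hs : SlotsGoal J) (hd : DecompGoal J)
    (ho : OneStepGoal J) (hm : Uni.MatrixGoal) : InfGoal J α :=
  inf_goal_of hJ hG hα hmem hfin (Exc.hasUnits hJ)
    (Exc.excise_goal hJ α (Exc.mem_iff_of_action hα hmem)) ho
    fun _u hub hu0 hT => embedsGoal hJ hn hs hd hm hub hu0 hT

end Inf

end Vale.Agent.P095.NU
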