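import Vale.Agent.P095.NU.FA
import Vale.Agent.P095.NU.DropEmb
import Vale.Agent.P095.Uni.FromZStable
import Vale.Agent.P095.Drop.McDuff

/-!
# P095: the relative central sequence algebra is uniformly McDuff

Drop maps which become central along the index, all precomposed with a map from one fixed
dimension drop algebra, give exact homomorphisms into `CSeq J ω` commuting with finitely many
given elements.
-/

open Filter Topology
open scoped ComplexOrder Matrix Kronecker
open Vale.Agent.P101.Drop (dropAlg)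
open Vale.Agent.P101.SeqAlg (bseq)

set_option maxSynthPendingDepth 3

noncomputable section

namespace Vale.Agent.P095.NU.McDuff

variable {M : Type*} [CStarAlgebra M]

theorem isDropElement_coe {p q : ℕ} (f : dropAlg p q ℂ) :
    IsDropElement p q fun t => CStarMatrix.ofMatrix.symm
      ((f : C(unitInterval, CStarMatrix (Fin p × Fin q) (Fin p × Fin q) ℂ)) t) := by
  refine ⟨continuous_pi fun a => continuous_pi fun b => (continuous_apply b).comp
    ((continuous_apply a).comp
      (f : C(unitInterval, CStarMatrix (Fin p × Fin q) (Fin p × Fin q) ℂ)).continuous),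
    ⟨f.2.1.choose, ?_⟩, f.2.2.choose, ?_⟩
  · ext a b
    refine (f.2.1.choose_spec a b).trans ?_
    show _ = f.2.1.choose a.1 b.1 * (1 : Matrix (Fin q) (Fin q) ℂ) a.2 b.2
    rw [Matrix.one_apply]
    split_ifs <;> simp
  · ext a b
    refine (f.2.2.choose_spec a b).trans ?_
    show _ = (1 : Matrix (Fin p) (Fin p) ℂ) a.1 b.1 * f.2.2.choose a.2 b.2
    rw [Matrix.one_apply]
    split_ifs <;> simp

/-- A map on functions as a homomorphism of the C⋆-algebra. -/
theorem exists_hom_of_funMap {p q : ℕ} {ψ : (unitInterval → Matrix (Fin p × Fin q) (Fin p × Fin q) ℂ) → M}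
    (h : IsUnitalHomOn (IsDropElement p q) ψ) :
    ∃ Φ : dropAlg p q ℂ →⋆ₐ[ℂ] M, ∀ f : dropAlg p q ℂ, Φ f = ψ fun t =>
      CStarMatrix.ofMatrix.symm
        ((f : C(unitInterval, CStarMatrix (Fin p × Fin q) (Fin p × Fin q) ℂ)) t) := by
  obtain ⟨h1, hops⟩ := h
  have h1' := IsDropElement.scalar p q 1
  rw [map_one] at h1'
  let val : dropAlg p q ℂ → unitInterval → Matrix (Fin p × Fin q) (Fin p × Fin q) ℂ := fun f t =>
    CStarMatrix.ofMatrix.symm
      ((f : C(unitInterval, CStarMatrix (Fin p × Fin q) (Fin p × Fin q) ℂ)) t)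
  have hval : ∀ f, IsDropElement p q (val f) := isDropElement_coe
  have hsmul : ∀ (c : ℂ) f, ψ (val (c • f)) = c • ψ (val f) := fun c f =>
    ((hops _ _ (hval f) (hval f)).2.2.1 c)
  have h0 : ψ (val 0) = 0 := by
    have := hsmul 0 0
    simpa using this
  refine ⟨{ toFun := fun f => ψ (val f)
            map_one' := h1
            map_mul' := fun f g => (hops _ _ (hval f) (hval g)).2.1
            map_zero' := h0
            map_add' := fun f g => (hops _ _ (hval f) (hval g)).1
            commutes' := fun c => by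
              show ψ (val (algebraMap ℂ (dropAlg p q ℂ) c)) = algebraMap ℂ M c
              rw [Algebra.algebraMap_eq_smul_one, hsmul, Algebra.algebraMap_eq_smul_one]
              exact congrArg (c • ·) h1
            map_star' := fun f => (hops _ _ (hval f) (hval f)).2.2.2 }, fun f => rfl⟩

theorem norm_comm_le {D : Type*} [CStarAlgebra D] (Φ : D →⋆ₐ[ℂ] M) {c : M} {δ : ℝ}
    (h : ∀ f, ‖Φ f‖ ≤ 1 → ‖c * Φ f - Φ f * c‖ ≤ δ) (f : D) :
    ‖c * Φ f - Φ f * c‖ ≤ δ * ‖f‖ := by
  rcases eq_or_ne f 0 with rfl | hf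
  · simp
  · have hn : ‖f‖ ≠ 0 := norm_ne_zero_iff.2 hf
    have h1 := h (((‖f‖ : ℂ)⁻¹) • f) ((NonUnitalStarAlgHom.norm_apply_le Φ _).trans
      (by simp [norm_smul, inv_mul_cancel₀ hn]))
    rw [map_smul, mul_smul_comm, smul_mul_assoc, ← smul_sub, norm_smul, norm_inv,
      Complex.norm_real, norm_norm, inv_mul_le_iff₀ (norm_pos_iff.2 hf)] at h1
    linarith [h1, mul_comm δ ‖f‖]

variable {J : Set M} {ω : Ultrafilter ℕ}

/-- A sequence commuting with `J` and null on one side is null on `J`. -/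
theorem nullOn_of_right {hJs : ∀ a ∈ J, star a ∈ J} (z : relSeq J ω hJs)
    (h : ∀ y ∈ J, Tendsto (fun k => ((z : bseq M ω) : ℕ → M) k * y) ω (𝓝 0)) :
    NullOn J ω ((z : bseq M ω) : ℕ → M) := fun y hy => by
  refine ⟨h y hy, ?_⟩
  have hh := (z.2 y hy).add (h y hy)
  rw [add_zero] at hh
  exact hh.congr fun k => sub_add_cancel _ _

/-- The relative central sequence algebra has central dimension drop maps. -/
theorem hasCentralDropMaps_cseq (hω : (ω : Filter ℕ) ≤ cofinite) (hJ : IsBase J)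
    (hd : DropMapsOn J) : HasCentralDropMaps (CSeq J ω) := by
  classical
  intro C ε hε N
  have hJs : ∀ a ∈ J, star a ∈ J := fun a ha => hJ.star_mem ha
  set P := N + 1 with hP
  have : NeZero P := ⟨by omega⟩
  obtain ⟨S, hSc, hSJ, hSd⟩ := hJ.separable
  obtain ⟨a, ha⟩ : ∃ a : ℕ → M, (∀ i, a i ∈ J) ∧ J ⊆ closure (Set.range a) := by
    obtain ⟨a, ha⟩ := (hSc.insert 0).exists_eq_range (Set.insert_nonempty _ _)
    refine ⟨a, fun i => ?_, hSd.trans (closure_mono (by rw [← ha]; exact Set.subset_insert _ _))⟩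
    have hmem : a i ∈ insert 0 S := ha ▸ Set.mem_range_self i
    rcases hmem with h | h
    · rw [h]; exact hJ.zero_mem
    · exact hSJ h
  choose x hx using fun c => toC_surjective (ω := ω) hJs c
  set F : ℕ → Finset M := fun k => (Finset.range (k + 1)).image a ∪
    (C ×ˢ Finset.range (k + 1)).image (fun y => ((x y.1 : bseq M ω) : ℕ → M) k * a y.2)
  have hFJ : ∀ k, (↑(F k) : Set M) ⊆ J := by
    intro k y hy
    rcases Finset.mem_union.1 hy with hy | hy
    · obtain ⟨i, -, rfl⟩ := Finset.mem_image.1 hy; exact ha.1 i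
    · obtain ⟨i, -, rfl⟩ := Finset.mem_image.1 hy; exact hJ.mul_left _ (ha.1 i.2)
  choose p q hp hq hpq ψ hψ hψc using fun k : ℕ =>
    hd (F k) (hFJ k) (1 / ((k : ℝ) + 1)) (by positivity) (P * P)
  choose Φ hΦ using fun k => exists_hom_of_funMap (hψ k)
  have hp0 : ∀ k, NeZero (p k) := fun k =>
    ⟨by have := hp k; have : 0 < P * P := Nat.mul_pos (by omega) (by omega); omega⟩
  have hq0 : ∀ k, NeZero (q k) := fun k =>
    ⟨by have := hq k; have : 0 < P * P := Nat.mul_pos (by omega) (by omega); omega⟩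
  obtain ⟨Θ⟩ : Nonempty (∀ k, dropAlg P (P + 1) ℂ →⋆ₐ[ℂ] dropAlg (p k) (q k) ℂ) :=
    ⟨fun k => (DropEmb.exists_emb (P := P) (hp k) (hq k)).some⟩
  set u : dropAlg P (P + 1) ℂ → ℕ → M := fun f k => Φ k (Θ k f)
  have hu : ∀ f k, ‖u f k‖ ≤ ‖f‖ := fun f k =>
    (NonUnitalStarAlgHom.norm_apply_le _ _).trans (NonUnitalStarAlgHom.norm_apply_le _ _)
  have hcomm : ∀ f k, ∀ y ∈ F k, ‖y * u f k - u f k * y‖ ≤ 1 / ((k : ℝ) + 1) * ‖f‖ := by
    intro f k y hy
    refine norm_comm_le ((Φ k).comp (Θ k)) (fun g hg => ?_) f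
    show ‖y * Φ k (Θ k g) - Φ k (Θ k g) * y‖ ≤ _
    rw [hΦ]
    exact hψc k y hy _ (isDropElement_coe _) (by rwa [← hΦ])
  have hlim : ∀ B : ℝ, Tendsto (fun k : ℕ => 1 / ((k : ℝ) + 1) * B) ω (𝓝 0) := fun B => by
    have h := (tendsto_one_div_add_atTop_nhds_zero_nat (𝕜 := ℝ)).mul_const B
    rw [zero_mul] at h
    exact h.mono_left (hω.trans Nat.cofinite_eq_atTop.le)
  have hev : ∀ i : ℕ, ∀ᶠ k in (ω : Filter ℕ), i < k + 1 := fun i =>
    (Filter.Eventually.filter_mono (hω.trans Nat.cofinite_eq_atTop.le)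
      (eventually_ge_atTop i)).mono fun k hk => by omega
  -- bilinear bounded expressions vanishing on the dense sequence vanish on `J`
  have hext : ∀ (g : ℕ → M → M) (B : ℝ), (∀ k y z, ‖g k y - g k z‖ ≤ B * ‖y - z‖) →
      (∀ i, Tendsto (fun k => g k (a i)) ω (𝓝 0)) →
      ∀ y ∈ J, Tendsto (fun k => g k y) ω (𝓝 0) := by
    intro g B hB hg y hy
    rw [Metric.tendsto_nhds]
    intro δ hδ
    obtain ⟨_, ⟨i, rfl⟩, hyi⟩ := Metric.mem_closure_iff.1 (ha.2 hy) (δ / (2 * (|B| + 1)))
      (by positivity)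
    filter_upwards [Metric.tendsto_nhds.1 (hg i) (δ / 2) (half_pos hδ)] with k hk
    rw [dist_zero_right] at hk ⊢
    rw [dist_eq_norm] at hyi
    have h1 : B * ‖y - a i‖ ≤ δ / 2 := by
      refine (mul_le_mul (le_abs_self B) hyi.le (norm_nonneg _) (abs_nonneg _)).trans ?_
      rw [show δ / 2 = (|B| + 1) * (δ / (2 * (|B| + 1))) by field_simp]
      exact mul_le_mul_of_nonneg_right (by linarith) (by positivity)
    calc ‖g k y‖ ≤ ‖g k y - g k (a i)‖ + ‖g k (a i)‖ := norm_le_norm_sub_add _ _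
      _ < δ := by linarith [(hB k y (a i)).trans h1]
  have hrel : ∀ f, ∀ y ∈ J, Tendsto (fun k => y * u f k - u f k * y) ω (𝓝 0) := by
    intro f
    refine hext (fun k y => y * u f k - u f k * y) (2 * ‖f‖) (fun k y z => ?_) fun i => ?_
    · rw [show y * u f k - u f k * y - (z * u f k - u f k * z) =
        (y - z) * u f k - u f k * (y - z) by rw [sub_mul, mul_sub]; abel]
      refine (norm_sub_le _ _).trans ((add_le_add ((norm_mul_le _ _).trans
        (mul_le_mul_of_nonneg_left (hu f k) (norm_nonneg _))) ((norm_mul_le _ _).trans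
        (mul_le_mul_of_nonneg_right (hu f k) (norm_nonneg _)))).trans_eq ?_)
      ring
    · refine squeeze_zero_norm' ?_ (hlim ‖f‖)
      filter_upwards [hev i] with k hk
      exact hcomm f k _ (Finset.mem_union_left _
        (Finset.mem_image_of_mem a (Finset.mem_range.2 hk)))
  have hcentral : ∀ c ∈ C, ∀ f, ∀ y ∈ J, Tendsto (fun k =>
      (((x c : bseq M ω) : ℕ → M) k * u f k - u f k * ((x c : bseq M ω) : ℕ → M) k) * y) ω (𝓝 0) := by
    intro c hc f
    obtain ⟨B, hB⟩ := (x c : bseq M ω).2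
    refine hext (fun k y => (((x c : bseq M ω) : ℕ → M) k * u f k -
      u f k * ((x c : bseq M ω) : ℕ → M) k) * y) (2 * B * ‖f‖) (fun k y z => ?_) fun i => ?_
    · rw [← mul_sub]
      refine (norm_mul_le _ _).trans (mul_le_mul_of_nonneg_right ?_ (norm_nonneg _))
      refine (norm_sub_le _ _).trans ((add_le_add ((norm_mul_le _ _).trans
        (mul_le_mul (hB k) (hu f k) (norm_nonneg _) ((norm_nonneg _).trans (hB k))))
        ((norm_mul_le _ _).trans
        (mul_le_mul (hu f k) (hB k) (norm_nonneg _) (norm_nonneg _)))).trans_eq ?_)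
      ring
    · refine squeeze_zero_norm' ?_ (hlim ((B + 1) * ‖f‖))
      filter_upwards [hev i] with k hk
      have h1 := hcomm f k (a i) (Finset.mem_union_left _
        (Finset.mem_image_of_mem a (Finset.mem_range.2 hk)))
      have h2 := hcomm f k (((x c : bseq M ω) : ℕ → M) k * a i) (Finset.mem_union_right _
        (Finset.mem_image.2 ⟨(c, i), Finset.mem_product.2 ⟨hc, Finset.mem_range.2 hk⟩, rfl⟩))
      set X := ((x c : bseq M ω) : ℕ → M) k
      rw [show (X * u f k - u f k * X) * a i =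
        (X * a i * u f k - u f k * (X * a i)) - X * (a i * u f k - u f k * a i) by noncomm_ring]
      refine (norm_sub_le _ _).trans ((add_le_add h2 ((norm_mul_le _ _).trans
        (mul_le_mul (hB k) h1 (norm_nonneg _) ((norm_nonneg _).trans (hB k))))).trans_eq ?_)
      ring
  set seq : dropAlg P (P + 1) ℂ → relSeq J ω hJs := fun f =>
    ⟨⟨u f, ‖f‖, hu f⟩, fun y hy => hrel f y hy⟩
  set Ψ : dropAlg P (P + 1) ℂ →⋆ₐ[ℂ] relSeq J ω hJs :=
    { toFun := seq
      map_one' := Subtype.ext (Subtype.ext (funext fun k => by simp [seq, u]))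
      map_mul' := fun f g => Subtype.ext (Subtype.ext (funext fun k => by simp [seq, u]))
      map_zero' := Subtype.ext (Subtype.ext (funext fun k => by simp [seq, u]))
      map_add' := fun f g => Subtype.ext (Subtype.ext (funext fun k => by simp [seq, u]))
      commutes' := fun r => Subtype.ext (Subtype.ext (funext fun k => by
        show Φ k (Θ k (algebraMap ℂ _ r)) = algebraMap ℂ M r
        rw [AlgHomClass.commutes, AlgHomClass.commutes]))
      map_star' := fun f => Subtype.ext (Subtype.ext (funext fun k => by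
        show Φ k (Θ k (star f)) = star (Φ k (Θ k f))
        rw [map_star, map_star])) }
  obtain ⟨χ, hχ, hχF⟩ := Uni.FromZ.exists_fun_hom ((toC hJs).comp Ψ)
  refine ⟨P, P + 1, by omega, by omega, by simp, χ, hχ, fun c hc g hg _ => ?_⟩
  obtain ⟨f, hf⟩ := hχF g hg
  rw [hf, ← hx c]
  show ‖toC hJs (x c) * toC hJs (Ψ f) - toC hJs (Ψ f) * toC hJs (x c)‖ ≤ ε
  rw [← map_mul, ← map_mul, ← map_sub, (toC_eq_zero_iff
    (fun y _ z hz => hJ.mul_left y hz) _).2 ?_, norm_zero]
  · exact hε.le
  · refine nullOn_of_right _ fun y hy => ?_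
    exact hcentral c hc f y hy

/-- The relative central sequence algebra is uniformly McDuff. -/
theorem isUniformlyMcDuff_cseq (hω : (ω : Filter ℕ) ≤ cofinite) (hJ : IsBase J)
    (hd : DropMapsOn J) : IsUniformlyMcDuff (CSeq J ω) :=
  Drop.isUniformlyMcDuff (hasCentralDropMaps_cseq hω hJ hd)

end Vale.Agent.P095.NU.McDuff
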