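import Mathlib.Analysis.CStarAlgebra.Multiplier
import Vale.Agent.P101.Statement

/-!
# P095: equivariant Jiang-Su stability of possibly non-unital algebras

A tensor product with a unital algebra is read on the bilinear map of elementary tensors; cocycles
take values in the unitary group of the multiplier algebra.
-/

open scoped ComplexOrder

set_option maxSynthPendingDepth 3

universe u v

noncomputable section

namespace Vale.Agent.P095.NU

/-- `B` is a C⋆-completion of the algebraic tensor product, `m` being the elementary tensor. -/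
structure IsTensorMap {Z : Type} [CStarAlgebra Z] {A B : Type u} [NonUnitalCStarAlgebra A]
    [NonUnitalCStarAlgebra B] (m : A →ₗ[ℂ] Z →ₗ[ℂ] B) : Prop where
  mul : ∀ a a' z z', m a z * m a' z' = m (a * a') (z * z')
  star : ∀ a z, Star.star (m a z) = m (Star.star a) (Star.star z)
  inj : ∀ (n : ℕ) (a : Fin n → A) (z : Fin n → Z), LinearIndependent ℂ z →
    ∑ i, m (a i) (z i) = 0 → ∀ i, a i = 0
  dense : Dense (Submodule.span ℂ (Set.range fun x : A × Z => m x.1 x.2) : Set B)

/-- `β` is an action acting by `α` on the first factor and trivially on the second, i.e. `α ⊗ id`. -/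
def IsTensorAction {G : Type v} [Group G] {Z : Type} [CStarAlgebra Z] {A B : Type u}
    [NonUnitalCStarAlgebra A] [NonUnitalCStarAlgebra B] (α : G → A ≃⋆ₐ[ℂ] A)
    (m : A →ₗ[ℂ] Z →ₗ[ℂ] B) (β : G → B ≃⋆ₐ[ℂ] B) : Prop :=
  (∀ g h b, β (g * h) b = β g (β h b)) ∧ ∀ g a z, β g (m a z) = m (α g a) z

/-- Cocycle conjugacy, the cocycle taking values in the unitary group of the multiplier algebra;
the cocycle identity is read on the left multipliers. -/
def IsMultiplierCocycleConjugate {G : Type v} [Group G] {A B : Type u} [NonUnitalCStarAlgebra A]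
    [NonUnitalCStarAlgebra B] (α : G → A ≃⋆ₐ[ℂ] A) (β : G → B ≃⋆ₐ[ℂ] B) : Prop :=
  ∃ (Φ : A ≃⋆ₐ[ℂ] B) (w : G → DoubleCentralizer ℂ B),
    (∀ g, w g ∈ unitary (DoubleCentralizer ℂ B)) ∧
    (∀ g h x, (w (g * h)).fst (β g x) = (w g).fst (β g ((w h).fst x))) ∧
    ∀ g a, ((Φ (α g a) : B) : DoubleCentralizer ℂ B) =
      w g * ((β g (Φ a) : B) : DoubleCentralizer ℂ B) * Star.star (w g)

/-- `α` is cocycle conjugate to `α ⊗ id` on some (equivalently: the) tensor product with a
Jiang-Su algebra. -/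
def IsEquivariantlyZStable {G : Type v} [Group G] {A : Type u} [NonUnitalCStarAlgebra A]
    (α : G → A ≃⋆ₐ[ℂ] A) : Prop :=
  ∃ (Z : Type) (_ : CStarAlgebra Z), P101.Statement.IsJiangSuAlgebra Z ∧
    ∃ (B : Type u) (_ : NonUnitalCStarAlgebra B) (m : A →ₗ[ℂ] Z →ₗ[ℂ] B), IsTensorMap m ∧
      ∃ β : G → B ≃⋆ₐ[ℂ] B, IsTensorAction α m β ∧ IsMultiplierCocycleConjugate α β

end Vale.Agent.P095.NU
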