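import Vale.Agent.P095.AF.Absorb
import Vale.Agent.P095.NU.Statement

/-!
# P095: the tensor product of a non-unital algebra with the Jiang-Su algebra

`A` is a closed ideal of the unital algebra `M`; its tensor product with `JS` is the closed span of
the products `ι a * β z` inside the tensor product `T` of `M` with `JS`.
-/

open Filter Topology
open scoped ComplexOrder

set_option maxSynthPendingDepth 3

universe u

noncomputable section

namespace Vale.Agent.P095.NU.Model

open P101.Tensor (sys alpha stage beta)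
open P101.JiangSu (p q)
open P101.Drop (dropAlg)
open P101.Limit (JS)

/-- An isometric embedding onto a two-sided ideal. -/
structure IsIdealEmb {A M : Type*} [NonUnitalCStarAlgebra A] [CStarAlgebra M]
    (j : A →⋆ₙₐ[ℂ] M) : Prop where
  norm : ∀ a, ‖j a‖ = ‖a‖
  left : ∀ (m : M) a, ∃ b, j b = m * j a
  right : ∀ (m : M) a, ∃ b, j b = j a * m

variable {A M : Type u} [NonUnitalCStarAlgebra A] [CStarAlgebra M] [PartialOrder M]
  [StarOrderedRing M]

/-- The copy of `A` in `T`. -/
def iota (j : A →⋆ₙₐ[ℂ] M) : A →⋆ₙₐ[ℂ] (sys M).Z :=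
  ((alpha M) : M →⋆ₙₐ[ℂ] (sys M).Z).comp j

theorem iota_apply (j : A →⋆ₙₐ[ℂ] M) (a : A) : iota j a = alpha M (j a) := rfl

theorem norm_iota {j : A →⋆ₙₐ[ℂ] M} (hj : IsIdealEmb j) (a : A) : ‖iota j a‖ = ‖a‖ := by
  rw [iota_apply, P101.Tensor.norm_alpha, hj.norm]

theorem commute_iota_beta (j : A →⋆ₙₐ[ℂ] M) (a : A) (z : JS) :
    Commute (iota j a) (beta M z) := P101.Tensor.commute_alpha_beta M (j a) z

theorem commute_iota_stage (j : A →⋆ₙₐ[ℂ] M) (a : A) (i : ℕ) (z : dropAlg (p i) (q i) ℂ) :
    Commute (iota j a) (stage M i z) := P101.Tensor.commute_alpha_stage M i (j a) z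

variable (j : A →⋆ₙₐ[ℂ] M)

/-- The span of the elementary tensors. -/
def preB : NonUnitalStarSubalgebra ℂ (sys M).Z where
  toSubmodule := Submodule.span ℂ (Set.range fun x : A × JS => iota j x.1 * beta M x.2)
  mul_mem' {s t} hs ht := by
    refine Submodule.span_induction₂ (p := fun x y _ _ => x * y ∈ Submodule.span ℂ
      (Set.range fun x : A × JS => iota j x.1 * beta M x.2)) ?_ (fun y _ => by simp) (fun x _ => by simp)
      (fun x₁ x₂ y _ _ _ h₁ h₂ => by rw [add_mul]; exact Submodule.add_mem _ h₁ h₂)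
      (fun x y₁ y₂ _ _ _ h₁ h₂ => by rw [mul_add]; exact Submodule.add_mem _ h₁ h₂)
      (fun r x y _ _ h => by rw [smul_mul_assoc]; exact Submodule.smul_mem _ r h)
      (fun r x y _ _ h => by rw [mul_smul_comm]; exact Submodule.smul_mem _ r h) hs ht
    rintro _ _ ⟨⟨a, z⟩, rfl⟩ ⟨⟨a', z'⟩, rfl⟩
    refine Submodule.subset_span ⟨⟨a * a', z * z'⟩, ?_⟩
    show iota j (a * a') * beta M (z * z') = iota j a * beta M z * (iota j a' * beta M z')
    rw [map_mul (iota j), map_mul (beta M)]
    simp only [mul_assoc]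
    rw [← mul_assoc (beta M z), ← (commute_iota_beta j a' z).eq, mul_assoc]
  star_mem' {s} hs := by
    induction hs using Submodule.span_induction with
    | mem _ h =>
      obtain ⟨⟨a, z⟩, rfl⟩ := h
      refine Submodule.subset_span ⟨⟨star a, star z⟩, ?_⟩
      show iota j (star a) * beta M (star z) = star (iota j a * beta M z)
      rw [(commute_iota_beta j (star a) (star z)).eq, map_star (beta M), map_star (iota j), star_mul]
    | zero => simp
    | add x y _ _ hx hy => rw [star_add]; exact Submodule.add_mem _ hx hy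
    | smul r x _ hx => rw [star_smul]; exact Submodule.smul_mem _ _ hx

/-- The tensor product of `A` with `JS`. -/
def bsub : NonUnitalStarSubalgebra ℂ (sys M).Z := (preB j).topologicalClosure

instance : IsClosed (bsub j : Set (sys M).Z) := NonUnitalStarSubalgebra.isClosed_topologicalClosure _

theorem mem_bsub_iff (t : (sys M).Z) : t ∈ bsub j ↔
    t ∈ closure (Submodule.span ℂ (Set.range fun x : A × JS => iota j x.1 * beta M x.2) :
      Set (sys M).Z) := Iff.rfl

theorem gen_mem (a : A) (z : JS) : iota j a * beta M z ∈ bsub j :=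
  subset_closure (Submodule.subset_span ⟨(a, z), rfl⟩)

theorem iota_mem (a : A) : iota j a ∈ bsub j := by simpa using gen_mem j a 1

/-- A closed linear condition on `bsub` is checked on elementary tensors. -/
theorem bsub_induction {P : (sys M).Z → Prop} (hcl : IsClosed {t | P t}) (h0 : P 0)
    (hadd : ∀ s t, P s → P t → P (s + t)) (hsmul : ∀ (c : ℂ) t, P t → P (c • t))
    (hgen : ∀ a z, P (iota j a * beta M z)) {t : (sys M).Z} (ht : t ∈ bsub j) : P t := by
  refine closure_minimal (fun s hs => ?_) hcl ((mem_bsub_iff j t).1 ht)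
  induction hs using Submodule.span_induction with
  | mem x hx => obtain ⟨⟨a, z⟩, rfl⟩ := hx; exact hgen a z
  | zero => exact h0
  | add x y _ _ hx hy => exact hadd x y hx hy
  | smul r x _ hx => exact hsmul r x hx

variable {j}

theorem mul_mem_left (hj : IsIdealEmb j) (t b : (sys M).Z) (hb : b ∈ bsub j) :
    t * b ∈ bsub j := by
  have hc : IsClosed (bsub j : Set (sys M).Z) := inferInstance
  refine bsub_induction j (P := fun b => t * b ∈ bsub j)
    (hc.preimage (continuous_const_mul t)) (by simp)
    (fun s r hs hr => by rw [mul_add]; exact add_mem hs hr)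
    (fun c s hs => by rw [mul_smul_comm]; exact SMulMemClass.smul_mem c hs) (fun a z => ?_) hb
  refine closure_minimal (fun s hs => ?_) (hc.preimage (continuous_mul_const (iota j a * beta M z)))
    ((P101.Tensor.dense_span M).closure_eq ▸ Set.mem_univ t)
  refine (iSup_le fun i => Submodule.span_le.2 ?_ : (⨆ i, Submodule.span ℂ
    (Set.range fun x : M × dropAlg (p i) (q i) ℂ => alpha M x.1 * stage M i x.2)) ≤
    (bsub j).toSubmodule.comap (LinearMap.mulRight ℂ (iota j a * beta M z))) hs
  rintro _ ⟨⟨m, w⟩, rfl⟩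
  obtain ⟨a', ha'⟩ := hj.left m a
  show alpha M m * stage M i w * (iota j a * beta M z) ∈ bsub j
  have e : alpha M m * stage M i w * (iota j a * beta M z) =
      iota j a' * beta M (P101.Limit.jsSys.inc i w * z) := by
    rw [iota_apply j a', ha', map_mul (alpha M), map_mul (beta M), P101.Tensor.beta_incl,
      ← iota_apply]
    simp only [mul_assoc]
    rw [← mul_assoc (stage M i w), ← (commute_iota_stage j a i w).eq, mul_assoc]
  rw [e]
  exact gen_mem j _ _

theorem mul_mem_right (hj : IsIdealEmb j) (t b : (sys M).Z) (hb : b ∈ bsub j) :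
    b * t ∈ bsub j := by
  have h := star_mem (mul_mem_left hj (star t) (star b) (star_mem hb))
  rwa [star_mul, star_star, star_star] at h

theorem separableSpace_bsub [TopologicalSpace.SeparableSpace A] :
    TopologicalSpace.SeparableSpace (bsub j) := by
  have hc1 : Continuous (iota j) :=
    AddMonoidHomClass.continuous_of_bound (iota j) 1 fun a => by
      simpa using NonUnitalStarAlgHom.norm_apply_le (iota j) a
  have h : TopologicalSpace.IsSeparable (bsub j : Set (sys M).Z) :=
    ((TopologicalSpace.isSeparable_range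
      ((hc1.comp continuous_fst).mul
        ((P101.Drop.continuous_hom (beta M)).comp continuous_snd))).span).closure
  exact h.separableSpace

variable (j) in
/-- The elementary tensor. -/
def tmap : A →ₗ[ℂ] JS →ₗ[ℂ] bsub j :=
  LinearMap.mk₂ ℂ (fun a z => ⟨iota j a * beta M z, gen_mem j a z⟩)
    (fun a a' z => Subtype.ext (by simp [add_mul]))
    (fun c a z => Subtype.ext (by simp))
    (fun a z z' => Subtype.ext (by simp [mul_add]))
    (fun c a z => Subtype.ext (by simp))

theorem coe_tmap (a : A) (z : JS) : (tmap j a z : (sys M).Z) = iota j a * beta M z := rfl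

theorem exists_tmap_span (j : A →⋆ₙₐ[ℂ] M) {t : (sys M).Z}
    (ht : t ∈ Submodule.span ℂ (Set.range fun x : A × JS => iota j x.1 * beta M x.2)) :
    t ∈ (Submodule.span ℂ (Set.range fun x : A × JS => tmap j x.1 x.2)).map
      (bsub j).toSubmodule.subtype := by
  rw [Submodule.map_span, ← Set.range_comp]
  exact ht

theorem dense_tmap (j : A →⋆ₙₐ[ℂ] M) :
    Dense (Submodule.span ℂ (Set.range fun x : A × JS => tmap j x.1 x.2) : Set (bsub j)) := by
  intro b
  rw [Metric.mem_closure_iff]
  intro ε hε
  obtain ⟨s, hs, hd⟩ := Metric.mem_closure_iff.1 ((mem_bsub_iff j (b : (sys M).Z)).1 b.2) ε hε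
  obtain ⟨y, hy, rfl⟩ := exists_tmap_span j hs
  exact ⟨y, hy, hd⟩

theorem isTensorMap (hj : IsIdealEmb j) : IsTensorMap (tmap j) where
  mul a a' z z' := Subtype.ext (by
    show iota j a * beta M z * (iota j a' * beta M z') = iota j (a * a') * beta M (z * z')
    rw [map_mul (iota j), map_mul (beta M)]
    simp only [mul_assoc]
    rw [← mul_assoc (beta M z), ← (commute_iota_beta j a' z).eq, mul_assoc])
  star a z := Subtype.ext (by
    show star (iota j a * beta M z) = iota j (star a) * beta M (star z)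
    rw [(commute_iota_beta j (star a) (star z)).eq, star_mul, map_star, map_star])
  inj n a z hz h i := by
    have h' : ∑ i, alpha M (j (a i)) * beta M (z i) = 0 := by
      simpa [AddSubmonoidClass.coe_finsetSum, coe_tmap, iota_apply] using congrArg Subtype.val h
    have := (P101.Tensor.isTensor M).2.1 n (fun i => j (a i)) z hz h' i
    rw [← norm_eq_zero, ← hj.norm, this, norm_zero]
  dense := dense_tmap j

/-! ### The action -/

variable {G : Type*} [Group G] (σ : G → M ≃⋆ₐ[ℂ] M)
  (hσ : ∀ g h m, σ (g * h) m = σ g (σ h m))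

/-- The extension of the action to `T`. -/
def act : G → (sys M).Z ≃⋆ₐ[ℂ] (sys M).Z := fun g =>
  have hid : ∀ g k : G, g * k = 1 → ∀ b,
      AF.tensHom (σ g : M →⋆ₐ[ℂ] M) (AF.tensHom (σ k : M →⋆ₐ[ℂ] M) b) = b := fun g k hgk b => by
    rw [AF.tensHom_comp]
    refine AF.tensHom_id (fun m => ?_) b
    show σ g (σ k m) = m
    rw [← hσ, hgk]
    exact AF.act_one hσ m
  StarAlgEquiv.ofBijective (AF.tensHom (σ g : M →⋆ₐ[ℂ] M))
    ⟨Function.LeftInverse.injective (g := AF.tensHom (σ g⁻¹ : M →⋆ₐ[ℂ] M))
        (hid g⁻¹ g (inv_mul_cancel g)),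
      fun b => ⟨_, hid g g⁻¹ (mul_inv_cancel g) b⟩⟩

theorem act_apply (g : G) (t : (sys M).Z) :
    act σ hσ g t = AF.tensHom (σ g : M →⋆ₐ[ℂ] M) t := rfl

theorem act_alpha (g : G) (m : M) : act σ hσ g (alpha M m) = alpha M (σ g m) :=
  (act_apply σ hσ g _).trans (AF.tensHom_alpha _ m)

theorem act_stage (g : G) (i : ℕ) (z : dropAlg (p i) (q i) ℂ) :
    act σ hσ g (stage M i z) = stage M i z :=
  (act_apply σ hσ g _).trans (AF.tensHom_stage _ i z)

theorem act_mul (g h : G) (t : (sys M).Z) :
    act σ hσ (g * h) t = act σ hσ g (act σ hσ h t) := by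
  rw [act_apply, act_apply, act_apply, AF.tensHom_comp]
  exact congrArg (fun ρ => AF.tensHom ρ t) (StarAlgHom.ext fun m => hσ g h m)

theorem act_beta (g : G) (z : JS) : act σ hσ g (beta M z) = beta M z := by
  refine P101.Tensor.dense_inc.induction (P := fun z => act σ hσ g (beta M z) = beta M z) ?_ ?_ z
  · intro w hw
    obtain ⟨i, y, rfl⟩ := Set.mem_iUnion.1 hw
    show act σ hσ g (beta M (P101.Limit.jsSys.inc i y)) = beta M (P101.Limit.jsSys.inc i y)
    exact (P101.Tensor.beta_incl M i y).symm ▸ act_stage σ hσ g i y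
  · exact isClosed_eq ((StarAlgEquiv.isometry (act σ hσ g)).continuous.comp
      (P101.Drop.continuous_hom _)) (P101.Drop.continuous_hom _)

variable {α : G → A ≃⋆ₐ[ℂ] A} (hσj : ∀ g a, σ g (j a) = j (α g a))

include hσj in
theorem act_iota (g : G) (a : A) : act σ hσ g (iota j a) = iota j (α g a) := by
  rw [iota_apply, act_alpha, hσj, iota_apply]

include hσj in
theorem act_mem (g : G) {t : (sys M).Z} (ht : t ∈ bsub j) : act σ hσ g t ∈ bsub j := by
  have hc : IsClosed (bsub j : Set (sys M).Z) := inferInstance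
  refine bsub_induction j (P := fun t => act σ hσ g t ∈ bsub j)
    (hc.preimage (StarAlgEquiv.isometry (act σ hσ g)).continuous) (by simp)
    (fun s r hs hr => by rw [map_add]; exact add_mem hs hr)
    (fun c s hs => by rw [map_smul]; exact SMulMemClass.smul_mem c hs) (fun a z => ?_) ht
  rw [map_mul, act_iota σ hσ hσj, act_beta]
  exact gen_mem j _ _

/-- The action on the tensor product. -/
def actB (g : G) : bsub j ≃⋆ₐ[ℂ] bsub j where
  toFun b := ⟨act σ hσ g b, act_mem σ hσ hσj g b.2⟩
  invFun b := ⟨act σ hσ g⁻¹ b, act_mem σ hσ hσj g⁻¹ b.2⟩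
  left_inv b := Subtype.ext (by
    show act σ hσ g⁻¹ (act σ hσ g b) = b
    rw [← act_mul, inv_mul_cancel]
    exact AF.act_one (act_mul σ hσ) _)
  right_inv b := Subtype.ext (by
    show act σ hσ g (act σ hσ g⁻¹ b) = b
    rw [← act_mul, mul_inv_cancel]
    exact AF.act_one (act_mul σ hσ) _)
  map_mul' _ _ := Subtype.ext (map_mul _ _ _)
  map_add' _ _ := Subtype.ext (map_add _ _ _)
  map_star' _ := Subtype.ext (map_star _ _)
  map_smul' _ _ := Subtype.ext (map_smul _ _ _)

theorem coe_actB (g : G) (b : bsub j) :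
    (actB σ hσ hσj g b : (sys M).Z) = act σ hσ g (b : (sys M).Z) := rfl

theorem isTensorAction : IsTensorAction α (tmap j) (actB σ hσ hσj) :=
  ⟨fun g h b => Subtype.ext (act_mul σ hσ g h _), fun g a z => Subtype.ext (by
    show act σ hσ g (iota j a * beta M z) = iota j (α g a) * beta M z
    rw [map_mul, act_iota σ hσ hσj, act_beta])⟩

end Vale.Agent.P095.NU.Model
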