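import Vale.Agent.P095.NU.Setting
import Vale.Agent.P095.Uni.OneStep

/-!
# P095: the identity of a base ideal is approximated by one-step maps through a state living on it

The seminorm `d ↦ φ (d⋆ d)` is used on `J`. As `J` is simple with infinite dimensional corners, no
nonzero element of `J` has finite rank for it, so one-step maps with entries in `J` orthogonal to
any finite set already approximate every completely positive map into matrices. The outer entries
are pushed into `J` by a local unit.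
-/

open scoped ComplexOrder
open Filter Topology Matrix

noncomputable section

namespace Vale.Agent.P095.NU.OneStep

open Uni.OneStep (quad sym Orth vals dualMat FinRank)

variable {M : Type*} [CStarAlgebra M] [PartialOrder M] [StarOrderedRing M] {J : Set M}

omit [PartialOrder M] [StarOrderedRing M] in
theorem sum_mem (hJ : IsBase J) {α : Type*} (s : Finset α) {g : α → M} (h : ∀ i ∈ s, g i ∈ J) :
    ∑ i ∈ s, g i ∈ J :=
  Finset.sum_induction g (· ∈ J) (fun _ _ => hJ.add_mem) hJ.zero_mem h

omit [PartialOrder M] [StarOrderedRing M] in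
theorem cfc_cut_mem (hJ : IsBase J) {a : M} (ha : IsSelfAdjoint a) (haJ : a ∈ J) {γ : ℝ}
    (hγ : 0 < γ) : cfc (fun s : ℝ => max (s - γ) 0) a ∈ J := by
  have hc : Continuous fun s : ℝ => max (s - γ) 0 / max s γ :=
    ((continuous_id.sub continuous_const).max continuous_const).div₀
      (continuous_id.max continuous_const) fun s => (lt_max_of_lt_right hγ).ne'
  rw [show cfc (fun s : ℝ => max (s - γ) 0) a =
      a * cfc (fun s : ℝ => max (s - γ) 0 / max s γ) a by
    conv_rhs => arg 1; rw [← cfc_id' ℝ a ha]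
    rw [← cfc_mul _ _ a (by fun_prop) hc.continuousOn]
    refine cfc_congr fun s _ => ?_
    rcases le_total s γ with hs | hs
    · simp [max_eq_right (sub_nonpos.2 hs)]
    · simp only [max_eq_left hs]
      rw [mul_div_cancel₀ _ (hγ.trans_le hs).ne']]
  exact hJ.mul_right _ haJ

/-- Local units in the ideal. -/
theorem exists_local_unit (hJ : IsBase J) (C : Finset M) (hC : (↑C : Set M) ⊆ J) {δ : ℝ}
    (hδ : 0 < δ) : ∃ e ∈ J, ‖e‖ ≤ 1 ∧ ∀ y ∈ C, ‖star e * y * e - y‖ ≤ δ := by
  set u : M := ∑ y ∈ C, (star y * y + y * star y) with hu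
  have huJ : u ∈ J := sum_mem hJ C fun y hy =>
    hJ.add_mem (hJ.mul_left _ (hC hy)) (hJ.mul_right _ (hC hy))
  have hu0 : 0 ≤ u :=
    Finset.sum_nonneg fun y _ => add_nonneg (star_mul_self_nonneg y) (mul_star_self_nonneg y)
  have hus : IsSelfAdjoint u := IsSelfAdjoint.of_nonneg hu0
  set η : ℝ := (δ / 2) ^ 2 with hη
  have hη0 : 0 < η := by positivity
  have hc : Continuous fun t : ℝ => (max t η)⁻¹ :=
    (continuous_id.max continuous_const).inv₀ fun t => (lt_max_of_lt_right hη0).ne'
  set g : ℝ → ℝ := fun t => t * (max t η)⁻¹ with hg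
  have hgc : Continuous g := continuous_id.mul hc
  set e := cfc g u with he
  have heJ : e ∈ J := by
    rw [he, hg, cfc_mul (fun t : ℝ => t) _ u (by fun_prop) hc.continuousOn, cfc_id' ℝ u hus]
    exact hJ.mul_right _ huJ
  have hg1 : ∀ t, 0 ≤ t → 0 ≤ g t ∧ g t ≤ 1 := fun t ht => by
    have hm : 0 < max t η := lt_max_of_lt_right hη0
    refine ⟨mul_nonneg ht (inv_nonneg.2 hm.le), ?_⟩
    rw [hg]; dsimp only
    rw [← div_eq_mul_inv, div_le_one hm]
    exact le_max_left _ _
  have hne : ‖e‖ ≤ 1 := norm_cfc_le zero_le_one fun t ht => by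
    obtain ⟨h1, h2⟩ := hg1 t (spectrum_nonneg_of_nonneg hu0 ht)
    rwa [Real.norm_eq_abs, abs_of_nonneg h1]
  have hes : star e = e := (cfc_predicate g u).star_eq
  set r := cfc (fun t : ℝ => 1 - g t) u with hr
  have hrs : star r = r := (cfc_predicate (fun t : ℝ => 1 - g t) u).star_eq
  have hre : r = 1 - e := by
    rw [hr, cfc_sub (fun _ : ℝ => (1 : ℝ)) g u (by fun_prop) hgc.continuousOn,
      cfc_const_one ℝ u hus, he]
  have hru : ‖r * u * r‖ ≤ η := by
    conv_lhs => arg 1; arg 1; arg 2; rw [← cfc_id' ℝ u hus]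
    have hc1 : Continuous fun t : ℝ => 1 - g t := continuous_const.sub hgc
    rw [hr, ← cfc_mul _ _ u hc1.continuousOn (by fun_prop),
      ← cfc_mul (fun t : ℝ => (1 - g t) * t) _ u (hc1.mul continuous_id).continuousOn
        hc1.continuousOn]
    refine norm_cfc_le hη0.le fun t ht => ?_
    have ht0 := spectrum_nonneg_of_nonneg hu0 ht
    obtain ⟨h1, h2⟩ := hg1 t ht0
    rw [Real.norm_eq_abs, abs_of_nonneg (mul_nonneg (mul_nonneg (sub_nonneg.2 h2) ht0)
      (sub_nonneg.2 h2))]
    rcases le_total η t with h | h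
    · have : g t = 1 := by
        simp only [hg, max_eq_left h]; exact mul_inv_cancel₀ (hη0.trans_le h).ne'
      simp [this, hη0.le]
    · calc (1 - g t) * t * (1 - g t) ≤ 1 * t * 1 := by gcongr <;> linarith
        _ ≤ η := by linarith
  have hsmall : ∀ b : M, star b * b ≤ u → ‖b * r‖ ≤ δ / 2 := by
    intro b hb
    refine (pow_le_pow_iff_left₀ (norm_nonneg _) (by positivity) two_ne_zero).1 ?_
    rw [sq, ← CStarRing.norm_star_mul_self]
    refine (CStarAlgebra.norm_le_norm_of_nonneg_of_le (star_mul_self_nonneg _) ?_).trans hru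
    calc star (b * r) * (b * r) = star r * (star b * b) * r := by simp only [star_mul, mul_assoc]
      _ ≤ star r * u * r := star_left_conjugate_le_conjugate hb r
      _ = r * u * r := by rw [hrs]
  refine ⟨e, heJ, hne, fun y hy => ?_⟩
  have hle : star y * y + y * star y ≤ u :=
    Finset.single_le_sum (f := fun y => star y * y + y * star y)
      (fun y _ => add_nonneg (star_mul_self_nonneg y) (mul_star_self_nonneg y)) hy
  have h1 := hsmall y ((le_add_of_nonneg_right (mul_star_self_nonneg y)).trans hle)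
  have h2 : ‖r * y‖ ≤ δ / 2 := by
    rw [← norm_star, star_mul, hrs]
    refine hsmall (star y) ?_
    rw [star_star]
    exact (le_add_of_nonneg_left (star_mul_self_nonneg y)).trans hle
  have hid : star e * y * e - y = -(r * y * e) - y * r := by rw [hes, hre]; noncomm_ring
  rw [hid]
  refine (norm_sub_le _ _).trans ?_
  rw [norm_neg]
  refine (add_le_add (norm_mul_le _ _) h1).trans ?_
  nlinarith [norm_nonneg (r * y), norm_nonneg e]

variable (f : M →ₚ[ℂ] ℂ) {ι : Type*}

theorem continuous_state (hf : f 1 = 1) : Continuous f :=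
  AddMonoidHomClass.continuous_of_bound f 2 fun w => by
    simpa using Uni.OneStep.norm_form_le f 1 (by simpa using hf) w

/-- Only zero has finite rank within `J`. -/
theorem finRank_eq_zero (hJ : IsBase J) (hfin : NoFinite J) (hf : f 1 = 1) {h : M} (hhJ : h ∈ J)
    (hh : f h = 1) {z : M} (hzJ : z ∈ J) (hz : FinRank f z) : z = 0 := by
  classical
  by_contra hz0
  obtain ⟨I, hI⟩ := Uni.OneStep.finRank_ideal f
  set q := star z * z with hq
  have hqs : star q = q := (IsSelfAdjoint.star_mul_self z).star_eq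
  obtain ⟨F, hF⟩ := (hI q).1 (I.mul_mem_left (star z) z ((hI z).2 hz))
  refine hfin q (hJ.mul_left _ hzJ)
    (fun hc => hz0 ((CStarRing.star_mul_self_eq_zero_iff z).1 hc)) ?_
  let L : M →ₗ[ℂ] F → ℂ := LinearMap.pi fun v =>
    f.toLinearMap ∘ₗ LinearMap.mulLeft ℂ (star (v : M))
  obtain ⟨m, e, he⟩ := Submodule.fg_iff_exists_fin_generating_family.1
    (IsNoetherian.noetherian (LinearMap.range L))
  choose w hw using fun i => (he ▸ Submodule.subset_span ⟨i, rfl⟩ : e i ∈ LinearMap.range L)
  let T : M →ₗ[ℂ] Fin m → F → ℂ :=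
    LinearMap.pi fun i => L ∘ₗ LinearMap.mulRight ℂ (q * w i)
  let Q : M →ₗ[ℂ] M := LinearMap.mulLeft ℂ (star q) ∘ₗ LinearMap.mulRight ℂ q
  have hker : LinearMap.ker T ≤ LinearMap.ker Q := by
    intro x hx
    rw [LinearMap.mem_ker] at hx ⊢
    change star q * (x * q) = 0
    by_contra hne
    set a := star q * (x * q) with ha
    have haJ : a ∈ J := hJ.mul_left _ (hJ.mul_left _ (hJ.mul_left _ hzJ))
    have hnull : ∀ d, L d = 0 → f (star (q * d) * (q * d)) = 0 := fun d hd =>
      hF d fun v hv => congrFun hd ⟨v, hv⟩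
    have hall : ∀ d, f (star (a * d) * (a * d)) = 0 := by
      intro d
      have : L d ∈ Submodule.span ℂ (Set.range e) := he ▸ LinearMap.mem_range_self L d
      obtain ⟨c, hc⟩ := Submodule.mem_span_range_iff_exists_fun ℂ |>.1 this
      set d' := d - ∑ i, c i • w i with hd'
      have h1 : f (star (q * x * (q * d')) * (q * x * (q * d'))) = 0 :=
        Uni.OneStep.mul_null f (q * x) _ (hnull _ (by simp [hd', map_sum, hw, hc]))
      have h2 : f (star (q * ∑ i, c i • (x * (q * w i))) * (q * ∑ i, c i • (x * (q * w i)))) = 0 :=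
        hnull _ (by
          rw [map_sum]
          exact Finset.sum_eq_zero fun i _ => by
            rw [map_smul, show L (x * (q * w i)) = 0 from congrFun hx i, smul_zero])
      have e3 : a * d = q * x * (q * d') + q * ∑ i, c i • (x * (q * w i)) := by
        simp [ha, hd', hqs, mul_sub, Finset.mul_sum, mul_assoc]
      rw [e3]
      exact Uni.OneStep.add_null f _ _ h1 h2
    let S : AddSubgroup M :=
      { carrier := {b | f (star b * b) = 0}
        zero_mem' := by simp
        add_mem' := fun {b c} hb hc => Uni.OneStep.add_null f b c hb hc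
        neg_mem' := fun {b} hb => by simpa using hb }
    have hS : f (star h * h) = 0 := by
      refine (closure_minimal (s := (AddSubgroup.closure
        {y | ∃ w ∈ J, ∃ z ∈ J, y = w * a * z} : Set M)) (t := (S : Set M)) ?_ ?_
        (hJ.simple a haJ hne h hhJ) :)
      · refine SetLike.coe_subset_coe.2 ((AddSubgroup.closure_le S).2 ?_)
        rintro _ ⟨w, -, z, -, rfl⟩
        change f (star (w * a * z) * (w * a * z)) = 0
        rw [mul_assoc w a z]
        exact Uni.OneStep.mul_null f w _ (hall z)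
      · exact isClosed_eq ((continuous_state f hf).comp (continuous_star.mul continuous_id))
          continuous_const
    have h0 : 0 ≤ f (star (h - 1) * (h - 1)) := map_nonneg f (star_mul_self_nonneg _)
    have hsh : f (star h) = 1 := by rw [map_star, hh, star_one]
    rw [star_sub, star_one, sub_mul, mul_sub, mul_sub, mul_one, one_mul, one_mul, map_sub, map_sub,
      map_sub, hS, hsh, hh, hf] at h0
    norm_num [Complex.le_def] at h0
  have : FiniteDimensional ℂ (M ⧸ LinearMap.ker T) := T.quotKerEquivRange.symm.finiteDimensional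
  have hrange : Submodule.span ℂ (Set.range fun x : M => star q * x * q) =
      LinearMap.range ((LinearMap.ker T).liftQ Q hker) := by
    rw [Submodule.range_liftQ, ← (LinearMap.range Q).span_eq, LinearMap.coe_range]
    congr 2
    funext x
    simp [Q, mul_assoc]
  rw [hrange]
  infer_instance

/-- A self-adjoint element of `J` with spectrum above zero is positive on vectors in `J` orthogonal
to any finite set. -/
theorem exists_pick (hJ : IsBase J) (hfin : NoFinite J) (hf : f 1 = 1) {h : M} (hhJ : h ∈ J)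
    (hh : f h = 1) {a : M} (ha : IsSelfAdjoint a) (haJ : a ∈ J) (hna : ¬a ≤ 0) :
    ∃ γ : ℝ, 0 < γ ∧ ∀ F : Finset M, ∃ k ∈ J,
      (∀ v ∈ F, f (star v * k) = 0) ∧ f (star k * k) = 1 ∧ γ ≤ (f (star k * a * k)).re := by
  classical
  obtain ⟨t, ht, ht0⟩ : ∃ t ∈ spectrum ℝ a, 0 < t := by
    by_contra hc
    push Not at hc
    refine hna ?_
    rw [← cfc_id' ℝ a ha]
    exact cfc_nonpos (fun s : ℝ => s) a hc
  refine ⟨t / 2, half_pos ht0, fun F => ?_⟩
  set γ := t / 2 with hγ
  set z := cfc (fun s : ℝ => max (s - γ) 0) a with hz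
  have hzJ : z ∈ J := cfc_cut_mem hJ ha haJ (half_pos ht0)
  have hzne : z ≠ 0 := fun h => by
    have h1 : cfc (fun s : ℝ => max (s - γ) 0) a = cfc (fun _ : ℝ => (0 : ℝ)) a := by
      rw [cfc_const_zero]; exact hz.symm.trans h
    have h2 : max (t - γ) 0 = 0 :=
      eqOn_of_cfc_eq_cfc h1 (by fun_prop) (by fun_prop) ha ht
    linarith [le_max_left (t - γ) 0]
  have hzs : star z = z := (cfc_predicate (fun s : ℝ => max (s - γ) 0) a).star_eq
  have hzaz : γ • (z * z) ≤ z * a * z := by
    conv_rhs => arg 1; arg 2; rw [← cfc_id' ℝ a ha]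
    rw [hz, ← cfc_mul _ _ a, ← cfc_smul γ _ a, ← cfc_mul _ _ a, ← cfc_mul _ _ a]
    refine cfc_mono fun s _ => ?_
    rcases le_total s γ with hs | hs
    · simp [max_eq_right (sub_nonpos.2 hs)]
    · simp only [smul_eq_mul, max_eq_left (sub_nonneg.2 hs)]
      nlinarith [sq_nonneg (s - γ)]
  have hnot : ¬FinRank f z := fun h1 => hzne (finRank_eq_zero f hJ hfin hf hhJ hh hzJ h1)
  simp only [FinRank, not_exists, not_forall, exists_prop] at hnot
  obtain ⟨e, he, he0⟩ := hnot (F.image (star z * ·))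
  set N := f (star (z * e) * (z * e)) with hN
  have hN0 : 0 < N := lt_of_le_of_ne (map_nonneg f (star_mul_self_nonneg _)) (Ne.symm he0)
  obtain ⟨hNre, hNim⟩ := Complex.pos_iff.1 hN0
  set s : ℂ := Complex.ofReal (Real.sqrt N.re)⁻¹ with hs
  have hsN : s * s * N = 1 := by
    rw [hs, ← Complex.ofReal_mul, ← mul_inv, Real.mul_self_sqrt hNre.le]
    apply Complex.ext <;> simp [hNre.ne', ← hNim]
  have hss : star s = s := by rw [hs]; exact Complex.conj_ofReal _
  refine ⟨s • (z * e), hJ.smul_mem s (hJ.mul_right e hzJ), fun v hv => ?_, ?_, ?_⟩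
  · have := he _ (Finset.mem_image_of_mem _ hv)
    simp only [star_mul, star_star, mul_assoc] at this
    simp [this]
  · rw [star_smul, smul_mul_smul_comm, hss, map_smul, smul_eq_mul, ← hN, hsN]
  · have e1 : star (s • (z * e)) * a * (s • (z * e)) = (s * s) • (star e * (z * a * z) * e) := by
      simp only [star_smul, hss, star_mul, hzs, smul_mul_assoc, mul_smul_comm, smul_smul, mul_assoc]
    have e2 : star e * (γ • (z * z)) * e = (γ : ℂ) • (star (z * e) * (z * e)) := by
      simp only [← Complex.coe_smul, star_mul, hzs, smul_mul_assoc, mul_smul_comm, mul_assoc]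
    have h3 := Uni.OneStep.conj_form_le f e hzaz
    rw [e2, map_smul, smul_eq_mul, ← hN] at h3
    have h4 := mul_le_mul_of_nonneg_left h3 (show 0 ≤ s * s by
      rw [hs, ← Complex.ofReal_mul]; exact Complex.zero_le_real.2 (mul_self_nonneg _))
    rw [← mul_assoc, mul_comm (s * s), mul_assoc, hsN, mul_one, ← smul_eq_mul (s * s),
      ← map_smul, ← e1] at h4
    simpa using (Complex.le_def.1 h4).1

/-- The limits of one-step maps with entries in `J` orthogonal to arbitrary finite sets. -/
def lims (J : Set M) (C : Finset M) : Set (C → ι → ι → ℂ) :=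
  ⋂ F : Finset M, closure (vals f C '' {d : ι → M | Orth f F d ∧ ∀ i, d i ∈ J})

variable [Fintype ι]

omit [StarOrderedRing M] [Fintype ι] in
theorem lims_smul (hJ : IsBase J) (C : Finset M) {p : C → ι → ι → ℂ} (hp : p ∈ lims f J C) {t : ℝ}
    (ht : 0 ≤ t) : t • p ∈ lims f J C := by
  refine Set.mem_iInter.2 fun F =>
    map_mem_closure (continuous_const_smul t) (Set.mem_iInter.1 hp F) ?_
  rintro _ ⟨d, ⟨hd, hdJ⟩, rfl⟩
  refine ⟨fun i => (Real.sqrt t : ℂ) • d i,
    ⟨fun v hv i => by simp [hd v hv i], fun i => hJ.smul_mem _ (hdJ i)⟩, ?_⟩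
  funext y i j
  simp [vals, star_smul, ← mul_assoc, ← Complex.ofReal_mul, Real.mul_self_sqrt ht]

theorem lims_add (hJ : IsBase J) (C : Finset M) {p q : C → ι → ι → ℂ} (hp : p ∈ lims f J C)
    (hq : q ∈ lims f J C) : p + q ∈ lims f J C := by
  classical
  refine Set.mem_iInter.2 fun F => Metric.mem_closure_iff.2 fun ε hε => ?_
  obtain ⟨_, ⟨d, ⟨hd, hdJ⟩, rfl⟩, h1⟩ :=
    Metric.mem_closure_iff.1 (Set.mem_iInter.1 hp F) (ε / 2) (half_pos hε)
  let X : Finset M := ((Finset.univ : Finset ι) ×ˢ (C ∪ C.image star)).image fun x => x.2 * d x.1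
  obtain ⟨_, ⟨e, ⟨he, heJ⟩, rfl⟩, h2⟩ :=
    Metric.mem_closure_iff.1 (Set.mem_iInter.1 hq (F ∪ X)) (ε / 2) (half_pos hε)
  have hX : ∀ w ∈ C ∪ C.image star, ∀ i j, f (star (w * d i) * e j) = 0 := fun w hw i j =>
    he _ (Finset.mem_union_right _ (Finset.mem_image.2
      ⟨(i, w), Finset.mem_product.2 ⟨Finset.mem_univ i, hw⟩, rfl⟩)) j
  refine ⟨_, ⟨d + e, ⟨fun v hv i => ?_, fun i => hJ.add_mem (hdJ i) (heJ i)⟩, rfl⟩, ?_⟩
  · simp [mul_add, hd v hv i, he v (Finset.mem_union_left _ hv) i]
  have key : vals f C (d + e) = vals f C d + vals f C e := by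
    funext y i j
    have e1 : f (star (d i) * y * e j) = 0 := by
      simpa [star_mul, mul_assoc] using
        hX (star (y : M)) (Finset.mem_union_right _ (Finset.mem_image_of_mem _ y.2)) i j
    have e2 : f (star (e i) * y * d j) = 0 := by
      have h0 := hX (y : M) (Finset.mem_union_left _ y.2) j i
      have := map_star f (star ((y : M) * d j) * e i)
      rw [h0, star_zero, star_mul, star_star, ← mul_assoc] at this
      exact this
    simp only [vals, Pi.add_apply, star_add, add_mul, mul_add, map_add, e1, e2]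
    abel
  rw [key]
  exact (dist_add_add_le _ _ _ _).trans_lt (by linarith)

omit [StarOrderedRing M] in
/-- Bounded values on each orthogonality class accumulate in the limit set. -/
theorem exists_cluster (C : Finset M) (g : StrongDual ℂ (C → ι → ι → ℂ)) {R γ : ℝ}
    (h : ∀ F : Finset M, ∃ d : ι → M, (Orth f F d ∧ ∀ i, d i ∈ J) ∧
      (∀ y i j, ‖vals f C d y i j‖ ≤ R) ∧ γ ≤ (g (vals f C d)).re) (hR : 0 ≤ R) :
    ∃ p ∈ lims f J C, γ ≤ (g p).re := by
  classical
  have hcl : IsClosed {p : C → ι → ι → ℂ | γ ≤ (g p).re} :=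
    isClosed_le continuous_const (Complex.continuous_re.comp g.continuous)
  obtain ⟨p, hp⟩ := IsCompact.nonempty_iInter_of_directed_nonempty_isCompact_isClosed
    (fun F : Finset M => closure (vals f C '' {d | Orth f F d ∧ ∀ i, d i ∈ J}) ∩
      (Metric.closedBall 0 R ∩ {p | γ ≤ (g p).re}))
    (fun F F' => ⟨F ∪ F',
      Set.inter_subset_inter_left _ (closure_mono (Set.image_mono fun d hd =>
        ⟨fun v hv => hd.1 v (Finset.mem_union_left _ hv), hd.2⟩)),
      Set.inter_subset_inter_left _ (closure_mono (Set.image_mono fun d hd =>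
        ⟨fun v hv => hd.1 v (Finset.mem_union_right _ hv), hd.2⟩))⟩)
    (fun F => by
      obtain ⟨d, hd, hd1, hd2⟩ := h F
      exact ⟨_, subset_closure ⟨d, hd, rfl⟩, by
        simpa [pi_norm_le_iff_of_nonneg hR] using hd1, hd2⟩)
    (fun F => ((isCompact_closedBall 0 R).inter_right hcl).inter_left isClosed_closure)
    (fun F => isClosed_closure.inter (Metric.isClosed_closedBall.inter hcl))
  rw [Set.mem_iInter] at hp
  exact ⟨p, Set.mem_iInter.2 fun F => (hp F).1, (hp ∅).2.2⟩

omit [PartialOrder M] [StarOrderedRing M] in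
theorem quad_sym_dual_mem (hJ : IsBase J) (C : Finset M) (hC : (↑C : Set M) ⊆ J)
    (g : StrongDual ℂ (C → ι → ι → ℂ)) (b : ι → M) : quad (sym (dualMat C g)) b ∈ J := by
  have hd : ∀ i j, dualMat C g i j ∈ J := fun i j =>
    sum_mem hJ _ fun y _ => hJ.smul_mem _ (hC y.2)
  exact sum_mem hJ _ fun i _ => sum_mem hJ _ fun j _ =>
    hJ.mul_right _ (hJ.mul_left _ (hJ.add_mem (hd i j) (hJ.star_mem (hd j i))))

/-- Orthogonal families in `J` on which a non-negative direction of a functional is visible. -/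
theorem exists_family (hJ : IsBase J) (hfin : NoFinite J) (hf : f 1 = 1) {h : M} (hhJ : h ∈ J)
    (hh : f h = 1) (C : Finset M) (hC : (↑C : Set M) ⊆ J)
    (g : StrongDual ℂ (C → ι → ι → ℂ)) (b : ι → M)
    (hb : ¬quad (sym (dualMat C g)) b ≤ 0) : ∃ γ R : ℝ, 0 < γ ∧ 0 ≤ R ∧ ∀ F : Finset M,
      ∃ d : ι → M, (Orth f F d ∧ ∀ i, d i ∈ J) ∧ (∀ y i j, ‖vals f C d y i j‖ ≤ R) ∧
        γ ≤ (g (vals f C d)).re := by
  classical
  have hsa : IsSelfAdjoint (quad (sym (dualMat C g)) b) := by
    rw [Uni.OneStep.quad_sym]; exact IsSelfAdjoint.add_star_self _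
  obtain ⟨γ, hγ, hk⟩ :=
    exists_pick f hJ hfin hf hhJ hh hsa (quad_sym_dual_mem hJ C hC g b) hb
  refine ⟨γ / 2, ∑ y : C, ∑ i, ∑ j, 2 * ‖star (b i) * (y : M) * b j‖, half_pos hγ,
    by positivity, fun F => ?_⟩
  obtain ⟨k, hkJ, hkF, hk1, hk2⟩ := hk
    (((Finset.univ : Finset ι) ×ˢ F).image fun x => star (b x.1) * x.2)
  refine ⟨fun i => b i * k, ⟨fun v hv i => ?_, fun i => hJ.mul_left _ hkJ⟩, fun y i j => ?_, ?_⟩
  · have := hkF _ (Finset.mem_image.2
      ⟨(i, v), Finset.mem_product.2 ⟨Finset.mem_univ i, hv⟩, rfl⟩)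
    simpa only [star_mul, star_star, mul_assoc] using this
  · simp only [vals, star_mul]
    rw [show star k * star (b i) * y * (b j * k) = star k * (star (b i) * y * b j) * k by
      simp only [mul_assoc]]
    refine (Uni.OneStep.norm_form_le f k hk1 _).trans ?_
    refine le_trans ?_ (Finset.single_le_sum (fun y _ => by positivity) (Finset.mem_univ y))
    refine le_trans ?_ (Finset.single_le_sum (fun i _ => by positivity) (Finset.mem_univ i))
    exact Finset.single_le_sum (f := fun j => 2 * ‖star (b i) * (y : M) * b j‖)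
      (fun j _ => by positivity) (Finset.mem_univ j)
  · have e5 : ∀ q : M, star k * star q * k = star (star k * q * k) := fun q => by
      simp [star_mul, mul_assoc]
    rw [Uni.OneStep.quad_sym, mul_add, add_mul, map_add, e5, map_star, Complex.add_re,
      Complex.star_def, Complex.conj_re, ← Uni.OneStep.dual_vals] at hk2
    linarith

/-- A completely positive map into matrices is a limit of one-step maps with entries in `J`. -/
theorem mem_lims (hJ : IsBase J) (hfin : NoFinite J) (hf : f 1 = 1) {h : M} (hhJ : h ∈ J)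
    (hh : f h = 1) (θ : M →ₗ[ℂ] ι → ι → ℂ)
    (hpos : ∀ x : ι → M, 0 ≤ ∑ i, ∑ j, θ (star (x i) * x j) i j)
    (hstar : ∀ a i j, θ (star a) i j = star (θ a j i)) (C : Finset M) (hC : (↑C : Set M) ⊆ J) :
    (fun y : C => θ y) ∈ lims f J C := by
  by_contra hθ
  have h0 : (0 : C → ι → ι → ℂ) ∈ lims f J C := Set.mem_iInter.2 fun F =>
    subset_closure ⟨0, ⟨fun v _ i => by simp, fun _ => hJ.zero_mem⟩, by funext y i j; simp [vals]⟩
  obtain ⟨g, u, hg, hu⟩ := RCLike.geometric_hahn_banach_closed_point (𝕜 := ℂ)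
    (convex_iff_add_mem.2 fun p hp q hq a b ha hb _ =>
      lims_add f hJ C (lims_smul f hJ C hp ha) (lims_smul f hJ C hq hb))
    (isClosed_iInter fun _ => isClosed_closure) hθ
  simp only [RCLike.re_to_complex] at hg hu
  have hu0 : 0 < u := by simpa using hg 0 h0
  have hle : ∀ p ∈ lims f J C, (g p).re ≤ 0 := by
    intro p hp
    by_contra hpos'
    have := hg _ (lims_smul f hJ C hp (div_nonneg hu0.le (not_le.1 hpos').le))
    simp only [← Complex.coe_smul, map_smul, smul_eq_mul, Complex.re_ofReal_mul] at this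
    rw [div_mul_cancel₀ _ (ne_of_gt (not_le.1 hpos'))] at this
    exact lt_irrefl _ this
  by_cases hneg : ∀ b, quad (sym (dualMat C g)) b ≤ 0
  · rw [Uni.OneStep.dual_apply C g θ] at hu
    linarith [Uni.OneStep.re_nonpos_of_sym θ hpos hstar _ hneg]
  push Not at hneg
  obtain ⟨b, hb⟩ := hneg
  obtain ⟨γ, R, hγ, hR, hd⟩ := exists_family f hJ hfin hf hhJ hh C hC g b hb
  obtain ⟨p, hp, hp'⟩ := exists_cluster f C g hd hR
  linarith [hle p hp]

omit [PartialOrder M] [StarOrderedRing M] f in
/-- The identity of a base ideal with infinite dimensional corners is approximated by one-step maps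
through any state living on it, given the matrix approximation. -/
theorem oneStep_goal (hJ : IsBase J) (hfin : NoFinite J) (hn : IsNuclearOn J) :
    OneStepGoal J := by
  let := CStarAlgebra.spectralOrder M
  have := CStarAlgebra.spectralOrderedRing M
  intro φ hφ1 hφp ⟨h, hhJ, _, hh⟩ C hC ε hε
  let f : M →ₚ[ℂ] ℂ := .mk₀ φ fun a ha => by
    obtain ⟨x, rfl⟩ := CStarAlgebra.nonneg_iff_eq_star_mul_self.1 ha
    exact hφp x
  obtain ⟨e, heJ, hen, hey⟩ := exists_local_unit hJ C hC (show (0 : ℝ) < ε / 4 by positivity)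
  obtain ⟨D, φ₀, ψ, hcp, -, hψ, -, happ⟩ := hn C hC (ε / 4) (by positivity)
  let P : Fin D → Fin D → M := fun k l => ψ (Matrix.single k l 1)
  have hP : ∀ b, 0 ≤ quad P b := by
    intro b
    obtain ⟨a, ha⟩ := hψ D (fun i => Matrix.single (⟨0, i.pos⟩ : Fin D) i 1) b
    rw [show quad P b = star a * a by
      rw [← ha]
      simp [quad, P, Matrix.star_eq_conjTranspose, Matrix.conjTranspose_single,
        Matrix.single_mul_single_same]]
    exact star_mul_self_nonneg a
  obtain ⟨x, hx⟩ := Uni.OneStep.exists_gram P hP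
  have hstar : ∀ a k l, φ₀ (star a) k l = star (φ₀ a l k) := by
    intro a k l
    let Q : Fin 2 × Fin D → Fin 2 × Fin D → ℂ := fun p q =>
      φ₀ (star (![1, a] p.1) * ![1, a] q.1) p.2 q.2
    have hq : ∀ v, 0 ≤ quad Q v := by
      intro v
      refine le_of_le_of_eq (hcp 2 ![1, a] fun i p => v (i, p)) ?_
      simp only [quad, Q, Fintype.sum_prod_type, dotProduct, Matrix.mulVec,
        Pi.star_apply, Finset.mul_sum, mul_assoc]
      exact Finset.sum_congr rfl fun i _ => Finset.sum_comm
    have := Uni.OneStep.star_apply_of_quad Q (fun v => (IsSelfAdjoint.of_nonneg (hq v)).star_eq)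
      (0, l) (1, k)
    simpa [Q] using this.symm
  let θ : M →ₗ[ℂ] Fin D × Fin D → Fin D × Fin D → ℂ :=
    LinearMap.pi fun p => LinearMap.pi fun q => if p.1 = q.1 then
      (LinearMap.proj q.2 ∘ₗ LinearMap.proj p.2) ∘ₗ φ₀ else 0
  have hθ : ∀ a p q, θ a p q = if p.1 = q.1 then φ₀ a p.2 q.2 else 0 := fun a p q => by
    simp only [θ, LinearMap.pi_apply]; split_ifs <;> rfl
  have hmem := mem_lims f hJ hfin hφ1 hhJ hh θ (fun y => by
      simp only [hθ, Fintype.sum_prod_type]
      refine Finset.sum_nonneg fun r _ => ?_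
      refine le_of_le_of_eq (hcp D (fun k => y (r, k)) fun k => Pi.single k 1) ?_
      simp [dotProduct, Pi.single_apply, Matrix.mulVec])
    (fun a p q => by
      rw [hθ, hθ, apply_ite (star : ℂ → ℂ), star_zero, ← hstar]
      simp [eq_comm]) C hC
  let c : Fin D × Fin D → M := fun p => x p.1 p.2 * e
  let S : ℝ := ∑ p, ∑ q, ‖star (c p) * c q‖
  have hS : 0 ≤ S := by positivity
  obtain ⟨_, ⟨d, ⟨-, hdJ⟩, rfl⟩, hd⟩ := Metric.mem_closure_iff.1 (Set.mem_iInter.1 hmem ∅)
    (ε / (2 * (S + 1))) (by positivity)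
  refine ⟨D * D, d ∘ finProdFinEquiv.symm, c ∘ finProdFinEquiv.symm,
    fun i => ⟨hdJ _, hJ.mul_left _ heJ⟩, fun y hy => ?_⟩
  have hre : ∀ g : Fin D × Fin D → Fin D × Fin D → M,
      ∑ i, ∑ j, g (finProdFinEquiv.symm i) (finProdFinEquiv.symm j) = ∑ p, ∑ q, g p q := fun g =>
    Fintype.sum_equiv finProdFinEquiv.symm _ _ fun i =>
      Fintype.sum_equiv finProdFinEquiv.symm _ _ fun j => rfl
  have hlim : ∑ p, ∑ q, θ y p q • (star (c p) * c q) = star e * ψ (φ₀ y) * e := by
    have e1 : ψ (φ₀ y) = ∑ k, ∑ l, φ₀ y k l • P k l := by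
      conv_lhs => rw [Matrix.matrix_eq_sum_single (φ₀ y)]
      simp only [map_sum]
      refine Finset.sum_congr rfl fun k _ => Finset.sum_congr rfl fun l _ => ?_
      rw [show φ₀ y k l • P k l = ψ (φ₀ y k l • Matrix.single k l 1) from (map_smul ..).symm]
      simp [Matrix.smul_single]
    simp only [e1, hx, hθ, c, Fintype.sum_prod_type, Finset.smul_sum, ite_smul, zero_smul,
      Finset.sum_ite_irrel, Finset.sum_const_zero, Finset.sum_ite_eq, Finset.mem_univ, if_true,
      Finset.mul_sum, Finset.sum_mul, mul_smul_comm, smul_mul_assoc, star_mul, mul_assoc]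
    rw [Finset.sum_comm]
    exact Finset.sum_congr rfl fun k _ => Finset.sum_comm
  have hnear : ‖star e * ψ (φ₀ y) * e - y‖ ≤ ε / 2 := by
    calc ‖star e * ψ (φ₀ y) * e - y‖
        = ‖star e * (ψ (φ₀ y) - y) * e + (star e * y * e - y)‖ := by
          rw [mul_sub, sub_mul, sub_add_sub_cancel]
      _ ≤ ‖star e‖ * ‖ψ (φ₀ y) - y‖ * ‖e‖ + ε / 4 :=
          (norm_add_le _ _).trans (add_le_add ((norm_mul_le _ _).trans
            (mul_le_mul_of_nonneg_right (norm_mul_le _ _) (norm_nonneg _))) (hey y hy))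
      _ ≤ 1 * (ε / 4) * 1 + ε / 4 := by
          gcongr
          · rwa [norm_star]
          · exact happ y hy
      _ = ε / 2 := by ring
  calc ‖∑ i, ∑ j, φ (star ((d ∘ finProdFinEquiv.symm) i) * y * (d ∘ finProdFinEquiv.symm) j) •
        (star ((c ∘ finProdFinEquiv.symm) i) * (c ∘ finProdFinEquiv.symm) j) - y‖
      = ‖(∑ p, ∑ q, (vals f C d ⟨y, hy⟩ p q - θ y p q) • (star (c p) * c q)) +
          (star e * ψ (φ₀ y) * e - y)‖ := by
        simp only [Function.comp_apply,
          hre (fun p q => φ (star (d p) * y * d q) • (star (c p) * c q)), sub_smul,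
          Finset.sum_sub_distrib, hlim, sub_add_sub_cancel]
        rfl
    _ ≤ ε / (2 * (S + 1)) * S + ε / 2 := by
        refine (norm_add_le _ _).trans (add_le_add ?_ hnear)
        simp only [S, Finset.mul_sum]
        refine norm_sum_le_of_le _ fun p _ => norm_sum_le_of_le _ fun q _ => ?_
        rw [norm_smul]
        refine mul_le_mul_of_nonneg_right ?_ (norm_nonneg _)
        rw [← dist_eq_norm, dist_comm]
        refine le_trans ?_ hd.le
        exact ((dist_le_pi_dist _ _ q).trans (dist_le_pi_dist _ _ p)).trans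
          (dist_le_pi_dist (fun y : C => θ y) _ ⟨y, hy⟩)
    _ ≤ ε := by
        have : ε / (2 * (S + 1)) * S ≤ ε / 2 := by
          rw [div_mul_eq_mul_div, div_le_div_iff₀ (by positivity) two_pos]; nlinarith
        linarith

end Vale.Agent.P095.NU.OneStep
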