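import Vale.Agent.P095.NU.Basics
import Vale.Agent.P095.NU.Spread
import Vale.Agent.P095.Uni.SI

/-!
# P095: equivariant property (SI) relative to a simple ideal

As in the unital case, `s₀ = v (∑ dᵢ x cᵢ)` where `v` is a unit for the given elements, `∑ dᵢ · cᵢ`
comes from a one-step approximation through an excised state, and `x` comes from comparison below
a deep member of the excising sequence. The element `s` is the average of `s₀` over a Følner set.
All estimates are read on given elements of `J`.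
-/

open scoped ComplexOrder ENNReal
open Filter Topology

noncomputable section

namespace Vale.Agent.P095.NU

variable {G : Type*} {M : Type*} [CStarAlgebra M] [PartialOrder M] [StarOrderedRing M] {J : Set M}
variable {α : G → M ≃⋆ₐ[ℂ] M}

namespace SI

omit [PartialOrder M] [StarOrderedRing M] in
/-- A unit between the two factors may be removed. -/
theorem sandwich {w e z : M} (he : ‖e‖ ≤ 1) (hw : ‖w‖ ≤ 1) :
    ‖w * e * w * z - e * z‖ ≤ 2 * ‖w * z - z‖ + ‖w * e - e * w‖ * ‖z‖ ∧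
      ‖z * (w * e * w) - z * e‖ ≤ 2 * ‖z * w - z‖ + ‖w * e - e * w‖ * ‖z‖ := by
  have hwe : ‖w * e‖ ≤ 1 := (norm_mul_le _ _).trans (mul_le_one₀ hw (norm_nonneg _) he)
  have hew : ‖e * w‖ ≤ 1 := (norm_mul_le _ _).trans (mul_le_one₀ he (norm_nonneg _) hw)
  constructor
  · have e1 : w * e * w * z - e * z =
        w * e * (w * z - z) + (w * e - e * w) * z + e * (w * z - z) := by
      simp only [mul_sub, sub_mul, mul_assoc]; abel
    rw [e1]
    refine norm_add₃_le.trans ?_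
    have h1 : ‖w * e * (w * z - z)‖ ≤ ‖w * z - z‖ :=
      (norm_mul_le _ _).trans (mul_le_of_le_one_left (norm_nonneg _) hwe)
    have h2 : ‖e * (w * z - z)‖ ≤ ‖w * z - z‖ :=
      (norm_mul_le _ _).trans (mul_le_of_le_one_left (norm_nonneg _) he)
    linarith [norm_mul_le (w * e - e * w) z]
  · have e1 : z * (w * e * w) - z * e =
        (z * w - z) * (e * w) + z * (e * w - w * e) + (z * w - z) * e := by
      simp only [mul_sub, sub_mul, mul_assoc]; abel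
    rw [e1]
    refine norm_add₃_le.trans ?_
    have h1 : ‖(z * w - z) * (e * w)‖ ≤ ‖z * w - z‖ :=
      (norm_mul_le _ _).trans (mul_le_of_le_one_right (norm_nonneg _) hew)
    have h2 : ‖(z * w - z) * e‖ ≤ ‖z * w - z‖ :=
      (norm_mul_le _ _).trans (mul_le_of_le_one_right (norm_nonneg _) he)
    have h3 := norm_mul_le z (e * w - w * e)
    rw [norm_sub_rev (e * w), mul_comm ‖z‖] at h3
    linarith

variable (E : Excision J α)

theorem bdd_h (hJ : IsBase J) : ∀ k, IsBdd J (E.h k) := by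
  intro k
  induction k with
  | zero => exact E.bdd
  | succ k ih => exact ih.of_mul_eq hJ (E.nonneg _) (E.nested k)

theorem h_star (k : ℕ) : star (E.h k) = E.h k :=
  (IsSelfAdjoint.of_nonneg (E.nonneg k)).star_eq

theorem isTri_h (hJ : IsBase J) (k : ℕ) : IsTri J (E.h (k + 2)) :=
  ⟨E.nonneg _, (E.norm_eq _).le, E.h (k + 1), E.h k, E.nonneg _, (E.norm_eq _).le, E.nonneg _,
    (E.norm_eq _).le, E.nested _, E.nested _, bdd_h E hJ k⟩

/-- The state lives on `J`. -/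
theorem φ_h_zero : E.φ (E.h 0) = 1 := by
  have h1 : ∀ j, E.h 0 * E.h (j + 1) = E.h (j + 1) := by
    intro j
    induction j with
    | zero => exact E.nested 0
    | succ j ih => rw [← E.nested (j + 1), ← mul_assoc, ih]
  have h2 : ∀ j, ‖E.h j * E.h j‖ = 1 := fun j => by
    have h : ‖star (E.h j) * E.h j‖ = ‖E.h j‖ * ‖E.h j‖ := CStarRing.norm_star_mul_self
    rwa [h_star, E.norm_eq, one_mul] at h
  have h3 : Tendsto (fun j => (1 - E.φ (E.h 0)) • (E.h (j + 1) * E.h (j + 1))) atTop (𝓝 0) := by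
    refine ((E.excise _ (E.mem 0)).comp (tendsto_add_atTop_nat 1)).congr fun j => ?_
    show E.h (j + 1) * E.h 0 * E.h (j + 1) - _ = _
    rw [mul_assoc, h1, sub_smul, one_smul]
  have h4 := h3.norm
  simp only [norm_smul, h2, mul_one, norm_zero] at h4
  have h5 := tendsto_nhds_unique tendsto_const_nhds h4
  rw [norm_eq_zero, sub_eq_zero] at h5
  exact h5.symm

variable {u : M} {l : Filter ℕ} {e f : ℕ → M} {ρ : ℝ}

/-- The trace of a compressed power is bounded below. -/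
theorem lower_bound (hJ : IsBase J) [Nontrivial M] (hρ : 0 < ρ) {g h' : M} (hmem : h' ∈ J)
    (hh's : star h' = h') {T : ETr J} (hTu : T.t u = 1) (hfin : T.t (star h' * h') ≠ ∞)
    {K : ℝ} (hK0 : 0 < K) (hK : T.t u ≤ ENNReal.ofReal K * T.t (h' * h')) {L : ℕ} (hL1 : 1 ≤ L)
    (hf0 : 0 ≤ g) (hf1 : ‖g‖ ≤ 1) {μ : ℝ} (hμ2 : μ + L * μ ≤ ρ / K / 2)
    (hn2 : T.val h' (g - g * g) ≤ μ) (hn3 : |T.val h' g - ρ * T.val h' 1| ≤ μ) :
    ENNReal.ofReal (ρ / K / 2) ≤ T.t (h' * g ^ L * h') := by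
  have hfM : 0 ≤ g ^ L := by
    rw [← cfc_pow_id (R := ℝ) g L]
    exact cfc_nonneg fun t ht => pow_nonneg (spectrum_nonneg_of_nonneg hf0 ht) L
  have hu' : 0 ≤ g - g ^ L := by
    have e1 : g - g ^ L = cfc (fun t : ℝ => t - t ^ L) g := by
      rw [cfc_sub _ _ g (by fun_prop) (by fun_prop), cfc_id' ℝ g, cfc_pow_id g L]
    rw [e1]
    exact cfc_nonneg fun t ht => sub_nonneg.2
      (pow_le_of_le_one (Uni.SI.spectrum_mem hf0 hf1 ht).1 (Uni.SI.spectrum_mem hf0 hf1 ht).2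
        (by omega))
  have hff : 0 ≤ g - g * g := by
    have e1 : g - g * g = cfc (fun t : ℝ => t - t * t) g := by
      rw [cfc_sub _ _ g (by fun_prop) (by fun_prop),
        cfc_mul _ _ g (by fun_prop) (by fun_prop), cfc_id' ℝ g]
    rw [e1]
    exact cfc_nonneg fun t ht => by
      obtain ⟨h0, h1⟩ := Uni.SI.spectrum_mem hf0 hf1 ht
      nlinarith
  have h1 : 1 ≤ K * T.val h' 1 := by
    have h := hK
    rw [hTu] at h
    have htop : T.t (h' * h') ≠ ∞ := by rwa [hh's] at hfin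
    have h4' := ENNReal.toReal_mono (ENNReal.mul_ne_top ENNReal.ofReal_ne_top htop) h
    rw [ENNReal.toReal_one, ENNReal.toReal_mul, ENNReal.toReal_ofReal hK0.le] at h4'
    rwa [ETr.val, mul_one, hh's]
  have h2 : T.val h' g = T.val h' (g ^ L) + T.val h' (g - g ^ L) := by
    rw [← ETr.val_add hJ hmem hfin hfM hu', add_sub_cancel]
  have h3 : T.val h' (g - g ^ L) ≤ L * T.val h' (g - g * g) := by
    rw [← ETr.val_smul hJ hmem (Nat.cast_nonneg _) hff]
    exact ETr.val_mono hJ hmem hfin hu' (Uni.SI.sub_pow_le_smul hf0 hf1 hL1)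
  have h4 : (ρ / K) ≤ ρ * T.val h' 1 := by
    rw [div_le_iff₀ hK0]
    nlinarith [mul_le_mul_of_nonneg_left h1 hρ.le]
  have h5 := (abs_le.1 hn3).1
  have h6 := mul_le_mul_of_nonneg_left hn2 (Nat.cast_nonneg (α := ℝ) L)
  have h7 : (ρ / K) / 2 ≤ T.val h' (g ^ L) := by linarith
  rw [ETr.val, hh's] at h7
  exact ENNReal.ofReal_le_of_le_toReal h7

/-- An element below a member of the excising sequence, almost fixed by `f`, with
`x⋆ x ≈ w e w`. -/
theorem exists_below (hJ : IsBase J) (hc : CompareGoal J) (hu : IsBdd J u) (hu0 : u ≠ 0)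
    (hT : ∃ T : ETr J, T.t u = 1) (hρ : 0 < ρ)
    (hb : ∀ n, 0 ≤ e n ∧ ‖e n‖ ≤ 1 ∧ 0 ≤ f n ∧ ‖f n‖ ≤ 1)
    (hfc : ∀ c ∈ J, Tendsto (fun n => c * f n - f n * c) l (𝓝 0))
    (htr : ∀ v, IsTri J v → ∀ ε : ℝ, 0 < ε → ∀ᶠ n in l, ∀ T : ETr J, T.t u = 1 →
      T.val v (e n) ≤ ε ∧ T.val v (f n - f n * f n) ≤ ε ∧
        |T.val v (f n) - ρ * T.val v 1| ≤ ε)
    {w : M} (hw : IsTri J w) (k : ℕ) {γ : ℝ} (hγ : 0 < γ) (hγ1 : γ ≤ 1) :
    ∀ᶠ n in l, ∃ x : M, E.h (k + 1) * x = x ∧ ‖x‖ ≤ 2 ∧ ‖star x * x - w * e n * w‖ ≤ γ ∧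
      ‖f n * x - x‖ ≤ γ := by
  have : Nontrivial M := ⟨⟨E.h 0, 0, fun h0 => by
    have := E.norm_eq 0
    rw [h0, norm_zero] at this
    exact zero_ne_one this⟩⟩
  set h' := E.h (k + 2) with hh'
  have hh's : star h' = h' := h_star E _
  have hh'n : ‖h'‖ = 1 := E.norm_eq _
  have hp : (0 : M) ≤ h' * h' := by
    have := star_mul_self_nonneg h'
    rwa [hh's] at this
  have hp0 : h' * h' ≠ 0 := fun h0 => by
    have h1 : ‖star h' * h'‖ = ‖h'‖ * ‖h'‖ := CStarRing.norm_star_mul_self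
    rw [hh's, h0, norm_zero, hh'n] at h1
    norm_num at h1
  obtain ⟨K, hK0, hK⟩ := ETr.exists_le_mul hJ hu (hJ.mul_left h' (E.mem _)) hp hp0
  obtain ⟨Kg, hKg0, hKg⟩ := ETr.exists_le_mul hJ (bdd_h E hJ (k + 1)) hu.mem hu.nonneg hu0
  set c0 : ℝ := ρ / K
  have hc0 : 0 < c0 := by positivity
  obtain ⟨δc, η, hδc, hη, hcomp⟩ := hc u hu hu0 (c0 / 2) Kg γ (by positivity) hKg0 hγ
  obtain ⟨L, hL⟩ := exists_nat_gt (8 / (γ * η))
  have hL1 : 1 ≤ L := by
    have h0 : (0 : ℝ) < L := lt_trans (by positivity) hL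
    exact_mod_cast h0
  have hLinv : (L : ℝ)⁻¹ ≤ γ * η / 8 := by
    rw [inv_le_iff_one_le_mul₀ (by positivity)]
    rw [div_lt_iff₀ (by positivity)] at hL
    linarith
  set μ : ℝ := c0 / (2 * (L + 1))
  have hμ : 0 < μ := by positivity
  have hμ2 : μ + L * μ ≤ c0 / 2 := by
    refine le_of_eq ?_
    simp only [μ]; field_simp; ring
  filter_upwards [Uni.SI.eventually_norm_le (hfc h' (E.mem _)) (show 0 < γ * η / 8 by positivity),
    htr w hw δc hδc, htr h' (isTri_h E hJ k) μ hμ] with n hnh hnw hnk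
  obtain ⟨he0, he1, hf0, hf1⟩ := hb n
  have hfM : 0 ≤ f n ^ L := by
    rw [← cfc_pow_id (R := ℝ) (f n) L]
    exact cfc_nonneg fun t ht => pow_nonneg (spectrum_nonneg_of_nonneg hf0 ht) L
  set b : M := h' * f n ^ L * h' with hbdef
  have hb0 : 0 ≤ b := by
    have := star_left_conjugate_nonneg hfM h'
    rwa [hh's] at this
  have hb1 : ‖b‖ ≤ 1 := by
    refine (norm_mul₃_le).trans ?_
    rw [hh'n, one_mul, mul_one]
    exact (norm_pow_le' _ hL1).trans (pow_le_one₀ (norm_nonneg _) hf1)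
  have hws : star w = w := (IsSelfAdjoint.of_nonneg hw.nonneg).star_eq
  have ha : IsBdd J (w * e n * w) := by
    have hq : star (CFC.sqrt w) = CFC.sqrt w :=
      (IsSelfAdjoint.of_nonneg (CFC.sqrt_nonneg w)).star_eq
    have hqq := CFC.sqrt_mul_sqrt_self w hw.nonneg
    have h1 := (hw.isBdd hJ).conj hJ (CFC.sqrt w)
    have h2 : star (CFC.sqrt w) * w * CFC.sqrt w = w * w := by
      rw [hq]; generalize CFC.sqrt w = q at hqq; subst hqq; simp only [mul_assoc]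
    rw [h2] at h1
    refine h1.of_le hJ (by simpa [hws] using star_left_conjugate_nonneg he0 w) ?_
    have h3 := star_left_conjugate_le_conjugate
      ((IsSelfAdjoint.le_algebraMap_norm_self (.of_nonneg he0)).trans
        ((Algebra.algebraMap_eq_smul_one _).le.trans
          (smul_le_smul_of_nonneg_right he1 (zero_le_one (α := M))))) w
    simpa [hws] using h3
  have hgb : E.h (k + 1) * b = b := by
    rw [hbdef, ← mul_assoc, ← mul_assoc, hh', E.nested (k + 1)]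
  obtain ⟨x, -, hxe, hbx⟩ := hcomp (w * e n * w) b (E.h (k + 1)) ha
    ((norm_mul₃_le).trans (mul_le_one₀ (mul_le_one₀ hw.norm_le (norm_nonneg _) he1)
      (norm_nonneg _) hw.norm_le)) hb0 hb1 (E.norm_eq _).le (bdd_h E hJ _) hgb hT fun T hTu => by
    have hfinw := T.star_mul_self_ne_top hJ hu hu0 hTu (hw.isBdd hJ)
    have hfin := T.star_mul_self_ne_top hJ hu hu0 hTu (bdd_h E hJ (k + 2))
    have hmem : h' ∈ J := E.mem _
    have hgle := hKg T
    rw [hTu, mul_one] at hgle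
    refine ⟨hgle, ?_, ?_⟩
    · exact lower_bound hJ hρ hmem hh's hTu hfin hK0 (hK T) hL1 hf0 hf1 hμ2 (hnk T hTu).2.1
        (hnk T hTu).2.2
    · obtain ⟨hn1, -, -⟩ := hnw T hTu
      rw [ETr.val, hws] at hn1
      have htop := ETr.compress_ne_top hJ (hw.mem hJ) hfinw he0
      rw [hws] at htop
      exact (ENNReal.le_ofReal_iff_toReal_le htop hδc.le).2 hn1
  have hbsa : IsSelfAdjoint b := .of_nonneg hb0
  have hbr : cfc (Uni.ramp η) b = b * cfc (Uni.SI.quot η) b := by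
    rw [cfc_congr (fun t _ => Uni.SI.ramp_eq_mul_quot hη t),
      cfc_mul (fun t => t) _ b (by fun_prop) (Uni.SI.continuous_quot hη).continuousOn,
      cfc_id' ℝ b]
  have hhx : E.h (k + 1) * x = x := by
    rw [← hbx, ← mul_assoc, hbr, ← mul_assoc (E.h (k + 1)), hgb]
  have hx2 : ‖x‖ ≤ 2 := by
    have h1 := norm_le_norm_add_norm_sub' (star x * x) (w * e n * w)
    have h2 : ‖w * e n * w‖ ≤ 1 := (norm_mul₃_le).trans
      (mul_le_one₀ (mul_le_one₀ hw.norm_le (norm_nonneg _) he1) (norm_nonneg _) hw.norm_le)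
    rw [CStarRing.norm_star_mul_self] at h1
    nlinarith [norm_nonneg x, hγ1]
  have hfx : ‖f n * x - x‖ ≤ γ := by
    have e1 : f n * x - x = (f n * b - b) * cfc (Uni.SI.quot η) b * x := by
      conv_lhs => rw [← hbx, hbr]
      simp only [sub_mul, mul_assoc]
    have h1 : ‖f n * b - b‖ ≤ γ * η / 4 := by
      have e2 : f n * b - b = (f n * h' - h' * f n) * f n ^ L * h' +
          h' * (f n * f n ^ L - f n ^ L) * h' := by
        simp only [b, sub_mul, mul_sub, mul_assoc]; abel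
      rw [e2]
      refine (norm_add_le _ _).trans ?_
      have h2 : ‖(f n * h' - h' * f n) * f n ^ L * h'‖ ≤ γ * η / 8 := by
        refine (norm_mul₃_le).trans ?_
        rw [hh'n, mul_one, norm_sub_rev]
        exact (mul_le_of_le_one_right (norm_nonneg _)
          ((norm_pow_le' _ hL1).trans (pow_le_one₀ (norm_nonneg _) hf1))).trans hnh
      have h3 : ‖h' * (f n * f n ^ L - f n ^ L) * h'‖ ≤ γ * η / 8 := by
        refine (norm_mul₃_le).trans ?_
        rw [hh'n, one_mul, mul_one]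
        exact (Uni.SI.norm_mul_pow_sub_le hf0 hf1 hL1).trans hLinv
      linarith
    rw [e1]
    refine (norm_mul₃_le).trans ?_
    calc ‖f n * b - b‖ * ‖cfc (Uni.SI.quot η) b‖ * ‖x‖ ≤ γ * η / 4 * (2 / η) * 2 :=
          mul_le_mul (mul_le_mul h1 (Uni.SI.norm_cfc_quot_le hη b) (norm_nonneg _) (by positivity))
            hx2 (norm_nonneg _) (by positivity)
      _ = γ := by field_simp; ring
  exact ⟨x, hhx, hx2, hxe, hfx⟩

omit [PartialOrder M] [StarOrderedRing M] in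
/-- The commutator is small when the forms are close on `c`, `star c` and `star c * c`. -/
theorem comm_le {s e c : M} {β R : ℝ} (hR : ‖c‖ ≤ R) (hβ : 0 ≤ β)
    (h1 : ‖(star s * s - e) * c‖ ≤ β * (1 + R))
    (h2 : ‖star s * c * s - e * c‖ ≤ β) (h3 : ‖star s * star c * s - e * star c‖ ≤ β)
    (h4 : ‖star s * (star c * c) * s - e * (star c * c)‖ ≤ β) :
    ‖c * s - s * c‖ ^ 2 ≤ 4 * β * (1 + R) ^ 2 := by
  have hR0 : 0 ≤ R := (norm_nonneg c).trans hR
  rw [sq, ← CStarRing.norm_star_mul_self]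
  have e1 : star (c * s - s * c) * (c * s - s * c) =
      (star s * (star c * c) * s - e * (star c * c)) -
      (star s * star c * s - e * star c) * c -
      star c * (star s * c * s - e * c) + star c * ((star s * s - e) * c) := by
    simp only [star_sub, star_mul, sub_mul, mul_sub, mul_assoc]
    abel
  rw [e1]
  have n2 : ‖(star s * star c * s - e * star c) * c‖ ≤ β * R :=
    (norm_mul_le _ _).trans (mul_le_mul h3 hR (norm_nonneg _) hβ)
  have n3 : ‖star c * (star s * c * s - e * c)‖ ≤ R * β :=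
    (norm_mul_le _ _).trans (mul_le_mul ((norm_star c).trans_le hR) h2 (norm_nonneg _) hR0)
  have n4 : ‖star c * ((star s * s - e) * c)‖ ≤ R * (β * (1 + R)) :=
    (norm_mul_le _ _).trans (mul_le_mul ((norm_star c).trans_le hR) h1 (norm_nonneg _) hR0)
  refine ((norm_add_le _ _).trans (add_le_add ((norm_sub_le _ _).trans
    (add_le_add ((norm_sub_le _ _).trans (add_le_add h4 n2)) n3)) n4)).trans ?_
  nlinarith [mul_nonneg hβ hR0, mul_nonneg hβ (sq_nonneg R)]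

include E in
/-- An almost central element with `s⋆ s ≈ e` on given elements, almost fixed by `f`, almost
orthogonal to its translates by given members which are not centrally trivial. -/
theorem exists_seed (hJ : IsBase J) (hαJ : ∀ g a, α g a ∈ J ↔ a ∈ J) (hc : CompareGoal J)
    (ho : OneStepGoal J) (hu : IsBdd J u) (hu0 : u ≠ 0) (hT : ∃ T : ETr J, T.t u = 1)
    (hρ : 0 < ρ) (hb : ∀ n, 0 ≤ e n ∧ ‖e n‖ ≤ 1 ∧ 0 ≤ f n ∧ ‖f n‖ ≤ 1)
    (hec : ∀ c ∈ J, Tendsto (fun n => c * e n - e n * c) l (𝓝 0))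
    (hfc : ∀ c ∈ J, Tendsto (fun n => c * f n - f n * c) l (𝓝 0))
    (htr : ∀ v, IsTri J v → ∀ ε : ℝ, 0 < ε → ∀ᶠ n in l, ∀ T : ETr J, T.t u = 1 →
      T.val v (e n) ≤ ε ∧ T.val v (f n - f n * f n) ≤ ε ∧
        |T.val v (f n) - ρ * T.val v 1| ≤ ε)
    (C : Finset M) (hC : (↑C : Set M) ⊆ J) (D : Finset G)
    (hD : ∀ g ∈ D, ¬CentrallyTrivial J (α g)) {δ : ℝ} (hδ : 0 < δ) (hδ1 : δ ≤ 1) :
    ∀ᶠ n in l, ∃ s : M, ‖star s * s‖ ≤ 2 ∧
      (∀ c ∈ C, ‖(star s * s - e n) * c‖ ≤ δ ∧ ‖c * s - s * c‖ ≤ δ) ∧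
      ‖f n * s - s‖ ≤ δ ∧ ∀ g ∈ D, ‖star s * α g s‖ ≤ δ := by
  classical
  set R₀ : ℝ := ∑ c ∈ C, ‖c‖
  have hR₀ : 0 ≤ R₀ := Finset.sum_nonneg fun _ _ => norm_nonneg _
  set β : ℝ := δ ^ 2 / (4 * (1 + R₀) ^ 2)
  have hβ : 0 < β := by positivity
  have hβ' : β * (4 * (1 + R₀) ^ 2) = δ ^ 2 := div_mul_cancel₀ _ (by positivity)
  have hβR : β * (1 + R₀) ≤ δ := by nlinarith
  have hβ1 : β ≤ 1 := by nlinarith
  set a : ℝ := β / 4
  have ha : 0 < a := by positivity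
  -- the outer unit
  set C₁ : Finset M := C ∪ C.image star ∪ C.image fun c => star c * c with hC₁
  have hC₁J : (↑C₁ : Set M) ⊆ J := by
    intro z hz
    simp only [hC₁, Finset.mem_coe, Finset.mem_union, Finset.mem_image] at hz
    rcases hz with (hz | ⟨c, hc, rfl⟩) | ⟨c, hc, rfl⟩
    · exact hC hz
    · exact hJ.star_mem (hC hc)
    · exact hJ.mul_left _ (hC hc)
  obtain ⟨v, hv, hvC⟩ := hJ.exists_tri C₁ hC₁J (show 0 < β / 4 by positivity)
  have hvs : star v = v := (IsSelfAdjoint.of_nonneg hv.nonneg).star_eq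
  have hvJ : v ∈ J := hv.mem hJ
  -- the one step map
  set Y : Finset M := (insert 1 C₁).image fun z => v * z * v with hY
  have hYJ : (↑Y : Set M) ⊆ J := by
    intro z hz
    simp only [hY, Finset.mem_coe, Finset.mem_image] at hz
    obtain ⟨y, -, rfl⟩ := hz
    exact hJ.mul_left _ hvJ
  obtain ⟨m, d, c, hdcJ, hdc⟩ := ho E.φ E.φ_one E.φ_nonneg
    ⟨E.h 0, E.mem 0, (E.norm_eq 0).le, φ_h_zero E⟩ Y hYJ (a / 2) (by positivity)
  set d' : Fin m → M := fun i => v * d i with hd'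
  have hd'J : ∀ i, d' i ∈ J := fun i => hJ.mul_right _ hvJ
  set Rc : ℝ := ∑ i, ‖c i‖
  set Rd : ℝ := ∑ i, ‖d' i‖
  set Rφ : ℝ := ∑ y ∈ Y, ∑ i, ∑ j, ‖E.φ (star (d i) * y * d j)‖
  have hRc : 0 ≤ Rc := Finset.sum_nonneg fun _ _ => norm_nonneg _
  have hRd : 0 ≤ Rd := Finset.sum_nonneg fun _ _ => norm_nonneg _
  have hRφ : 0 ≤ Rφ := Finset.sum_nonneg fun _ _ =>
    Finset.sum_nonneg fun _ _ => Finset.sum_nonneg fun _ _ => norm_nonneg _
  set R : ℝ := 1 + 4 * Rc ^ 2 + Rφ * (Rc ^ 2 + Rc) + (2 + Rd) * Rc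
  have hp1 : 0 ≤ Rφ * (Rc ^ 2 + Rc) := by positivity
  have hp2 : 0 ≤ (2 + Rd) * Rc := by positivity
  have hp3 : 0 ≤ Rc ^ 2 := by positivity
  have hR : 1 ≤ R := by simp only [R]; linarith
  set γ : ℝ := min 1 (a / 2 / R)
  have hγ : 0 < γ := lt_min one_pos (by positivity)
  have hγR : γ * R ≤ a / 2 :=
    (le_div_iff₀ (by linarith : (0 : ℝ) < R)).1 (min_le_right 1 (a / 2 / R))
  have hγa : γ ≤ a := by nlinarith [mul_le_mul_of_nonneg_left hR hγ.le]
  -- the inner unit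
  set W : Finset M := Y ∪ Finset.univ.image c ∪ Finset.univ.image fun i => star (c i) with hW
  have hWJ : (↑W : Set M) ⊆ J := by
    intro z hz
    simp only [hW, Finset.mem_coe, Finset.mem_union, Finset.mem_image] at hz
    rcases hz with (hz | ⟨i, -, rfl⟩) | ⟨i, -, rfl⟩
    · exact hYJ hz
    · exact (hdcJ i).2
    · exact hJ.star_mem (hdcJ i).2
  obtain ⟨w, hw, hwW⟩ := hJ.exists_tri W hWJ (show 0 < γ / 12 by positivity)
  set RW : ℝ := ∑ z ∈ W, ‖z‖
  have hRW : 0 ≤ RW := Finset.sum_nonneg fun _ _ => norm_nonneg _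
  set γ' : ℝ := γ / (12 * (1 + RW))
  have hγ' : 0 < γ' := by positivity
  have hγ'' : ∀ z ∈ W, γ' * ‖z‖ ≤ γ / 12 := fun z hz => by
    have h1 : ‖z‖ ≤ 1 + RW := by
      linarith [Finset.single_le_sum (f := fun z : M => ‖z‖) (fun _ _ => norm_nonneg _) hz]
    refine (mul_le_mul_of_nonneg_left h1 hγ'.le).trans_eq ?_
    simp only [γ']; field_simp
  -- the level
  have hzJ : ∀ y ∈ Y, ∀ i j, star (d i) * y * d j ∈ J := fun y hy i j =>
    hJ.mul_right _ (hJ.mul_left _ (hYJ hy))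
  have hmJ : ∀ g i j, star (d' i) * α g (d' j) ∈ J := fun g i j =>
    hJ.mul_left _ ((hαJ g _).2 (hd'J j))
  have K1 : ∀ᶠ k in atTop, (∀ y ∈ Y, ∀ i j,
      ‖E.h (k + 1) * (star (d i) * y * d j) * E.h (k + 1) -
        E.φ (star (d i) * y * d j) • (E.h (k + 1) * E.h (k + 1))‖ ≤ γ) ∧
      ∀ g ∈ D, ∀ i j, ‖E.h (k + 1) * (star (d' i) * α g (d' j)) * α g (E.h (k + 1))‖ ≤ γ :=
    (tendsto_add_atTop_nat 1).eventually <|
    (((eventually_all_finset Y).2 fun y hy => eventually_all.2 fun i => eventually_all.2 fun j =>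
      Uni.SI.eventually_norm_le (E.excise _ (hzJ y hy i j)) hγ).and
    ((eventually_all_finset D).2 fun g hg => eventually_all.2 fun i => eventually_all.2 fun j =>
      Uni.SI.eventually_norm_le (E.moved g (hD g hg) _ (hmJ g i j)) hγ))
  obtain ⟨k, hk, hkm⟩ := K1.exists
  have E1 : ∀ᶠ n in l, ‖w * e n - e n * w‖ ≤ γ' ∧ ∀ i,
      ‖e n * star (c i) - star (c i) * e n‖ ≤ γ / 2 ∧ ‖d' i * f n - f n * d' i‖ ≤ γ :=
    (Uni.SI.eventually_norm_le (hec w (hw.mem hJ)) hγ').and <| eventually_all.2 fun i => by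
      have h1 := Uni.SI.eventually_norm_le (hec _ (hJ.star_mem (hdcJ i).2)) (half_pos hγ)
      simp only [norm_sub_rev (star (c i) * e _)] at h1
      exact h1.and (Uni.SI.eventually_norm_le (hfc _ (hd'J i)) hγ)
  filter_upwards [E1, exists_below E hJ hc hu hu0 hT hρ hb hfc htr hw k hγ (min_le_left _ _)]
    with n hn1 hx
  obtain ⟨x, hhx, hx2, hxe, hfx⟩ := hx
  obtain ⟨hnw, hn1⟩ := hn1
  obtain ⟨-, he1, -, -⟩ := hb n
  set e' : M := w * e n * w with he'
  have he'1 : ‖e'‖ ≤ 1 := (norm_mul₃_le).trans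
    (mul_le_one₀ (mul_le_one₀ hw.norm_le (norm_nonneg _) he1) (norm_nonneg _) hw.norm_le)
  have hsand : ∀ z ∈ W, ‖e' * z - e n * z‖ ≤ γ / 4 ∧ ‖z * e' - z * e n‖ ≤ γ / 4 := by
    intro z hz
    obtain ⟨s1, s2⟩ := sandwich (z := z) he1 hw.norm_le
    have h1 := (mul_le_mul_of_nonneg_right hnw (norm_nonneg z)).trans (hγ'' z hz)
    obtain ⟨g1, g2⟩ := hwW z hz
    exact ⟨s1.trans (by linarith), s2.trans (by linarith)⟩
  have hce : ∀ i, ‖e' * star (c i) - star (c i) * e'‖ ≤ γ := fun i => by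
    obtain ⟨g1, g2⟩ := hsand (star (c i)) (Finset.mem_union_right _
      (Finset.mem_image_of_mem _ (Finset.mem_univ i)))
    rw [norm_sub_rev] at g2
    have e1 : e' * star (c i) - star (c i) * e' = (e' * star (c i) - e n * star (c i)) +
        (e n * star (c i) - star (c i) * e n) + (star (c i) * e n - star (c i) * e') := by abel
    rw [e1]
    refine norm_add₃_le.trans ?_
    linarith [(hn1 i).1]
  have hks : star (E.h (k + 1)) = E.h (k + 1) := h_star E _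
  set s₀ : M := ∑ i, d' i * x * c i with hs₀
  have hs₀' : s₀ = v * ∑ i, d i * x * c i := by
    simp only [hs₀, hd', Finset.mul_sum, mul_assoc]
  -- excision
  have hTz : ∀ z ∈ insert 1 C₁, ‖star s₀ * z * s₀ - e n * (v * z * v)‖ ≤ 2 * a := fun z hz => by
    have hy : v * z * v ∈ Y := Finset.mem_image_of_mem _ hz
    have h1 : ‖star (∑ i, d i * x * c i) * (v * z * v) * (∑ i, d i * x * c i) -
        e' * (v * z * v)‖ ≤ 2 * (a / 2) := by
      refine Uni.SI.excise_bound c d hks hhx hx2 hxe he'1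
        (fun i j => E.φ (star (d i) * (v * z * v) * d j)) (hk _ hy) hce ?_ (hdc _ hy)
      refine le_trans (mul_le_mul_of_nonneg_left ?_ hγ.le) hγR
      have hφy : ∑ i, ∑ j, ‖E.φ (star (d i) * (v * z * v) * d j)‖ ≤ Rφ :=
        Finset.single_le_sum (f := fun y => ∑ i, ∑ j, ‖E.φ (star (d i) * y * d j)‖)
          (fun _ _ => Finset.sum_nonneg fun _ _ => Finset.sum_nonneg fun _ _ => norm_nonneg _) hy
      have h3 := mul_le_mul_of_nonneg_right hφy (show 0 ≤ Rc ^ 2 + Rc by positivity)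
      simp only [R]
      linarith
    have e1 : star s₀ * z * s₀ =
        star (∑ i, d i * x * c i) * (v * z * v) * (∑ i, d i * x * c i) := by
      rw [hs₀']
      simp only [star_mul, hvs, mul_assoc]
    rw [e1]
    refine (norm_sub_le_norm_sub_add_norm_sub _ (e' * (v * z * v)) _).trans ?_
    linarith [(hsand _ (Finset.mem_union_left _ (Finset.mem_union_left _ hy))).1]
  have hv2 : ∀ z ∈ C₁, ‖v * z * v - z‖ ≤ β / 2 ∧ ‖v * v * z - z‖ ≤ β / 2 := fun z hz => by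
    obtain ⟨g1, g2⟩ := hvC z hz
    have h1 : ‖v * (z * v - z)‖ ≤ β / 4 :=
      ((norm_mul_le _ _).trans (mul_le_of_le_one_left (norm_nonneg _) hv.norm_le)).trans g2
    have h2 : ‖v * (v * z - z)‖ ≤ β / 4 :=
      ((norm_mul_le _ _).trans (mul_le_of_le_one_left (norm_nonneg _) hv.norm_le)).trans g1
    constructor
    · rw [show v * z * v - z = v * (z * v - z) + (v * z - z) by rw [mul_sub, mul_assoc]; abel]
      linarith [norm_add_le (v * (z * v - z)) (v * z - z)]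
    · rw [show v * v * z - z = v * (v * z - z) + (v * z - z) by rw [mul_sub, mul_assoc]; abel]
      linarith [norm_add_le (v * (v * z - z)) (v * z - z)]
  have hone : ‖star s₀ * s₀ - e n * (v * v)‖ ≤ 2 * a := by
    simpa using hTz 1 (Finset.mem_insert_self _ _)
  have hS : ‖star s₀ * s₀‖ ≤ 2 := by
    refine (norm_le_norm_add_norm_sub' _ (e n * (v * v))).trans ?_
    have : ‖e n * (v * v)‖ ≤ 1 := (norm_mul_le _ _).trans (mul_le_one₀ he1 (norm_nonneg _)
      ((norm_mul_le _ _).trans (mul_le_one₀ hv.norm_le (norm_nonneg _) hv.norm_le)))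
    simp only [a] at hone
    linarith
  have hz : ∀ z ∈ C₁, ‖star s₀ * z * s₀ - e n * z‖ ≤ β := fun z hz => by
    refine (norm_sub_le_norm_sub_add_norm_sub _ (e n * (v * z * v)) _).trans ?_
    have h1 := hTz z (Finset.mem_insert_of_mem hz)
    have h2 : ‖e n * (v * z * v) - e n * z‖ ≤ β / 2 := by
      rw [← mul_sub]
      exact ((norm_mul_le _ _).trans (mul_le_of_le_one_left (norm_nonneg _) he1)).trans (hv2 z hz).1
    simp only [a] at h1
    linarith
  have hcC₁ : ∀ y ∈ C, y ∈ C₁ := fun y hy => Finset.mem_union_left _ (Finset.mem_union_left _ hy)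
  have hgr : ∀ y ∈ C, ‖(star s₀ * s₀ - e n) * y‖ ≤ β * (1 + R₀) := fun y hy => by
    have hyR : ‖y‖ ≤ R₀ :=
      Finset.single_le_sum (f := fun c => ‖c‖) (fun _ _ => norm_nonneg _) hy
    have e1 : (star s₀ * s₀ - e n) * y =
        (star s₀ * s₀ - e n * (v * v)) * y + e n * (v * v * y - y) := by
      simp only [sub_mul, mul_sub, mul_assoc]; abel
    rw [e1]
    refine (norm_add_le _ _).trans ?_
    have h1 : ‖(star s₀ * s₀ - e n * (v * v)) * y‖ ≤ 2 * a * R₀ :=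
      (norm_mul_le _ _).trans (mul_le_mul hone hyR (norm_nonneg _) (by positivity))
    have h2 : ‖e n * (v * v * y - y)‖ ≤ β / 2 :=
      ((norm_mul_le _ _).trans (mul_le_of_le_one_left (norm_nonneg _) he1)).trans
        (hv2 y (hcC₁ y hy)).2
    simp only [a] at h1
    nlinarith [mul_nonneg hβ.le hR₀]
  refine ⟨s₀, hS, fun y hy => ⟨(hgr y hy).trans hβR, ?_⟩, ?_, fun g hg => ?_⟩
  · have hyR : ‖y‖ ≤ R₀ :=
      Finset.single_le_sum (f := fun c => ‖c‖) (fun _ _ => norm_nonneg _) hy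
    refine (sq_le_sq₀ (norm_nonneg _) hδ.le).1 ?_
    refine (comm_le (e := e n) hyR hβ.le (hgr y hy) (hz y (hcC₁ y hy))
      (hz _ (Finset.mem_union_left _ (Finset.mem_union_right _ (Finset.mem_image_of_mem _ hy))))
      (hz _ (Finset.mem_union_right _ (Finset.mem_image.2 ⟨y, hy, rfl⟩)))).trans_eq ?_
    rw [← hβ']; ring
  · have e1 : f n * s₀ - s₀ = ∑ i, ((f n * d' i - d' i * f n) * x * c i +
        d' i * (f n * x - x) * c i) := by
      simp only [hs₀, Finset.mul_sum, ← Finset.sum_sub_distrib]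
      refine Finset.sum_congr rfl fun i _ => ?_
      simp only [sub_mul, mul_sub, mul_assoc]; abel
    rw [e1]
    refine (norm_sum_le_of_le _ (n := fun i => γ * ((2 + Rd) * ‖c i‖)) fun i _ => ?_).trans ?_
    · have hdR : ‖d' i‖ ≤ Rd :=
        Finset.single_le_sum (f := fun i => ‖d' i‖) (fun _ _ => norm_nonneg _) (Finset.mem_univ i)
      refine (norm_add_le _ _).trans ?_
      have n1 : ‖(f n * d' i - d' i * f n) * x * c i‖ ≤ γ * 2 * ‖c i‖ :=
        (norm_mul₃_le).trans (mul_le_mul_of_nonneg_right (mul_le_mul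
          (by rw [norm_sub_rev]; exact (hn1 i).2) hx2 (norm_nonneg _) hγ.le) (norm_nonneg _))
      have n2 : ‖d' i * (f n * x - x) * c i‖ ≤ Rd * γ * ‖c i‖ :=
        (norm_mul₃_le).trans (mul_le_mul_of_nonneg_right (mul_le_mul hdR hfx (norm_nonneg _) hRd)
          (norm_nonneg _))
      linarith
    · rw [← Finset.mul_sum, ← Finset.mul_sum]
      have : γ * ((2 + Rd) * Rc) ≤ γ * R := by
        refine mul_le_mul_of_nonneg_left ?_ hγ.le
        simp only [R]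
        linarith
      simp only [a] at hγR
      linarith [mul_nonneg hβ.le hR₀]
  · refine (Uni.SI.moved_bound c d' hks hhx hx2 (α g) (hkm g hg)).trans ?_
    have : γ * (4 * Rc ^ 2) ≤ γ * R := by
      refine mul_le_mul_of_nonneg_left ?_ hγ.le
      simp only [R]
      linarith
    simp only [a] at hγR
    linarith [mul_nonneg hβ.le hR₀]

end SI

namespace SI

omit [PartialOrder M] [StarOrderedRing M] in
/-- A test on the unit ball applies to elements of norm two. -/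
theorem scale_le {σ : M ≃⋆ₐ[ℂ] M} {F : Finset M} {d y : M} {δ θ : ℝ} (hy : ‖y‖ ≤ 2)
    (hF : ∀ z : M, ‖z‖ ≤ 1 → (∀ a ∈ F, ‖a * z - z * a‖ ≤ δ) → ‖(σ z - z) * d‖ ≤ θ)
    (hcom : ∀ a ∈ F, ‖a * y - y * a‖ ≤ δ) : ‖(σ y - y) * d‖ ≤ 2 * θ := by
  have h := hF ((1 / 2 : ℝ) • y) (by rw [norm_smul]; norm_num; linarith) fun a ha => by
    rw [mul_smul_comm, smul_mul_assoc, ← smul_sub, norm_smul]
    exact (mul_le_of_le_one_left (norm_nonneg _) (by norm_num)).trans (hcom a ha)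
  have e : σ ((1 / 2 : ℝ) • y) = (1 / 2 : ℝ) • σ y := by
    rw [← Complex.coe_smul, map_smul, Complex.coe_smul]
  rw [e, ← smul_sub, smul_mul_assoc, norm_smul] at h
  norm_num at h
  linarith

omit [PartialOrder M] [StarOrderedRing M] in
/-- Both sides from the test on `y` and on `star y`. -/
theorem both_sides {σ : M ≃⋆ₐ[ℂ] M} {d y : M} {θ : ℝ} (h : ‖(σ (star y) - star y) * star d‖ ≤ θ) :
    ‖d * (σ y - y)‖ ≤ θ := by
  rwa [← norm_star, star_mul, star_star, map_star, ← star_sub, star_star] at h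

/-- The error bound. -/
theorem exists_theta (n : ℕ) {R ε : ℝ} (hR : 1 ≤ R) (hε : 0 < ε) (hε1 : ε ≤ 1) :
    ∃ θ : ℝ, 0 < θ ∧ 128 * ((n : ℝ) ^ 2 * θ * R ^ 2) ≤ ε ^ 2 ∧
      128 * ((n : ℝ) ^ 2 * θ * R) ≤ ε ∧ 128 * ((n : ℝ) * θ * R) ≤ ε ∧ 128 * θ ≤ ε := by
  have hn0 : (0 : ℝ) ≤ n := Nat.cast_nonneg _
  refine ⟨ε ^ 2 / (128 * ((n : ℝ) + 1) ^ 2 * R ^ 2), by positivity, ?_, ?_, ?_, ?_⟩
  all_goals
    have hθe : ε ^ 2 / (128 * ((n : ℝ) + 1) ^ 2 * R ^ 2) * (128 * ((n : ℝ) + 1) ^ 2 * R ^ 2) =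
      ε ^ 2 := div_mul_cancel₀ _ (by positivity)
    have hθ0 : 0 < ε ^ 2 / (128 * ((n : ℝ) + 1) ^ 2 * R ^ 2) := by positivity
    generalize ε ^ 2 / (128 * ((n : ℝ) + 1) ^ 2 * R ^ 2) = θ at hθe hθ0 ⊢
    have hR2 : R ≤ R ^ 2 := by nlinarith
    have hsq : ε ^ 2 ≤ ε := by nlinarith
    have h2 : (n : ℝ) ^ 2 ≤ ((n : ℝ) + 1) ^ 2 := pow_le_pow_left₀ hn0 (by linarith) 2
    have h1 : (n : ℝ) ≤ ((n : ℝ) + 1) ^ 2 := by nlinarith
    have h3 : (1 : ℝ) ≤ ((n : ℝ) + 1) ^ 2 * R ^ 2 :=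
      one_le_mul_of_one_le_of_one_le (one_le_pow₀ (by linarith)) (one_le_pow₀ hR)
  · nlinarith [mul_le_mul_of_nonneg_left h2 (show 0 ≤ θ * R ^ 2 by positivity)]
  · nlinarith [mul_le_mul h2 hR2 (by linarith) (by positivity : (0:ℝ) ≤ ((n : ℝ) + 1) ^ 2)]
  · nlinarith [mul_le_mul h1 hR2 (by linarith) (by positivity : (0:ℝ) ≤ ((n : ℝ) + 1) ^ 2)]
  · nlinarith [mul_le_mul_of_nonneg_left h3 hθ0.le]

end SI

namespace Spread

variable [Group G] {K : Finset G} {δ : ℝ} (P : Spread J α K δ) {θ : ℝ}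
variable (hα : ∀ g h a, α (g * h) a = α g (α h a))
include hα

omit [PartialOrder M] [StarOrderedRing M] in
/-- A weighted sum of translates is small when the weights are. -/
theorem norm_sq_le {x : M} {B : ℝ} (a : Fin P.n → ℝ) (hθ : 0 ≤ θ) (hx : ‖star x * x‖ ≤ B)
    (ho : ∀ i j, i ≠ j → ‖star x * α ((P.r i)⁻¹ * P.r j) x‖ ≤ θ) :
    ‖∑ i, a i • α (P.r i) x‖ ^ 2 ≤ (∑ i, a i ^ 2) * B + (∑ i, |a i|) ^ 2 * θ := by
  rw [sq, ← CStarRing.norm_star_mul_self]
  have h1 := norm_gram_sub_le a (fun i => α (P.r i) x) (fun i => α (P.r i) x) hθ (P.cross_le hα ho)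
  have h2 : ‖∑ i, a i ^ 2 • (star (α (P.r i) x) * α (P.r i) x)‖ ≤ (∑ i, a i ^ 2) * B := by
    rw [Finset.sum_mul]
    refine norm_sum_le_of_le _ fun i _ => ?_
    rw [norm_smul, Real.norm_of_nonneg (sq_nonneg _), ← map_star, ← map_mul, StarAlgEquiv.norm_map]
    exact mul_le_mul_of_nonneg_left hx (sq_nonneg _)
  exact (norm_le_norm_add_norm_sub' _ _).trans (add_le_add h2 h1)

omit [PartialOrder M] [StarOrderedRing M] in
/-- The Gram element of the average, read on `c`. -/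
theorem gram_mul_le {x e c : M} (hθ : 0 ≤ θ)
    (hd : ∀ i, ‖(α (P.r i) (star x * x) - e) * c‖ ≤ θ)
    (ho : ∀ i j, i ≠ j → ‖star x * α ((P.r i)⁻¹ * P.r j) x‖ ≤ θ) :
    ‖(star (P.avg x) * P.avg x - e) * c‖ ≤ (P.n : ℝ) ^ 2 * θ * ‖c‖ + θ := by
  have h1 := norm_gram_sub_le P.w (fun i => α (P.r i) x) (fun i => α (P.r i) x) hθ (P.cross_le hα ho)
  have e1 : (star (P.avg x) * P.avg x - e) * c =
      (star (P.avg x) * P.avg x - ∑ i, P.w i ^ 2 • (star (α (P.r i) x) * α (P.r i) x)) * c +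
      ∑ i, P.w i ^ 2 • ((α (P.r i) (star x * x) - e) * c) := by
    simp only [map_mul, map_star, sub_mul, smul_sub, Finset.sum_sub_distrib, Finset.sum_mul,
      smul_mul_assoc, ← Finset.sum_smul, P.w_sq, one_smul]
    abel
  rw [e1]
  refine (norm_add_le _ _).trans (add_le_add ((norm_mul_le _ _).trans
    (mul_le_mul_of_nonneg_right (h1.trans (mul_le_mul_of_nonneg_right
      (pow_le_pow_left₀ (Finset.sum_nonneg fun i _ => abs_nonneg _) P.sum_abs_le 2) hθ))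
      (norm_nonneg _))) ?_)
  refine (norm_sum_le_of_le _ (n := fun i => P.w i ^ 2 * θ) fun i _ => ?_).trans ?_
  · rw [norm_smul, Real.norm_of_nonneg (sq_nonneg _)]
    exact mul_le_mul_of_nonneg_left (hd i) (sq_nonneg _)
  · rw [← Finset.sum_mul, P.w_sq, one_mul]

omit [PartialOrder M] [StarOrderedRing M] in
/-- The translate of the average splits into translates by trivial elements and a small sum. -/
theorem invariant_split {k : G} {σ : Fin P.n → Fin P.n}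
    (hσ : ∑ j, ((∑ i ∈ Finset.univ.filter (fun i => σ i = j), P.w i) - P.w j) ^ 2 ≤ δ)
    {x : M} {B : ℝ} (hθ : 0 ≤ θ) (hx : ‖star x * x‖ ≤ B)
    (ho : ∀ i j, i ≠ j → ‖star x * α ((P.r i)⁻¹ * P.r j) x‖ ≤ θ) :
    ∃ T : M, ‖T‖ ≤ Real.sqrt (δ * B + 4 * (P.n : ℝ) ^ 2 * θ) ∧ α k (P.avg x) - P.avg x =
      (∑ i, P.w i • α (P.r (σ i)) (α ((P.r (σ i))⁻¹ * (k * P.r i)) x - x)) + T := by
  set w' : Fin P.n → ℝ := fun j => ∑ i ∈ Finset.univ.filter (fun i => σ i = j), P.w i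
  refine ⟨∑ j, (w' j - P.w j) • α (P.r j) x, Real.le_sqrt_of_sq_le ?_, ?_⟩
  · refine (P.norm_sq_le hα _ hθ hx ho).trans (add_le_add
      (mul_le_mul_of_nonneg_right hσ ((norm_nonneg _).trans hx)) ?_)
    have h1 : ∑ j, |w' j - P.w j| ≤ 2 * P.n := by
      refine (Finset.sum_le_sum fun j _ => abs_sub (w' j) (P.w j)).trans ?_
      rw [Finset.sum_add_distrib]
      have h2 : ∑ j, |w' j| ≤ ∑ i, |P.w i| := by
        rw [← Finset.sum_fiberwise Finset.univ σ fun i => |P.w i|]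
        exact Finset.sum_le_sum fun j _ => Finset.abs_sum_le_sum_abs _ _
      linarith [P.sum_abs_le]
    refine (mul_le_mul_of_nonneg_right
      (pow_le_pow_left₀ (Finset.sum_nonneg fun j _ => abs_nonneg _) h1 2) hθ).trans_eq ?_
    ring
  · have e2 : ∑ i, P.w i • α (P.r (σ i)) x = ∑ j, w' j • α (P.r j) x := by
      simp only [w', Finset.sum_smul]
      rw [← Finset.sum_fiberwise Finset.univ σ]
      refine Finset.sum_congr rfl fun j _ => Finset.sum_congr rfl fun i hi => ?_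
      rw [(Finset.mem_filter.1 hi).2]
    have e0 : ∀ i, α k (P.w i • α (P.r i) x) = P.w i • α k (α (P.r i) x) := fun i => by
      rw [← Complex.coe_smul, map_smul, Complex.coe_smul]
    have e3 : ∀ i, α (P.r (σ i)) (α ((P.r (σ i))⁻¹ * (k * P.r i)) x - x) =
        α k (α (P.r i) x) - α (P.r (σ i)) x := fun i => by
      rw [map_sub, ← hα (P.r (σ i)), mul_inv_cancel_left, hα]
    simp only [avg, map_sum, e0, e3, smul_sub, sub_smul, Finset.sum_sub_distrib, e2]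
    abel


omit [PartialOrder M] [StarOrderedRing M] in
/-- The average is almost fixed by `f`, read on `c`. -/
theorem absorb_le {s f c : M} {θ R : ℝ} (hθ : 0 ≤ θ) (hR : 1 ≤ R) (hc : ‖c‖ ≤ R)
    (hs : ‖s‖ ≤ 2) (hf : ‖f‖ ≤ 1) (hfs : ‖f * s - s‖ ≤ θ)
    (hinv : ∀ i, ‖(α (P.r i) f - f) * c‖ ≤ θ)
    (hcom : ∀ i, ‖α (P.r i)⁻¹ c * s - s * α (P.r i)⁻¹ c‖ ≤ θ) :
    ‖(f * P.avg s - P.avg s) * c‖ ≤ P.n * (5 * θ * R) := by
  have e1 : (f * P.avg s - P.avg s) * c =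
      ∑ i, P.w i • ((f * α (P.r i) s - α (P.r i) s) * c) := by
    simp only [avg, Finset.mul_sum, mul_smul_comm, smul_sub, Finset.sum_sub_distrib, sub_mul,
      Finset.sum_mul, smul_mul_assoc]
  rw [e1]
  refine P.norm_wsum_le _ (by positivity) fun i _ => ?_
  have e2 : (f * α (P.r i) s - α (P.r i) s) * c =
      α (P.r i) (f * s - s) * c - ((α (P.r i) f - f) * c * α (P.r i) s +
        (α (P.r i) f - f) * α (P.r i) (s * α (P.r i)⁻¹ c - α (P.r i)⁻¹ c * s)) := by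
    simp only [map_sub, map_mul, AF.alpha_inv hα, sub_mul, mul_sub, mul_assoc]
    abel
  rw [e2]
  refine (norm_sub_le _ _).trans ?_
  have n1 : ‖α (P.r i) (f * s - s) * c‖ ≤ θ * R := (norm_mul_le _ _).trans
    (mul_le_mul ((StarAlgEquiv.norm_map _ _).trans_le hfs) hc (norm_nonneg _) hθ)
  have n2 : ‖(α (P.r i) f - f) * c * α (P.r i) s‖ ≤ θ * 2 := (norm_mul_le _ _).trans
    (mul_le_mul (hinv i) ((StarAlgEquiv.norm_map _ _).trans_le hs) (norm_nonneg _) hθ)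
  have n3 : ‖(α (P.r i) f - f) *
      α (P.r i) (s * α (P.r i)⁻¹ c - α (P.r i)⁻¹ c * s)‖ ≤ 2 * θ := by
    refine (norm_mul_le _ _).trans (mul_le_mul ((norm_sub_le _ _).trans ?_) ?_ (norm_nonneg _)
      zero_le_two)
    · rw [StarAlgEquiv.norm_map]; linarith
    · rw [StarAlgEquiv.norm_map, norm_sub_rev]; exact hcom i
  refine (add_le_add n1 ((norm_add_le _ _).trans (add_le_add n2 n3))).trans ?_
  nlinarith [mul_le_mul_of_nonneg_left hR hθ]

omit [PartialOrder M] [StarOrderedRing M] in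
/-- The average is almost fixed by `k`, read on `c` from both sides. -/
theorem invariant_mul_le {k : G} {σ : Fin P.n → Fin P.n}
    (hσ : ∑ j, ((∑ i ∈ Finset.univ.filter (fun i => σ i = j), P.w i) - P.w j) ^ 2 ≤ δ)
    {s c : M} {θ θ' B : ℝ} (hθ : 0 ≤ θ) (hθ' : 0 ≤ θ') (hs : ‖star s * s‖ ≤ B)
    (ho : ∀ i j, i ≠ j → ‖star s * α ((P.r i)⁻¹ * P.r j) s‖ ≤ θ)
    (hfix : ∀ i, P.w i ≠ 0 →
      ‖(α ((P.r (σ i))⁻¹ * (k * P.r i)) s - s) * α (P.r (σ i))⁻¹ c‖ ≤ θ' ∧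
      ‖α (P.r (σ i))⁻¹ c * (α ((P.r (σ i))⁻¹ * (k * P.r i)) s - s)‖ ≤ θ') :
    ‖(α k (P.avg s) - P.avg s) * c‖ ≤
        P.n * θ' + Real.sqrt (δ * B + 4 * (P.n : ℝ) ^ 2 * θ) * ‖c‖ ∧
      ‖c * (α k (P.avg s) - P.avg s)‖ ≤
        P.n * θ' + Real.sqrt (δ * B + 4 * (P.n : ℝ) ^ 2 * θ) * ‖c‖ := by
  obtain ⟨T, hTn, hTe⟩ := P.invariant_split hα hσ hθ hs ho
  constructor
  · rw [hTe, add_mul, Finset.sum_mul]
    refine (norm_add_le _ _).trans (add_le_add ?_
      ((norm_mul_le _ _).trans (mul_le_mul_of_nonneg_right hTn (norm_nonneg _))))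
    simp only [smul_mul_assoc]
    refine P.norm_wsum_le _ hθ' fun i hi => ?_
    have := (hfix i hi).1
    rwa [← StarAlgEquiv.norm_map (α (P.r (σ i))), map_mul, AF.alpha_inv hα] at this
  · rw [hTe, mul_add, Finset.mul_sum]
    refine (norm_add_le _ _).trans (add_le_add ?_ ((norm_mul_le _ _).trans
      ((mul_comm _ _).trans_le (mul_le_mul_of_nonneg_right hTn (norm_nonneg _)))))
    simp only [mul_smul_comm]
    refine P.norm_wsum_le _ hθ' fun i hi => ?_
    have := (hfix i hi).2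
    rwa [← StarAlgEquiv.norm_map (α (P.r (σ i))), map_mul, AF.alpha_inv hα] at this

end Spread

/-- **Equivariant property (SI) relative to `J`.** -/
theorem si_goal [Group G] (hJ : IsBase J) (hG : IsAmenableGroup G)
    (hα : ∀ g h a, α (g * h) a = α g (α h a)) (hαJ : ∀ g a, α g a ∈ J ↔ a ∈ J)
    (hc : CompareGoal J) (he : ExciseGoal J α) (ho : OneStepGoal J) : SIGoal J α := by
  classical
  obtain ⟨E⟩ := he
  intro u hu hu0 hT l e f ρ hρ hb he hf htr C hC K ε hε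
  obtain ⟨hec, hei⟩ := he
  obtain ⟨hfc, hfi⟩ := hf
  set ε₁ : ℝ := min ε 1
  have hε₁0 : 0 < ε₁ := lt_min hε one_pos
  have hε₁1 : ε₁ ≤ 1 := min_le_right _ _
  have hε₁ε : ε₁ ≤ ε := min_le_left _ _
  set Cs : Finset M := C ∪ C.image star with hCsdef
  have hCs : (↑Cs : Set M) ⊆ J := by
    intro z hz
    simp only [hCsdef, Finset.mem_coe, Finset.mem_union, Finset.mem_image] at hz
    rcases hz with hz | ⟨c, hc, rfl⟩
    · exact hC hz
    · exact hJ.star_mem (hC hc)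
  set R : ℝ := 1 + ∑ c ∈ Cs, ‖c‖
  have hR : 1 ≤ R := le_add_of_nonneg_right (Finset.sum_nonneg fun _ _ => norm_nonneg _)
  have hcR : ∀ c ∈ Cs, ‖c‖ ≤ R := fun c hc =>
    (Finset.single_le_sum (f := fun c : M => ‖c‖) (fun _ _ => norm_nonneg _) hc).trans
      (le_add_of_nonneg_left zero_le_one)
  obtain ⟨P⟩ := exists_spread (J := J) hG hα (fun g x => (hαJ g x).2) K
    (show (0 : ℝ) < ε₁ ^ 2 / (64 * R ^ 2) by positivity)
  choose σ hσN hσ2 using P.shift
  have hn0 : (0 : ℝ) ≤ P.n := Nat.cast_nonneg _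
  obtain ⟨θ, hθ0, hθnn, hθn2, hθn1, hθ1⟩ := SI.exists_theta P.n hR hε₁0 hε₁1
  -- finite sets detecting central triviality
  have hK : ∀ x : (↥K × Fin P.n) × ↥Cs, ∃ (F : Finset M) (δ : ℝ), (↑F : Set M) ⊆ J ∧ 0 < δ ∧
      (P.w x.1.2 ≠ 0 → ∀ y : M, ‖y‖ ≤ 1 → (∀ a ∈ F, ‖a * y - y * a‖ ≤ δ) →
        ‖(α ((P.r (σ x.1.1 x.1.1.2 x.1.2))⁻¹ * (x.1.1 * P.r x.1.2)) y - y) *
          α (P.r (σ x.1.1 x.1.1.2 x.1.2))⁻¹ x.2‖ ≤ θ) := by
    intro x
    by_cases hx : P.w x.1.2 = 0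
    · exact ⟨∅, 1, by simp, one_pos, fun h => absurd hx h⟩
    · obtain ⟨F, δ, hFJ, hδ, hF⟩ :=
        hσN x.1.1 x.1.1.2 x.1.2 hx _ ((hαJ _ _).2 (hCs x.2.2)) θ hθ0
      exact ⟨F, δ, hFJ, hδ, fun _ => hF⟩
  choose F δ hFJ hδ hF using hK
  obtain ⟨δ₀, hδ₀, hδ₀θ, hδ₀x⟩ : ∃ δ₀ : ℝ, 0 < δ₀ ∧ δ₀ ≤ θ / 2 ∧ ∀ x, δ₀ ≤ δ x :=
    ((eventually_mem_set.2 (self_mem_nhdsWithin (a := (0 : ℝ)) (s := Set.Ioi 0))).and
      ((((eventually_le_nhds (show (0 : ℝ) < θ / 2 by positivity))).and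
        (eventually_all.2 fun x => eventually_le_nhds (hδ x))).filter_mono
          nhdsWithin_le_nhds)).exists
  set C' : Finset M := Cs ∪ (Cs.biUnion fun c => Finset.univ.image fun i => α (P.r i)⁻¹ c) ∪
    Finset.univ.biUnion (fun x => F x ∪ (F x).image star) with hC'def
  have hC' : (↑C' : Set M) ⊆ J := by
    intro z hz
    simp only [hC'def, Finset.mem_coe, Finset.mem_union, Finset.mem_biUnion, Finset.mem_image,
      Finset.mem_univ, true_and] at hz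
    rcases hz with (hz | ⟨c, hc, i, rfl⟩) | ⟨x, hz | ⟨y, hy, rfl⟩⟩
    · exact hCs hz
    · exact (hαJ _ _).2 (hCs hc)
    · exact hFJ x hz
    · exact hJ.star_mem (hFJ x hy)
  set D : Finset G := ((Finset.univ : Finset (Fin P.n × Fin P.n)).filter fun x => x.1 ≠ x.2).image
    fun x => (P.r x.1)⁻¹ * P.r x.2
  have hD : ∀ g ∈ D, ¬CentrallyTrivial J (α g) := by
    intro g hg
    obtain ⟨x, hx, rfl⟩ := Finset.mem_image.1 hg
    exact P.moved _ _ (Finset.mem_filter.1 hx).2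
  have E2 : ∀ᶠ n in l, ∀ i, ∀ c ∈ Cs,
      ‖(α (P.r i) (e n) - e n) * c‖ ≤ θ / 2 ∧ ‖(α (P.r i) (f n) - f n) * c‖ ≤ θ / 2 :=
    eventually_all.2 fun i => (eventually_all_finset Cs).2 fun c hc =>
      (Uni.SI.eventually_norm_le ((hei (P.r i) c (hCs hc)).1) (half_pos hθ0)).and
        (Uni.SI.eventually_norm_le ((hfi (P.r i) c (hCs hc)).1) (half_pos hθ0))
  filter_upwards [SI.exists_seed E hJ hαJ hc ho hu hu0 hT hρ hb hec hfc htr C' hC' D hD hδ₀
    (by linarith), E2] with n hs hinv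
  obtain ⟨s₀, hs₀n, hs₀c, hs₀f, hs₀g⟩ := hs
  obtain ⟨-, he1, -, hf1⟩ := hb n
  have hs₀2 : ‖s₀‖ ≤ 2 := by
    rw [CStarRing.norm_star_mul_self] at hs₀n
    nlinarith [norm_nonneg s₀]
  have hor : ∀ i j, i ≠ j → ‖star s₀ * α ((P.r i)⁻¹ * P.r j) s₀‖ ≤ θ := fun i j hij =>
    (hs₀g _ (Finset.mem_image.2 ⟨(i, j), Finset.mem_filter.2 ⟨Finset.mem_univ _, hij⟩, rfl⟩)).trans
      (by linarith)
  have hCC : ∀ c ∈ C, c ∈ Cs := fun c hc => Finset.mem_union_left _ hc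
  have hCtr : ∀ c ∈ Cs, ∀ i, α (P.r i)⁻¹ c ∈ C' := fun c hc i =>
    Finset.mem_union_left _ (Finset.mem_union_right _
      (Finset.mem_biUnion.2 ⟨c, hc, Finset.mem_image.2 ⟨i, Finset.mem_univ _, rfl⟩⟩))
  refine ⟨P.avg s₀, ?_, fun c hc => ⟨?_, ?_, ?_⟩, fun k hk => ?_⟩
  · refine (sq_le_sq₀ (norm_nonneg _) zero_le_two).1 ?_
    refine (P.norm_sq_le hα P.w hθ0.le hs₀n hor).trans ?_
    rw [P.w_sq]
    have := mul_le_mul_of_nonneg_right
      (pow_le_pow_left₀ (Finset.sum_nonneg fun i _ => abs_nonneg _) P.sum_abs_le 2) hθ0.le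
    nlinarith [mul_le_mul_of_nonneg_left hR (show 0 ≤ (P.n : ℝ) ^ 2 * θ by positivity)]
  · have hd : ∀ i, ‖(α (P.r i) (star s₀ * s₀) - e n) * c‖ ≤ θ := fun i => by
      have e1 : (α (P.r i) (star s₀ * s₀) - e n) * c =
          α (P.r i) ((star s₀ * s₀ - e n) * α (P.r i)⁻¹ c) + (α (P.r i) (e n) - e n) * c := by
        rw [map_mul _ (star s₀ * s₀ - e n), map_sub, AF.alpha_inv hα, ← add_mul]
        congr 1
        abel
      rw [e1]
      refine (norm_add_le _ _).trans ?_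
      rw [StarAlgEquiv.norm_map]
      linarith [(hs₀c _ (hCtr c (hCC c hc) i)).1, (hinv i c (hCC c hc)).1]
    refine (P.gram_mul_le hα hθ0.le hd hor).trans ?_
    have := mul_le_mul_of_nonneg_left (hcR c (hCC c hc))
      (show 0 ≤ (P.n : ℝ) ^ 2 * θ by positivity)
    linarith
  · refine (P.absorb_le hα hθ0.le hR (hcR c (hCC c hc)) hs₀2 hf1 (by linarith)
      (fun i => (hinv i c (hCC c hc)).2.trans (by linarith))
      (fun i => (hs₀c _ (hCtr c (hCC c hc) i)).2.trans (by linarith))).trans ?_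
    linarith
  · refine (P.commutator_le hα c s₀ hθ0.le fun i => ?_).trans ?_
    · exact (hs₀c _ (hCtr c (hCC c hc) i)).2.trans (by linarith)
    · nlinarith [mul_le_mul_of_nonneg_left hR (show 0 ≤ (P.n : ℝ) * θ by positivity)]
  · have hT' : Real.sqrt (ε₁ ^ 2 / (64 * R ^ 2) * 2 + 4 * (P.n : ℝ) ^ 2 * θ) ≤ ε₁ / (2 * R) := by
      refine Real.sqrt_le_iff.2 ⟨by positivity, ?_⟩
      rw [div_pow, mul_pow, le_div_iff₀ (by positivity), add_mul,
        show ε₁ ^ 2 / (64 * R ^ 2) * 2 * (2 ^ 2 * R ^ 2) = ε₁ ^ 2 / 8 by field_simp; ring]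
      nlinarith [sq_nonneg ε₁]
    -- the translates by trivial elements, on both sides
    have hfix : ∀ c ∈ Cs, ∀ i, P.w i ≠ 0 → ∀ y : M, (y = s₀ ∨ y = star s₀) →
        ‖(α ((P.r (σ k hk i))⁻¹ * (k * P.r i)) y - y) * α (P.r (σ k hk i))⁻¹ c‖ ≤ 2 * θ := by
      intro c hc i hi y hy
      have hy2 : ‖y‖ ≤ 2 := by rcases hy with rfl | rfl <;> simp [hs₀2]
      refine SI.scale_le hy2 (hF ((⟨k, hk⟩, i), ⟨c, hc⟩) hi) fun a ha =>
        le_trans ?_ (hδ₀x ((⟨k, hk⟩, i), ⟨c, hc⟩))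
      rcases hy with rfl | rfl
      · exact (hs₀c _ (Finset.mem_union_right _ (Finset.mem_biUnion.2
          ⟨((⟨k, hk⟩, i), ⟨c, hc⟩), Finset.mem_univ _, Finset.mem_union_left _ ha⟩))).2
      · have h1 := (hs₀c (star a) (Finset.mem_union_right _ (Finset.mem_biUnion.2
          ⟨((⟨k, hk⟩, i), ⟨c, hc⟩), Finset.mem_univ _,
            Finset.mem_union_right _ (Finset.mem_image_of_mem _ ha)⟩))).2
        rwa [← norm_star, star_sub, star_mul, star_mul, star_star, norm_sub_rev] at h1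
    intro c hc
    have hb2 : Real.sqrt (ε₁ ^ 2 / (64 * R ^ 2) * 2 + 4 * (P.n : ℝ) ^ 2 * θ) * ‖c‖ ≤ ε₁ / 2 :=
      (mul_le_mul hT' (hcR c (hCC c hc)) (norm_nonneg _) (by positivity)).trans_eq (by field_simp)
    have hb1 : (P.n : ℝ) * (2 * θ) ≤ ε₁ / 2 := by
      linarith [mul_le_mul_of_nonneg_left hR (show 0 ≤ (P.n : ℝ) * θ by positivity)]
    obtain ⟨g1, g2⟩ := P.invariant_mul_le hα (c := c) (σ := σ k hk) (hσ2 k hk) hθ0.le
      (show (0 : ℝ) ≤ 2 * θ by positivity) hs₀n hor fun i hi =>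
        ⟨hfix c (hCC c hc) i hi s₀ (Or.inl rfl), SI.both_sides (by
          rw [← map_star]
          exact hfix (star c) (Finset.mem_union_right _ (Finset.mem_image_of_mem _ hc)) i hi
            (star s₀) (Or.inr rfl))⟩
    exact ⟨g1.trans (by linarith), g2.trans (by linarith)⟩

end Vale.Agent.P095.NU
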