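import Vale.Agent.P095.NU.Setting
import Vale.Agent.P095.Uni.Slots

/-!
# P095: slot elements relative to a base ideal, and infinite dimensionality of its corners
-/

open scoped ComplexOrder
open Filter Topology

noncomputable section

namespace Vale.Agent.P095.NU.Slots

variable {M : Type*} [CStarAlgebra M] {J : Set M}

/-- Central maps from large dimension drop algebras give the slot elements. -/
theorem slots_goal (hd : DropMapsOn J) : SlotsGoal J := by
  intro n k hk hkn C hC ε hε
  have : NeZero n := ⟨by omega⟩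
  obtain ⟨p, q, hp, hq, -, ψ, hψ, hc⟩ := hd C hC ε hε (4 * (k * n))
  obtain ⟨π, hπ⟩ := Uni.Slots.exists_hom hψ
  obtain ⟨R, h1, h2, h3⟩ := Uni.Slots.exists_slots (n := n) (k := k)
    (Uni.Slots.small (by omega) hkn hp) (Uni.Slots.small (by omega) hkn hq)
  refine ⟨fun s j => π (R s j), fun s t hst j l => ?_, fun s t j l => ?_, fun s => ?_,
    fun c hcC s j => ?_⟩
  · rw [← map_star, ← map_mul, h1 s t hst, map_zero]
  · rw [← map_star, ← map_mul, ← map_star, ← map_mul, h2 s t]
  · simp only [← map_star, ← map_mul, ← map_sum, h3, map_one]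
  · dsimp only
    rw [hπ]
    refine hc c hcC _ (R s j).2 ?_
    rw [← hπ]
    refine Uni.Slots.norm_le_one (R := fun j => π (R s j)) ?_ j
    simp only [← map_star, ← map_mul, ← map_sum, h3, map_one]

/-- The compressed range projections of almost central slots are almost orthogonal and not small. -/
theorem finite_bound {n k : ℕ} (R : Fin k → Fin n → M)
    (h1 : ∀ s t, s ≠ t → ∀ j l, star (R s j) * R t l = 0)
    (h3 : ∀ s, ∑ j, star (R s j) * R s j = 1) (p : M) {e : ℝ} (he : 0 ≤ e)
    (hc : ∀ s j, ‖p * star p * R s j - R s j * (p * star p)‖ ≤ e) (g : Fin k → ℂ)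
    (hg : ∑ s, g s • (star p * (∑ j, R s j * star (R s j)) * p) = 0) (t : Fin k)
    (ht : ∀ s, ‖g s‖ ≤ ‖g t‖) (ht0 : g t ≠ 0) :
    ‖p * star p * (p * star p)‖ ≤
      n * (Real.sqrt (‖p‖ ^ 2 * Real.sqrt (k * (‖p‖ ^ 2 * (2 * n * e) * n))) + e) ^ 2 := by
  let := CStarAlgebra.spectralOrder M
  have := CStarAlgebra.spectralOrderedRing M
  set c := p * star p with hcdef
  have hcs : star c = c := (IsSelfAdjoint.mul_star_self p).star_eq
  set Q : Fin k → M := fun s => ∑ j, R s j * star (R s j) with hQ
  have hn1 : ∀ s j, ‖R s j‖ ≤ 1 := fun s => Uni.Slots.norm_le_one (h3 s)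
  have hQQ : ∀ r s, r ≠ s → Q r * Q s = 0 := fun r s hrs => by
    simp only [hQ, Finset.sum_mul, Finset.mul_sum]
    refine Finset.sum_eq_zero fun j _ => Finset.sum_eq_zero fun l _ => ?_
    simp only [mul_assoc]
    rw [← mul_assoc (star _) (R _ _), h1 _ _ hrs, zero_mul, mul_zero]
  have hQn : ∀ s, ‖Q s‖ ≤ n := fun s => (norm_sum_le_of_le _ (n := fun _ => (1 : ℝ)) fun j _ =>
    (norm_mul_le _ _).trans (mul_le_one₀ (hn1 s j) (norm_nonneg _)
      (by rw [norm_star]; exact hn1 s j))).trans (by simp)
  have hcQ : ∀ s, ‖Q s * c - c * Q s‖ ≤ 2 * n * e := by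
    intro s
    simp only [hQ, Finset.sum_mul, Finset.mul_sum, ← Finset.sum_sub_distrib]
    refine (norm_sum_le_of_le _ (n := fun _ => 2 * e) fun j _ => ?_).trans (le_of_eq ?_)
    · have e1 : R s j * star (R s j) * c - c * (R s j * star (R s j)) =
          R s j * (star (R s j) * c - c * star (R s j)) - (c * R s j - R s j * c) * star (R s j) := by
        noncomm_ring
      have e2 : ‖star (R s j) * c - c * star (R s j)‖ ≤ e := by
        rw [show star (R s j) * c - c * star (R s j) = star (c * R s j - R s j * c) by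
          rw [star_sub, star_mul c, star_mul (R s j) c, hcs], norm_star]
        exact hc s j
      rw [e1]
      refine (norm_sub_le _ _).trans ((add_le_add (norm_mul_le _ _) (norm_mul_le _ _)).trans ?_)
      rw [norm_star, two_mul]
      exact add_le_add ((mul_le_of_le_one_left (norm_nonneg _) (hn1 s j)).trans e2)
        ((mul_le_of_le_one_right (norm_nonneg _) (hn1 s j)).trans (hc s j))
    · simp; ring
  set a : Fin k → M := fun s => star p * Q s * p with hadef
  have haa : ∀ r s, r ≠ s → ‖a r * a s‖ ≤ ‖p‖ ^ 2 * (2 * n * e) * n := by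
    intro r s hrs
    have e1 : a r * a s = star p * ((Q r * c - c * Q r) * Q s) * p := by
      simp only [hadef, hcdef, sub_mul, mul_assoc]
      rw [← mul_assoc (Q r) (Q s), hQQ r s hrs]
      simp
    rw [e1]
    refine (norm_mul_le _ _).trans ?_
    refine (mul_le_mul_of_nonneg_right ((norm_mul_le _ _).trans (mul_le_mul_of_nonneg_left
      ((norm_mul_le _ _).trans (mul_le_mul (hcQ r) (hQn s) (norm_nonneg _) (by positivity)))
      (norm_nonneg _))) (norm_nonneg _)).trans (le_of_eq ?_)
    rw [norm_star]; ring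
  have hat : ‖a t‖ ^ 2 ≤ k * (‖p‖ ^ 2 * (2 * n * e) * n) := by
    have hats : star (a t) = a t := by simp [hadef, hQ, star_sum, mul_assoc]
    have h0 : g t • (a t * a t) = -∑ s ∈ Finset.univ.erase t, g s • (a t * a s) := by
      have := congrArg (a t * ·) (show ∑ s, g s • a s = 0 from hg)
      rw [Finset.mul_sum, mul_zero] at this
      simp only [mul_smul_comm] at this
      rw [← Finset.add_sum_erase _ _ (Finset.mem_univ t)] at this
      exact eq_neg_of_add_eq_zero_left this
    have h4 : ‖g t‖ * ‖a t‖ ^ 2 ≤ ‖g t‖ * (k * (‖p‖ ^ 2 * (2 * n * e) * n)) := by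
      rw [sq ‖a t‖, ← CStarRing.norm_star_mul_self, hats, ← norm_smul, h0, norm_neg]
      refine (norm_sum_le_of_le _ (n := fun _ => ‖g t‖ * (‖p‖ ^ 2 * (2 * n * e) * n))
        fun s hs => ?_).trans ?_
      · rw [norm_smul]
        exact mul_le_mul (ht s) (haa t s (Finset.ne_of_mem_erase hs).symm) (norm_nonneg _)
          (norm_nonneg _)
      · rw [Finset.sum_const, nsmul_eq_mul, mul_left_comm]
        refine mul_le_mul_of_nonneg_left (mul_le_mul_of_nonneg_right ?_ (by positivity))
          (norm_nonneg _)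
        exact_mod_cast (Finset.card_erase_le).trans (by simp)
    exact le_of_mul_le_mul_left h4 (norm_pos_iff.2 ht0)
  have hR : ∀ l, ‖R t l * c‖ ≤ Real.sqrt (‖p‖ ^ 2 * ‖a t‖) + e := by
    intro l
    have h4 : ‖star (R t l) * c‖ ≤ Real.sqrt (‖p‖ ^ 2 * ‖a t‖) := by
      refine Real.le_sqrt_of_sq_le ?_
      have e1 : star (star (R t l) * c) * (star (R t l) * c) = star c * (R t l * star (R t l)) * c := by
        simp only [star_mul, star_star, mul_assoc]
      rw [sq, ← CStarRing.norm_star_mul_self, e1]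
      have hle : star c * (R t l * star (R t l)) * c ≤ star c * Q t * c :=
        star_left_conjugate_le_conjugate (Finset.single_le_sum
          (f := fun j => R t j * star (R t j)) (fun j _ => mul_star_self_nonneg _)
          (Finset.mem_univ l)) c
      refine (CStarAlgebra.norm_le_norm_of_nonneg_of_le
        (star_left_conjugate_nonneg (mul_star_self_nonneg _) c) hle).trans ?_
      rw [show star c * Q t * c = p * a t * star p by
        rw [hcs]; simp only [hcdef, hadef, mul_assoc]]
      refine ((norm_mul_le _ _).trans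
        (mul_le_mul_of_nonneg_right (norm_mul_le _ _) (norm_nonneg _))).trans (le_of_eq ?_)
      rw [norm_star]; ring
    have h5 : ‖c * R t l‖ = ‖star (R t l) * c‖ := by
      rw [← norm_star, star_mul, hcs]
    calc ‖R t l * c‖ = ‖c * R t l - (c * R t l - R t l * c)‖ := by rw [sub_sub_cancel]
      _ ≤ _ := (norm_sub_le _ _).trans (add_le_add (h5.le.trans h4) (hc t l))
  have hmain : ‖c * c‖ ≤ n * (Real.sqrt (‖p‖ ^ 2 * ‖a t‖) + e) ^ 2 := by
    rw [show c * c = ∑ l, star (R t l * c) * (R t l * c) by
      simp only [star_mul, hcs, mul_assoc]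
      rw [← Finset.mul_sum]
      simp only [← mul_assoc, ← Finset.sum_mul, h3, mul_one]]
    refine (norm_sum_le_of_le _ fun l _ => ?_).trans (le_of_eq (by
      rw [Finset.sum_const, Finset.card_univ, Fintype.card_fin, nsmul_eq_mul]))
    rw [CStarRing.norm_star_mul_self, ← sq]
    exact pow_le_pow_left₀ (norm_nonneg _) (hR l) 2
  refine hmain.trans ?_
  gcongr
  exact Real.le_sqrt_of_sq_le hat

/-- The corners of the ideal are infinite dimensional. -/
theorem noFinite (hJ : IsBase J) (hd : DropMapsOn J) : NoFinite J := by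
  intro p hp hp0 hfin
  set V := Submodule.span ℂ (Set.range fun x : M => star p * x * p)
  set k := Module.finrank ℂ V + 1 with hk
  set n : ℕ := 4 * k with hn
  have hpos : 0 < ‖p * star p * (p * star p)‖ := norm_pos_iff.2 fun h => by
    have h1 : p * star p = 0 := (CStarRing.star_mul_self_eq_zero_iff _).1 <| by
      rw [(IsSelfAdjoint.mul_star_self p).star_eq, h]
    exact hp0 ((CStarRing.mul_star_self_eq_zero_iff p).1 h1)
  have hlim : Tendsto (fun e : ℝ =>
      (n : ℝ) * (Real.sqrt (‖p‖ ^ 2 * Real.sqrt (k * (‖p‖ ^ 2 * (2 * n * e) * n))) + e) ^ 2)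
      (𝓝[>] 0) (𝓝 0) := by
    refine (Continuous.tendsto' ?_ 0 0 (by simp)).mono_left nhdsWithin_le_nhds
    fun_prop
  obtain ⟨e, hlt, he : (0 : ℝ) < e⟩ :=
    ((hlim.eventually (gt_mem_nhds hpos)).and self_mem_nhdsWithin).exists
  obtain ⟨R, h1, -, h3, h4⟩ := slots_goal hd n k (by omega) le_rfl {p * star p}
    (by simp [hJ.mul_right (star p) hp]) e he
  let a : Fin k → V := fun s =>
    ⟨star p * (∑ j, R s j * star (R s j)) * p, Submodule.subset_span ⟨_, rfl⟩⟩
  have hdep : ¬LinearIndependent ℂ a := fun h => by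
    have h5 := h.fintype_card_le_finrank
    rw [Fintype.card_fin, hk] at h5
    omega
  obtain ⟨g, hg, i, hi⟩ := Fintype.not_linearIndependent_iff.1 hdep
  obtain ⟨t, -, ht⟩ := Finset.exists_max_image Finset.univ (fun s => ‖g s‖) ⟨i, Finset.mem_univ i⟩
  have ht0 : g t ≠ 0 := fun h0 => hi (norm_le_zero_iff.1 ((ht i (Finset.mem_univ i)).trans (by simp [h0])))
  have hg' : ∑ s, g s • (star p * (∑ j, R s j * star (R s j)) * p) = 0 := by
    simpa [a] using congrArg Subtype.val hg
  exact hlt.not_ge (finite_bound R h1 h3 p he.le (fun s j => h4 _ (Finset.mem_singleton_self _) s j)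
    g hg' t (fun s => ht s (Finset.mem_univ s)) ht0)

end Vale.Agent.P095.NU.Slots
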