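import Vale.Agent.P095.NU.Action
import Vale.Agent.P095.NU.Basics
import Vale.Agent.P095.Defs

/-!
# P095: traces of the relative central sequences from traces of `J`

For traces `T n` normalised at `u` and a `v` with units `w`, `g`, the functionals
`x ↦ T n (v x v)` are asymptotically tracial on sequences commuting with `J`.
-/

open Filter Topology
open scoped ComplexOrder ENNReal

set_option maxSynthPendingDepth 3

noncomputable section

namespace Vale.Agent.P095.NU

variable {M : Type*} [CStarAlgebra M] [PartialOrder M] [StarOrderedRing M] {J : Set M}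

section Pos

variable {f : M →ₗ[ℂ] ℂ} (hf : ∀ a, 0 ≤ f (star a * a))

include hf

theorem sq_norm_apply_le (x : M) : ‖f x‖ ^ 2 ≤ (f 1).re * (f (star x * x)).re := by
  let P : M →ₚ[ℂ] ℂ := PositiveLinearMap.mk₀ f fun a ha => by
    obtain ⟨y, rfl⟩ := CStarAlgebra.nonneg_iff_eq_star_mul_self.1 ha
    exact hf y
  have h := norm_inner_le_norm (𝕜 := ℂ) (P.toPreGNS 1) (P.toPreGNS x)
  rw [PositiveLinearMap.preGNS_inner_def, PositiveLinearMap.ofPreGNS_toPreGNS,
    PositiveLinearMap.ofPreGNS_toPreGNS, star_one, one_mul] at h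
  have hn : ∀ y, ‖P.toPreGNS y‖ ^ 2 = (f (star y * y)).re := fun y => by
    have e := P.preGNS_norm_sq (P.toPreGNS y)
    rw [PositiveLinearMap.ofPreGNS_toPreGNS] at e
    have := congrArg Complex.re e
    norm_cast at this
  calc ‖f x‖ ^ 2 ≤ (‖P.toPreGNS 1‖ * ‖P.toPreGNS x‖) ^ 2 :=
        pow_le_pow_left₀ (norm_nonneg _) h 2
    _ = _ := by rw [mul_pow, hn, hn, star_one, one_mul]

theorem re_mono_of_pos {x y : M} (h : x ≤ y) : (f x).re ≤ (f y).re := by
  obtain ⟨w, hw⟩ := CStarAlgebra.nonneg_iff_eq_star_mul_self.1 (sub_nonneg.2 h)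
  have := (Complex.le_def.1 (hf w)).1
  rw [← hw, map_sub, Complex.sub_re, Complex.zero_re] at this
  linarith

omit [PartialOrder M] [StarOrderedRing M] in
theorem re_one_nonneg : 0 ≤ (f 1).re := by simpa using (Complex.le_def.1 (hf 1)).1

theorem norm_apply_le_of_pos (x : M) : ‖f x‖ ≤ ‖x‖ * (f 1).re := by
  have h1 := re_one_nonneg hf
  have h : (f (star x * x)).re ≤ ‖x‖ ^ 2 * (f 1).re := by
    refine (re_mono_of_pos hf
      (IsSelfAdjoint.le_algebraMap_norm_self (IsSelfAdjoint.star_mul_self x))).trans_eq ?_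
    rw [CStarRing.norm_star_mul_self, Algebra.algebraMap_eq_smul_one, ← Complex.coe_smul,
      map_smul, smul_eq_mul, Complex.re_ofReal_mul, sq]
  refine (sq_le_sq₀ (norm_nonneg _) (by positivity)).1 ((sq_norm_apply_le hf x).trans ?_)
  nlinarith [mul_le_mul_of_nonneg_left h h1]

end Pos

namespace ETr

variable {T : ETr J}

/-- The compressions at `v` of `x⋆ x` and `x x⋆` differ by little, when `x` almost commutes with
the units of `v`. -/
theorem abs_val_comm_le (hJ : IsBase J) {v w g : M} (hvJ : v ∈ J) (hgJ : g ∈ J) (hv : star v = v)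
    (hw : star w = w) (hg : star g = g) (hwv : w * v = v) (hgw : g * w = w)
    (hfv : T.t (star v * v) ≠ ∞) (hfg : T.t (star g * g) ≠ ∞) (x : M) :
    |T.val v (star x * x) - T.val v (x * star x)| ≤
      ‖x * (v * v) * star x - v * (x * star x) * v‖ * T.val g 1 +
        ‖w * (star x * (1 - g * g) * x) * w‖ * T.val v 1 := by
  set fv := T.loc hJ v hvJ hfv
  set fg := T.loc hJ g hgJ hfg
  have hgv : g * v = v := by rw [← hwv, ← mul_assoc, hgw]
  have hvg : v * g = v := by simpa [hg, hv] using congrArg star hgv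
  have hfpos : ∀ a, 0 ≤ fv (star a * a) := loc_nonneg hJ hvJ hfv
  have hgpos : ∀ a, 0 ≤ fg (star a * a) := loc_nonneg hJ hgJ hfg
  have hP : (0 : M) ≤ x * (v * v) * star x := by
    have h := mul_star_self_nonneg (x * v)
    simpa [star_mul, hv, mul_assoc] using h
  have hQ : (0 : M) ≤ v * (x * star x) * v := by
    have h := mul_star_self_nonneg (v * x)
    simpa [star_mul, hv, mul_assoc] using h
  have hv1 : fv 1 = (T.val v 1 : ℂ) := loc_apply hJ hvJ hfv zero_le_one
  have hg1 : fg 1 = (T.val g 1 : ℂ) := loc_apply hJ hgJ hfg zero_le_one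
  set y := star x * (1 - g * g) * x
  have e1 : star x * x = star (g * x) * (g * x) + y := by
    simp only [y, star_mul, hg, mul_sub, sub_mul, one_mul, mul_assoc]
    abel
  have e2 : T.val v (star (g * x) * (g * x)) = T.val g (x * (v * v) * star x) := by
    simp only [val]
    congr 1
    have := T.comm (g * x * v) (hJ.mul_left _ hvJ)
    simpa [star_mul, hv, hg, mul_assoc] using this
  have e3 : T.val v (x * star x) = T.val g (v * (x * star x) * v) := by
    simp only [val, hv, hg]
    congr 2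
    rw [show g * (v * (x * star x) * v) * g = (g * v) * (x * star x) * (v * g) by
      simp only [mul_assoc], hgv, hvg]
  have e4 : fv (star x * x) - fv (x * star x) =
      fg (x * (v * v) * star x - v * (x * star x) * v) + fv y := by
    rw [e1, map_add, map_sub, loc_apply hJ hvJ hfv (star_mul_self_nonneg _),
      loc_apply hJ hvJ hfv (mul_star_self_nonneg x), loc_apply hJ hgJ hfg hP,
      loc_apply hJ hgJ hfg hQ, e2, e3]
    ring
  have h5 : ‖fv y‖ ≤ ‖w * y * w‖ * T.val v 1 := by
    have hwyw : T.loc hJ v hvJ hfv (w * y * w) = fv y := by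
      have hlin : ∀ z, fv (w * z * w) = fv z := by
        have hsq : ∀ a, fv (w * (star a * a) * w) = fv (star a * a) := fun a => by
          rw [loc_apply hJ hvJ hfv (star_mul_self_nonneg a),
            loc_apply hJ hvJ hfv (by
              have := star_mul_self_nonneg (a * w)
              simpa [star_mul, hw, mul_assoc] using this)]
          have hvw : v * w = v := by simpa [hv, hw] using congrArg star hwv
          simp only [val, hv]
          congr 3
          rw [show v * (w * (star a * a) * w) * v = (v * w) * (star a * a) * (w * v) by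
            simp only [mul_assoc], hvw, hwv]
        intro z
        have hsa : ∀ b : M, IsSelfAdjoint b → fv (w * b * w) = fv b := fun b hb => by
          have hb0 : 0 ≤ b + ‖b‖ • (1 : M) := by
            have h := hb.neg_algebraMap_norm_le_self
            rwa [neg_le_iff_add_nonneg', Algebra.algebraMap_eq_smul_one, add_comm] at h
          obtain ⟨a, ha⟩ := CStarAlgebra.nonneg_iff_eq_star_mul_self.1 hb0
          obtain ⟨c, hc⟩ := CStarAlgebra.nonneg_iff_eq_star_mul_self.1
            (smul_nonneg (norm_nonneg b) (zero_le_one (α := M)))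
          have eb : b = star a * a - star c * c := by rw [← ha, ← hc]; abel
          rw [eb, mul_sub, sub_mul, map_sub, map_sub, hsq, hsq]
        rw [← realPart_add_I_smul_imaginaryPart z]
        simp only [mul_add, add_mul, mul_smul_comm, smul_mul_assoc, map_add, map_smul,
          hsa _ (realPart z).2, hsa _ (imaginaryPart z).2]
      exact hlin y
    have := norm_apply_le_of_pos hfpos (w * y * w)
    rwa [hwyw, hv1, Complex.ofReal_re] at this
  have h6 := norm_apply_le_of_pos hgpos (x * (v * v) * star x - v * (x * star x) * v)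
  rw [hg1, Complex.ofReal_re] at h6
  have h7 : ‖fv (star x * x) - fv (x * star x)‖ =
      |T.val v (star x * x) - T.val v (x * star x)| := by
    rw [loc_apply hJ hvJ hfv (star_mul_self_nonneg x),
      loc_apply hJ hvJ hfv (mul_star_self_nonneg x), ← Complex.ofReal_sub, Complex.norm_real,
      Real.norm_eq_abs]
  rw [← h7, e4]
  exact (norm_add_le _ _).trans (add_le_add h6 h5)

end ETr

open P101.SeqAlg (bseq)

/-- Tracial functionals from a symmetric positive one. -/
theorem isTracial_of_symm {B : Type*} [CStarAlgebra B] {τ : B →ₗ[ℂ] ℂ} (h1 : τ 1 = 1)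
    (hpos : ∀ a, 0 ≤ τ (star a * a)) (hsq : ∀ z, τ (star z * z) = τ (z * star z)) :
    IsTracial τ := by
  refine ⟨h1, hpos, fun a b => ?_⟩
  have e1 := hsq (b + star a)
  have e2 := hsq (b + Complex.I • star a)
  have e3 := hsq b
  have e4 := hsq (star a)
  simp only [star_add, star_smul, star_star, Complex.star_def, Complex.conj_I, add_mul, mul_add,
    smul_mul_assoc, mul_smul_comm, map_add, map_smul, smul_eq_mul] at e1 e2
  rw [star_star] at e4
  linear_combination (norm := (ring_nf; simp only [Complex.I_sq, Complex.I_pow_three]; ring))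
    (1 / 2 : ℂ) * e1 + (Complex.I / 2) * e2 + (-(1 + Complex.I) / 2) * e3 +
      (-(1 + Complex.I) / 2) * e4

/-- Bounds on a tri compression uniform over normalised traces. -/
theorem exists_tri_bounds (hJ : IsBase J) {u : M} (hu : IsBdd J u) (hu0 : u ≠ 0) {v : M}
    (hv : IsBdd J v) (hv0 : v ≠ 0) : ∃ c K : ℝ, 0 < c ∧
      ∀ T : ETr J, T.t u = 1 → c ≤ T.val v 1 ∧ T.val v 1 ≤ K := by
  have hvs : star v = v := (IsSelfAdjoint.of_nonneg hv.nonneg).star_eq
  have hp : v * v ≠ 0 := fun h => hv0 (norm_eq_zero.1 (mul_self_eq_zero.1 (by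
    rw [← CStarRing.norm_star_mul_self, hvs, h, norm_zero])))
  have hp0 : 0 ≤ v * v := by simpa [hvs] using star_mul_self_nonneg v
  obtain ⟨K', hK', hle⟩ := ETr.exists_le_mul hJ hu (hJ.mul_left v hv.mem) hp0 hp
  have hq : ∀ q, IsBdd J q → ∃ K : ℝ, ∀ T : ETr J, T.t u = 1 → (T.t q).toReal ≤ K := fun q hq => by
    obtain ⟨K, hK, h⟩ := ETr.exists_le_mul hJ hq hu.mem hu.nonneg hu0
    exact ⟨K, fun T hT => ENNReal.toReal_le_of_le_ofReal hK.le (by simpa [hT] using h T)⟩
  have hvv : IsBdd J (v * v) := by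
    refine ((hv.smul hJ (norm_nonneg v))).of_le hJ hp0 ?_
    set q := CFC.sqrt v
    have hqq : q * q = v := CFC.sqrt_mul_sqrt_self v hv.nonneg
    have hqs : star q = q := (IsSelfAdjoint.of_nonneg (CFC.sqrt_nonneg v)).star_eq
    calc v * v = star q * v * q := by
          rw [hqs, ← hqq]; simp only [mul_assoc]
      _ ≤ ‖v‖ • (star q * q) := CStarAlgebra.star_left_conjugate_le_norm_smul
          (hb := IsSelfAdjoint.of_nonneg hv.nonneg)
      _ = ‖v‖ • v := by rw [hqs, hqq]
  obtain ⟨K, hK⟩ := hq _ hvv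
  refine ⟨1 / K', K, by positivity, fun T hT => ⟨?_, by simpa [ETr.val, hvs] using hK T hT⟩⟩
  have h := hle T
  rw [hT] at h
  have hfin : T.t (v * v) ≠ ∞ := T.ne_top hJ hu hu0 hT hvv
  have h' := ENNReal.toReal_mono (ENNReal.mul_ne_top ENNReal.ofReal_ne_top hfin) h
  rw [ENNReal.toReal_one, ENNReal.toReal_mul, ENNReal.toReal_ofReal hK'.le] at h'
  rw [ETr.val, hvs, mul_one, div_le_iff₀ hK']
  linarith

variable {ω : Ultrafilter ℕ} {hJs : ∀ a ∈ J, star a ∈ J}

/-- The compressions of `x⋆ x` and `x x⋆` are asymptotically equal on central sequences. -/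
theorem tendsto_val_comm (hJ : IsBase J) {v w g : M} (hvJ : v ∈ J) (hwJ : w ∈ J) (hgJ : g ∈ J)
    (hvs : star v = v) (hws : star w = w) (hgs : star g = g) (hwv : w * v = v) (hgw : g * w = w)
    {T : ℕ → ETr J} (hfv : ∀ n, (T n).t (star v * v) ≠ ∞) (hfg : ∀ n, (T n).t (star g * g) ≠ ∞)
    {K Kg : ℝ} (hK : ∀ n, (T n).val v 1 ≤ K) (hKg : ∀ n, (T n).val g 1 ≤ Kg)
    (x : relSeq J ω hJs) :
    Tendsto (fun n => (T n).val v (star (ent x n) * ent x n) -
      (T n).val v (ent x n * star (ent x n))) ω (𝓝 0) := by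
  set a : ℕ → ℝ := fun n =>
    ‖ent x n * (v * v) * star (ent x n) - v * (ent x n * star (ent x n)) * v‖
  set b : ℕ → ℝ := fun n => ‖w * (star (ent x n) * (1 - g * g) * ent x n) * w‖
  obtain ⟨C, hC⟩ := (x : bseq M ω).2
  have hC0 : 0 ≤ C := (norm_nonneg _).trans (hC 0)
  have hxs : ∀ n, ‖star (ent x n)‖ ≤ C := fun n => by rw [norm_star]; exact hC n
  have ha : Tendsto a ω (𝓝 0) := by
    have h1 := ((x.2 v hvJ).norm.const_mul (2 * ‖v‖ * C))
    have h2 := (((star x : relSeq J ω hJs).2 v hvJ).norm.const_mul (2 * ‖v‖ * C))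
    refine squeeze_zero (fun _ => norm_nonneg _) (fun n => ?_) (by simpa using h1.add h2)
    show ‖_‖ ≤ 2 * ‖v‖ * C * ‖v * ent x n - ent x n * v‖ +
      2 * ‖v‖ * C * ‖v * star (ent x n) - star (ent x n) * v‖
    rw [show ent x n * (v * v) * star (ent x n) - v * (ent x n * star (ent x n)) * v =
      -((v * ent x n - ent x n * v) * (v * star (ent x n))) +
        v * ent x n * (v * star (ent x n) - star (ent x n) * v) by noncomm_ring]
    refine (norm_add_le _ _).trans (add_le_add ?_ ?_)
    · rw [norm_neg]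
      refine (norm_mul_le _ _).trans ?_
      rw [mul_comm]
      refine mul_le_mul_of_nonneg_right ((norm_mul_le _ _).trans ?_) (norm_nonneg _)
      nlinarith [mul_le_mul_of_nonneg_left (hxs n) (norm_nonneg v), norm_nonneg v]
    · refine (norm_mul_le _ _).trans ?_
      refine mul_le_mul_of_nonneg_right ((norm_mul_le _ _).trans ?_) (norm_nonneg _)
      nlinarith [mul_le_mul_of_nonneg_left (hC n) (norm_nonneg v), norm_nonneg v]
  have hb : Tendsto b ω (𝓝 0) := by
    have h1 := ((x.2 w hwJ).norm.const_mul (‖w‖ * C * (1 + ‖g * g‖)))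
    refine squeeze_zero (fun _ => norm_nonneg _) (fun n => ?_) (by simpa using h1)
    have hgw' : (1 - g * g) * w = w - g * (g * w) := by noncomm_ring
    show ‖_‖ ≤ ‖w‖ * C * (1 + ‖g * g‖) * ‖w * ent x n - ent x n * w‖
    have e0 : (1 - g * g) * w = 0 := by rw [hgw', hgw, hgw, sub_self]
    have e : w * (star (ent x n) * (1 - g * g) * ent x n) * w =
        -(w * star (ent x n) * (1 - g * g) * (w * ent x n - ent x n * w)) := by
      rw [mul_sub (w * star (ent x n) * (1 - g * g)), mul_assoc (w * star (ent x n)) (1 - g * g) (w * ent x n),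
        ← mul_assoc (1 - g * g) w, e0, zero_mul, mul_zero, zero_sub, neg_neg]
      simp only [mul_assoc]
    rw [e, norm_neg]
    refine (norm_mul_le _ _).trans (mul_le_mul_of_nonneg_right (norm_mul₃_le.trans ?_)
      (norm_nonneg _))
    refine mul_le_mul (mul_le_mul_of_nonneg_left (hxs n) (norm_nonneg _))
      ((norm_sub_le _ _).trans (add_le_add ?_ le_rfl)) (norm_nonneg _) (by positivity)
    rcases subsingleton_or_nontrivial M with hM | hM
    · simp [Subsingleton.elim (1 : M) 0]
    · exact CStarRing.norm_one.le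
  refine squeeze_zero_norm (fun n => ?_)
    (by simpa using (ha.mul_const Kg).add (hb.mul_const K))
  rw [Real.norm_eq_abs]
  exact (ETr.abs_val_comm_le hJ hvJ hgJ hvs hws hgs hwv hgw (hfv n) (hfg n) _).trans
    (add_le_add (mul_le_mul_of_nonneg_left (hKg n) (norm_nonneg _))
      (mul_le_mul_of_nonneg_left (hK n) (norm_nonneg _)))

/-- A functional on the domain of a surjective homomorphism, vanishing on the kernel, symmetrical
and positive, gives a tracial state of the codomain. -/
theorem exists_tracial_descend {P B : Type*} [Ring P] [Algebra ℂ P] [StarRing P] [CStarAlgebra B]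
    (π : P →⋆ₐ[ℂ] B) (hπ : Function.Surjective π) (F : P → ℂ)
    (hadd : ∀ x y, F (x + y) = F x + F y) (hsmul : ∀ (a : ℂ) x, F (a • x) = a * F x)
    (hnull : ∀ x, π x = 0 → F x = 0) (h1 : F 1 = 1) (hpos : ∀ x, 0 ≤ F (star x * x))
    (hsq : ∀ x, F (star x * x) = F (x * star x)) :
    ∃ τ : B →ₗ[ℂ] ℂ, IsTracial τ ∧ ∀ x, τ (π x) = F x := by
  have hG : ∀ x, F (Function.surjInv hπ (π x)) = F x := fun x => by
    have h0 := hnull (Function.surjInv hπ (π x) - x)
      (by rw [map_sub, Function.surjInv_eq hπ, sub_self])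
    have h := hadd (Function.surjInv hπ (π x) - x) x
    rwa [sub_add_cancel, h0, zero_add] at h
  let τ : B →ₗ[ℂ] ℂ :=
    { toFun := fun z => F (Function.surjInv hπ z)
      map_add' := fun a b => by
        obtain ⟨x, rfl⟩ := hπ a
        obtain ⟨y, rfl⟩ := hπ b
        rw [← map_add, hG, hG, hG, hadd]
      map_smul' := fun a b => by
        obtain ⟨x, rfl⟩ := hπ b
        rw [← map_smul, hG, hG, hsmul, RingHom.id_apply, smul_eq_mul] }
  refine ⟨τ, isTracial_of_symm ?_ (fun a => ?_) (fun z => ?_), hG⟩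
  · show F _ = 1
    rw [← map_one π, hG, h1]
  · obtain ⟨x, rfl⟩ := hπ a
    show 0 ≤ F _
    rw [← map_star, ← map_mul, hG]
    exact hpos x
  · obtain ⟨x, rfl⟩ := hπ z
    show F _ = F _
    rw [← map_star, ← map_mul, ← map_mul, hG, hG, hsq]

/-- Traces of `J` give a tracial state of the relative central sequences. -/
theorem exists_trace (hJ : IsBase J) {u : M} (hu : IsBdd J u) (hu0 : u ≠ 0) {v : M}
    (hv : IsTri J v) (hv0 : v ≠ 0) {T : ℕ → ETr J} (hT : ∀ n, (T n).t u = 1) :
    ∃ τ : CSeq J ω →ₗ[ℂ] ℂ, IsTracial τ ∧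
      ∀ x : relSeq J ω hJs, (∀ n, 0 ≤ ent x n) →
        Tendsto (fun n => (((T n).val v (ent x n) / (T n).val v 1 : ℝ) : ℂ)) ω
          (𝓝 (τ (toC hJs x))) := by
  have hJm : ∀ a ∈ J, ∀ b ∈ J, a * b ∈ J := fun a _ b hb => hJ.mul_left a hb
  have hvb := hv.isBdd hJ
  obtain ⟨hv_nn, -, w, g, hw_nn, hw1, hg_nn, hg1, hwv, hgw, hgb⟩ := hv
  have hvs : star v = v := (IsSelfAdjoint.of_nonneg hv_nn).star_eq
  have hws : star w = w := (IsSelfAdjoint.of_nonneg hw_nn).star_eq
  have hgs : star g = g := (IsSelfAdjoint.of_nonneg hg_nn).star_eq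
  have hwJ : w ∈ J := by rw [← hgw]; exact hJ.mul_right _ hgb.mem
  have hfv : ∀ n, (T n).t (star v * v) ≠ ∞ := fun n =>
    (T n).star_mul_self_ne_top hJ hu hu0 (hT n) hvb
  have hfg : ∀ n, (T n).t (star g * g) ≠ ∞ := fun n =>
    (T n).star_mul_self_ne_top hJ hu hu0 (hT n) hgb
  obtain ⟨c, K, hc, hcK⟩ := exists_tri_bounds hJ hu hu0 hvb hv0
  obtain ⟨Kg, hKg⟩ : ∃ Kg : ℝ, ∀ n, (T n).val g 1 ≤ Kg := by
    rcases eq_or_ne g 0 with h | h
    · exact ⟨0, fun n => le_of_eq (by simp [ETr.val, h, (T n).map_zero hJ])⟩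
    · obtain ⟨_, Kg, -, h⟩ := exists_tri_bounds hJ hu hu0 hgb h
      exact ⟨Kg, fun n => (h (T n) (hT n)).2⟩
  set L : ℕ → M →ₗ[ℂ] ℂ := fun n => (T n).loc hJ v hvb.mem (hfv n)
  have hLpos : ∀ n a, 0 ≤ L n (star a * a) := fun n => ETr.loc_nonneg hJ hvb.mem (hfv n)
  have hL1 : ∀ n, L n 1 = ((T n).val v 1 : ℂ) := fun n =>
    ETr.loc_apply hJ hvb.mem (hfv n) zero_le_one
  set L' : ℕ → M →ₗ[ℂ] ℂ := fun n => (((T n).val v 1)⁻¹ : ℂ) • L n
  have hpos1 : ∀ n, 0 < (T n).val v 1 := fun n => hc.trans_le (hcK (T n) (hT n)).1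
  have hL'pos : ∀ n a, 0 ≤ L' n (star a * a) := fun n a => by
    simp only [L', LinearMap.smul_apply, smul_eq_mul]
    refine mul_nonneg ?_ (hLpos n a)
    rw [← Complex.ofReal_inv]
    exact Complex.zero_le_real.2 (inv_nonneg.2 (hpos1 n).le)
  have hL'1 : ∀ n, L' n 1 = 1 := fun n => by
    simp only [L', LinearMap.smul_apply, smul_eq_mul, hL1]
    exact inv_mul_cancel₀ (Complex.ofReal_ne_zero.2 (hpos1 n).ne')
  have hbd : ∀ n x, ‖L' n x‖ ≤ ‖x‖ := fun n x => by
    simpa [hL'1] using norm_apply_le_of_pos (hL'pos n) x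
  have hex : ∀ x : relSeq J ω hJs, ∃ z, Tendsto (fun n => L' n (ent x n)) ω (𝓝 z) := fun x => by
    obtain ⟨C, hC⟩ := (x : bseq M ω).2
    obtain ⟨z, -, hz⟩ := (isCompact_closedBall (0 : ℂ) C).ultrafilter_le_nhds
      (ω.map fun n => L' n (ent x n))
      (le_principal_iff.2 (mem_map.2 (univ_mem' fun n => by
        show L' n _ ∈ Metric.closedBall 0 C
        rw [mem_closedBall_zero_iff]
        exact (hbd n _).trans (hC n))))
    exact ⟨z, hz⟩
  choose F hF using hex
  -- null sequences have limit zero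
  have hnull : ∀ x : relSeq J ω hJs, toC hJs x = 0 → F x = 0 := fun x hx => by
    rw [toC_eq_zero_iff hJm] at hx
    refine tendsto_nhds_unique (hF x) (squeeze_zero_norm (a := fun n => ‖ent x n * w‖) (fun n => ?_)
      (by simpa using (hx w hwJ).1.norm))
    refine (sq_le_sq₀ (norm_nonneg _) (norm_nonneg _)).1 ((sq_norm_apply_le (hL'pos n) _).trans ?_)
    rw [hL'1, Complex.one_re, one_mul]
    have e : L' n (star (ent x n) * ent x n) = L' n (star (ent x n * w) * (ent x n * w)) := by
      simp only [L', L, LinearMap.smul_apply]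
      congr 1
      rw [ETr.loc_apply hJ hvb.mem (hfv n) (star_mul_self_nonneg _),
        ETr.loc_apply hJ hvb.mem (hfv n) (star_mul_self_nonneg _)]
      have hvw : v * w = v := by simpa [hvs, hws] using congrArg star hwv
      simp only [ETr.val, hvs, star_mul, hws]
      congr 3
      rw [show v * (w * star (ent x n) * (ent x n * w)) * v =
        (v * w) * (star (ent x n) * ent x n) * (w * v) by simp only [mul_assoc], hvw, hwv]
    rw [e]
    refine (Complex.re_le_norm _).trans ((hbd n _).trans_eq ?_)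
    rw [CStarRing.norm_star_mul_self, sq]
  have hlin_add : ∀ x y, F (x + y) = F x + F y := fun x y =>
    tendsto_nhds_unique (hF _) (((hF x).add (hF y)).congr fun n => (map_add (L' n) _ _).symm)
  have hlin_smul : ∀ (a : ℂ) x, F (a • x) = a * F x := fun a x =>
    tendsto_nhds_unique (hF _) (((hF x).const_mul a).congr fun n => (map_smul (L' n) a _).symm)
  have hpos : ∀ x : relSeq J ω hJs, 0 ≤ F (star x * x) := fun x =>
    ge_of_tendsto (hF _) (.of_forall fun n => hL'pos n _)
  have hone : F 1 = 1 :=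
    tendsto_nhds_unique (hF 1) (tendsto_const_nhds.congr fun n => (hL'1 n).symm)
  have hsq : ∀ x : relSeq J ω hJs, F (star x * x) = F (x * star x) := fun x => by
    refine tendsto_nhds_unique (hF _) ?_
    have h := (tendsto_val_comm hJ hvb.mem hwJ hgb.mem hvs hws hgs hwv hgw hfv hfg
      (fun n => (hcK _ (hT n)).2) hKg x).norm.const_mul c⁻¹
    have key : ∀ n, ‖L' n (ent (star x * x) n) - L' n (ent (x * star x) n)‖ ≤
        c⁻¹ * ‖(T n).val v (star (ent x n) * ent x n) -
          (T n).val v (ent x n * star (ent x n))‖ := fun n => by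
      show ‖L' n (star (ent x n) * ent x n) - L' n (ent x n * star (ent x n))‖ ≤ _
      simp only [L', L, LinearMap.smul_apply, smul_eq_mul, ← mul_sub,
        ETr.loc_apply hJ hvb.mem (hfv n) (star_mul_self_nonneg _),
        ETr.loc_apply hJ hvb.mem (hfv n) (mul_star_self_nonneg _)]
      rw [← Complex.ofReal_inv, ← Complex.ofReal_sub, ← Complex.ofReal_mul, Complex.norm_real,
        norm_mul, Real.norm_of_nonneg (inv_nonneg.2 (hpos1 n).le)]
      exact mul_le_mul_of_nonneg_right (inv_anti₀ hc (hcK _ (hT n)).1) (norm_nonneg _)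
    have h0 : Tendsto (fun n => L' n (ent (star x * x) n) - L' n (ent (x * star x) n)) ω (𝓝 0) :=
      squeeze_zero_norm key (by simpa using h)
    simpa using (hF (x * star x)).add h0
  obtain ⟨τ, hτ, hτF⟩ := exists_tracial_descend (toC (ω := ω) hJs) (toC_surjective hJs) F
    hlin_add hlin_smul hnull hone hpos hsq
  refine ⟨τ, hτ, fun x hx => ?_⟩
  rw [hτF]
  refine (hF x).congr fun n => ?_
  simp only [L', L, LinearMap.smul_apply, smul_eq_mul,
    ETr.loc_apply hJ hvb.mem (hfv n) (hx n)]
  rw [div_eq_inv_mul, Complex.ofReal_mul, Complex.ofReal_inv]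

end Vale.Agent.P095.NU
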