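import Vale.Agent.P095.NU.UnitsTools
import Vale.Agent.P095.NU.McDuff
import Vale.Agent.P095.Upgrade.Transfer
import Vale.Agent.P095.Upgrade.Final
import Vale.Agent.P095.AF.Lift

/-!
# P095: exact invariant matrix units in the relative central sequences exist

Uniform McDuffness of the relative central sequence algebra is upgraded to an equivariant one,
lifted to norm approximate units, and made exact along a diagonal.
-/

open Filter Topology
open scoped ComplexOrder

set_option maxSynthPendingDepth 3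

noncomputable section

namespace Vale.Agent.P095.NU.Units

variable {M : Type*} [CStarAlgebra M] [PartialOrder M] [StarOrderedRing M] {J : Set M}
  {ω : Ultrafilter ℕ} {hJs : ∀ a ∈ J, star a ∈ J} {hJm : ∀ a ∈ J, ∀ b ∈ J, a * b ∈ J}
  {G : Type*} [Group G] {α : G → M ≃⋆ₐ[ℂ] M} {hα : ∀ g h a, α (g * h) a = α g (α h a)}
  {hαJ : ∀ g a, α g a ∈ J ↔ a ∈ J}

/-- Approximate units at accuracy `ε` for the finite set `K`, with contractive representatives. -/
structure Approx (hJs : ∀ a ∈ J, star a ∈ J) (hJm : ∀ a ∈ J, ∀ b ∈ J, a * b ∈ J)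
    (hα : ∀ g h a, α (g * h) a = α g (α h a)) (hαJ : ∀ g a, α g a ∈ J ↔ a ∈ J) (N : ℕ)
    (K : Finset G) (ε : ℝ) where
  a : Fin N → Fin N → relSeq J ω hJs
  x : Fin N → relSeq J ω hJs
  norm_a : ∀ i j n, ‖ent (a i j) n‖ ≤ 1
  norm_x : ∀ i n, ‖ent (x i) n‖ ≤ 1
  star_a : ∀ i j, ‖toC hJs (star (a i j) - a j i)‖ ≤ ε
  mul_a : ∀ i j k l,
    ‖toC hJs (a i j * a k l - if j = k then (∑ r, a r r) * a i l else 0)‖ ≤ ε
  diag : ∀ i, ‖toC hJs (star (x i) * x i - a i i)‖ ≤ ε
  inv : ∀ g ∈ K, ∀ i j, ‖toC hJs (mapRel hJs (hαJ g) (a i j) - a i j)‖ ≤ ε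
  null : ∀ τ : CSeq J ω →ₗ[ℂ] ℂ, IsTracial τ →
    1 - (∑ i, τ (toC hJs (star (x i) * x i))).re ≤ (N + 1) * ε

omit [PartialOrder M] [StarOrderedRing M] in
theorem exists_approx (hω : (ω : Filter ℕ) ≤ cofinite) (hJ : IsBase J) (hd : DropMapsOn J)
    (hG : IsAmenableGroup G) (m : ℕ) (K : Finset G) {ε : ℝ} (hε : 0 < ε) :
    Nonempty (Approx (ω := ω) hJs hJm hα hαJ (2 ^ m) K ε) := by
  classical
  let _ : PartialOrder (CSeq J ω) := CStarAlgebra.spectralOrder _
  have _ : StarOrderedRing (CSeq J ω) := CStarAlgebra.spectralOrderedRing _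
  have hmul : ∀ g h z, actC (ω := ω) hJs hJm hα hαJ (g * h) z =
      actC hJs hJm hα hαJ g (actC hJs hJm hα hαJ h z) := fun g h z =>
    actC_mul hJs hJm hα hαJ g h z
  have hE : HasEquivariantUniformMcDuff (actC (ω := ω) hJs hJm hα hαJ) :=
    hasEquivariantUniformMcDuff_of_goal (McDuff.isUniformlyMcDuff_cseq hω hJ hd) _ hmul
      (mcDuffGoal_of_foelner hG _)
  obtain ⟨b, y, hb1, hy1, hbs, hbm, hby, -, hbi, hbτ⟩ :=
    AF.exists_liftAt (actC (ω := ω) hJs hJm hα hαJ) (show 0 < 2 ^ m by positivity)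
      (AF.unitsN_pow hE m) ∅ (by simp) K hε
  choose a ha ha1 using fun i j => exists_contraction_rep (hJs := hJs) (hb1 i j)
  choose x hx hx1 using fun i => exists_contraction_rep (hJs := hJs) (hy1 i)
  refine ⟨⟨a, x, ha1, hx1, fun i j => ?_, fun i j k l => ?_, fun i => ?_, fun g hg i j => ?_,
    fun τ hτ => ?_⟩⟩
  · rw [map_sub, map_star, ha, ha]; exact hbs i j
  · have e : toC hJs (if j = k then (∑ r, a r r) * a i l else 0) =
        if j = k then (∑ r, b r r) * b i l else 0 := by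
      split_ifs <;> simp [map_sum, ha]
    rw [map_sub, map_mul, ha, ha, e]
    exact hbm i j k l
  · rw [map_sub, map_mul, map_star, hx, ha]; exact hby i
  · rw [map_sub, ← actC_toC hJs hJm hα hαJ g (a i j), ha]
    exact hbi g hg i j
  · have h1 := (hbτ τ hτ).1
    have h2 : ∀ i, ‖τ (toC hJs (star (x i) * x i) - b i i)‖ ≤ ε := fun i => by
      refine (AF.norm_tracial_le hτ _).trans ?_
      rw [map_mul, map_star, hx]; exact hby i
    have e : (1 : ℂ) - ∑ i, τ (toC hJs (star (x i) * x i)) =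
        τ (1 - ∑ i, b i i) - ∑ i, τ (toC hJs (star (x i) * x i) - b i i) := by
      simp only [map_sub, map_sum, hτ.1, Finset.sum_sub_distrib]
      ring
    have h3 : ‖(1 : ℂ) - ∑ i, τ (toC hJs (star (x i) * x i))‖ ≤ ((2 ^ m : ℕ) + 1) * ε := by
      rw [e]
      refine (norm_sub_le _ _).trans ((add_le_add h1 (norm_sum_le_of_le _ fun i _ => h2 i)).trans
        (le_of_eq ?_))
      simp [Finset.sum_const]; ring
    have h4 := (Complex.re_le_norm _).trans h3
    rwa [Complex.sub_re, Complex.one_re] at h4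

/-- The conditions on the `k`-th approximation at the index `n` used along the diagonal. -/
def Small (c : M) (k : ℕ) (F : ℕ → M) (n : ℕ) : Prop :=
  ‖c * F n‖ ≤ 1 / ((k : ℝ) + 1) * (‖c‖ + 1) ∧ ‖F n * c‖ ≤ 1 / ((k : ℝ) + 1) * (‖c‖ + 1)

/-- The relations of the `k`-th approximation, seen from the first elements of a dense sequence. -/
def Rel [DecidableEq G] (d : ℕ → M) (kG : ℕ → G) {N : ℕ}
    (Q : ∀ k : ℕ, Approx (ω := ω) hJs hJm hα hαJ N ((Finset.range (k + 1)).image kG)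
      (1 / ((k : ℝ) + 1))) (k l n : ℕ) : Prop :=
  (∀ i j, ‖d l * ent ((Q k).a i j) n - ent ((Q k).a i j) n * d l‖ ≤ 1 / ((k : ℝ) + 1) ∧
    Small (d l) k (ent (star ((Q k).a i j) - (Q k).a j i)) n ∧
    (∀ g : ℕ, g ≤ k →
      Small (d l) k (ent (mapRel hJs (hαJ (kG g)) ((Q k).a i j) - (Q k).a i j)) n) ∧
    ∀ p q, Small (d l) k (ent ((Q k).a i j * (Q k).a p q -
      if j = p then (∑ r, (Q k).a r r) * (Q k).a i q else 0)) n) ∧
  ∀ i, ‖d l * ent ((Q k).x i) n - ent ((Q k).x i) n * d l‖ ≤ 1 / ((k : ℝ) + 1) ∧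
    Small (d l) k (ent (star ((Q k).x i) * (Q k).x i - (Q k).a i i)) n

theorem eventually_rel [DecidableEq G] (hJs : ∀ a ∈ J, star a ∈ J) (hJm : ∀ a ∈ J, ∀ b ∈ J, a * b ∈ J)
    {d : ℕ → M} (hdJ : ∀ i, d i ∈ J) (kG : ℕ → G) {N : ℕ}
    (Q : ∀ k : ℕ, Approx (ω := ω) hJs hJm hα hαJ N ((Finset.range (k + 1)).image kG)
      (1 / ((k : ℝ) + 1))) (k l : ℕ) : ∀ᶠ n in (ω : Filter ℕ), Rel d kG Q k l n := by
  classical
  have heps : (0 : ℝ) < 1 / ((k : ℝ) + 1) := by positivity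
  have hsmall : ∀ R : relSeq J ω hJs, ‖toC hJs R‖ ≤ 1 / ((k : ℝ) + 1) →
      ∀ᶠ n in (ω : Filter ℕ), Small (d l) k (ent R) n := fun R hR =>
    eventually_two_sided hJs hJm R heps hR (hdJ l)
  have hcomm : ∀ R : relSeq J ω hJs, ∀ᶠ n in (ω : Filter ℕ),
      ‖d l * ent R n - ent R n * d l‖ ≤ 1 / ((k : ℝ) + 1) := fun R => by
    have h1 := (R.2 (d l) (hdJ l)).norm
    rw [norm_zero] at h1
    exact h1.eventually (eventually_le_nhds heps)
  exact Eventually.and
    (eventually_all.2 fun i => eventually_all.2 fun j => (hcomm _).and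
      ((hsmall _ ((Q k).star_a i j)).and (Eventually.and
        ((Set.finite_le_nat k).eventually_all.2 fun g hg => hsmall _
          ((Q k).inv _ (Finset.mem_image_of_mem kG (Finset.mem_range.2 (Nat.lt_succ_of_le hg))) i j))
        (eventually_all.2 fun p => eventually_all.2 fun q => hsmall _ ((Q k).mul_a i j p q)))))
    (eventually_all.2 fun i => (hcomm _).and (hsmall _ ((Q k).diag i)))

/-- A sequence of relations vanishing along the diagonal. -/
theorem toC_eq_zero_of_small {d : ℕ → M} (hdd : J ⊆ closure (Set.range d))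
    (hJm : ∀ a ∈ J, ∀ b ∈ J, a * b ∈ J) {lev : ℕ → ℕ}
    (hlev : Tendsto lev (ω : Filter ℕ) atTop) (R : relSeq J ω hJs) (F : ℕ → ℕ → M)
    (hR : ∀ n, ent R n = F (lev n) n) (k₀ : ℕ)
    (hs : ∀ l, ∀ᶠ n in (ω : Filter ℕ), k₀ ≤ lev n → Small (d l) (lev n) (F (lev n)) n) :
    toC hJs R = 0 := by
  obtain ⟨C, hC⟩ := (R : P101.SeqAlg.bseq M ω).2
  have he : Tendsto (fun n => 1 / ((lev n : ℝ) + 1)) (ω : Filter ℕ) (𝓝 0) :=
    tendsto_one_div_add_atTop_nhds_zero_nat.comp hlev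
  rw [toC_eq_zero_iff hJm]
  refine fun c hc => ⟨?_, ?_⟩
  · refine tendsto_of_dense_seq hdd (fun n c => ent R n * c) (fun n a b => mul_sub _ _ _)
      (C := C) (fun n a => (norm_mul_le _ _).trans
        (mul_le_mul_of_nonneg_right (hC n) (norm_nonneg _))) (fun l => ?_) hc
    refine squeeze_zero_norm' ?_ (show Tendsto (fun n => 1 / ((lev n : ℝ) + 1) * (‖d l‖ + 1)) _ _ from by
      simpa using he.mul_const (‖d l‖ + 1))
    filter_upwards [hs l, hlev.eventually (eventually_ge_atTop k₀)] with n hn hk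
    rw [hR]
    exact (hn hk).2
  · refine tendsto_of_dense_seq hdd (fun n c => c * ent R n) (fun n a b => sub_mul _ _ _)
      (C := C) (fun n a => (norm_mul_le _ _).trans
        (le_trans (mul_le_mul_of_nonneg_left (hC n) (norm_nonneg _)) (le_of_eq (mul_comm _ _))))
      (fun l => ?_) hc
    refine squeeze_zero_norm' ?_ (show Tendsto (fun n => 1 / ((lev n : ℝ) + 1) * (‖d l‖ + 1)) _ _ from by
      simpa using he.mul_const (‖d l‖ + 1))
    filter_upwards [hs l, hlev.eventually (eventually_ge_atTop k₀)] with n hn hk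
    rw [hR]
    exact (hn hk).1

/-- A bounded diagonal sequence almost commuting with the dense sequence commutes with `J`. -/
theorem comm_of_small {d : ℕ → M} (hdd : J ⊆ closure (Set.range d)) {lev : ℕ → ℕ}
    (hlev : Tendsto lev (ω : Filter ℕ) atTop) (f : ℕ → M) (hf : ∀ n, ‖f n‖ ≤ 1)
    (hl : ∀ l, ∀ᶠ n in (ω : Filter ℕ), ‖d l * f n - f n * d l‖ ≤ 1 / ((lev n : ℝ) + 1)) :
    ∀ c ∈ J, Tendsto (fun n => c * f n - f n * c) (ω : Filter ℕ) (𝓝 0) := fun c hc =>
  tendsto_of_dense_seq hdd (fun n c => c * f n - f n * c) (fun n a b => by noncomm_ring)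
    (C := 2) (fun n a => by
      refine (norm_sub_le _ _).trans ?_
      nlinarith [norm_mul_le a (f n), norm_mul_le (f n) a, norm_nonneg a, hf n])
    (fun l => squeeze_zero_norm' (hl l) (tendsto_one_div_add_atTop_nhds_zero_nat.comp hlev)) hc

/-- The units and vectors on the diagonal, exact in the relative central sequences. -/
theorem exists_diagonal [DecidableEq G] {d : ℕ → M} (hdd : J ⊆ closure (Set.range d)) {kG : ℕ → G}
    (hkG : Function.Surjective kG) {N : ℕ}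
    (Q : ∀ k : ℕ, Approx (ω := ω) hJs hJm hα hαJ N ((Finset.range (k + 1)).image kG)
      (1 / ((k : ℝ) + 1))) {lev : ℕ → ℕ} (hlev : Tendsto lev (ω : Filter ℕ) atTop)
    (hrel : ∀ l, ∀ᶠ n in (ω : Filter ℕ), l ≤ lev n ∧ Rel d kG Q (lev n) l n) :
    ∃ (A : Fin N → Fin N → relSeq J ω hJs) (X : Fin N → relSeq J ω hJs),
      (∀ i j n, ‖ent (A i j) n‖ ≤ 1) ∧ (∀ i n, ent (X i) n = ent ((Q (lev n)).x i) n) ∧
      (∀ i j, star (toC hJs (A i j)) = toC hJs (A j i)) ∧
      (∀ i j p q, toC hJs (A i j) * toC hJs (A p q) =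
        if j = p then (∑ r, toC hJs (A r r)) * toC hJs (A i q) else 0) ∧
      (∀ i, toC hJs (A i i) = star (toC hJs (X i)) * toC hJs (X i)) ∧
      ∀ g i j, actC hJs hJm hα hαJ g (toC hJs (A i j)) = toC hJs (A i j) := by
  classical
  have hfa : ∀ i j, ∀ c ∈ J, Tendsto (fun n => c * ent ((Q (lev n)).a i j) n -
      ent ((Q (lev n)).a i j) n * c) (ω : Filter ℕ) (𝓝 0) := fun i j =>
    comm_of_small hdd hlev _ (fun n => (Q (lev n)).norm_a i j n) fun l =>
      (hrel l).mono fun n hn => (hn.2.1 i j).1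
  have hfx : ∀ i, ∀ c ∈ J, Tendsto (fun n => c * ent ((Q (lev n)).x i) n -
      ent ((Q (lev n)).x i) n * c) (ω : Filter ℕ) (𝓝 0) := fun i =>
    comm_of_small hdd hlev _ (fun n => (Q (lev n)).norm_x i n) fun l =>
      (hrel l).mono fun n hn => (hn.2.2 i).1
  let A : Fin N → Fin N → relSeq J ω hJs := fun i j =>
    ⟨⟨fun n => ent ((Q (lev n)).a i j) n, 1, fun n => (Q (lev n)).norm_a i j n⟩, hfa i j⟩
  let X : Fin N → relSeq J ω hJs := fun i =>
    ⟨⟨fun n => ent ((Q (lev n)).x i) n, 1, fun n => (Q (lev n)).norm_x i n⟩, hfx i⟩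
  have hz := fun (R : relSeq J ω hJs) (F : ℕ → ℕ → M) =>
    toC_eq_zero_of_small (hJs := hJs) hdd hJm hlev R F
  refine ⟨A, X, fun i j n => (Q (lev n)).norm_a i j n, fun i n => rfl, fun i j => ?_,
    fun i j p q => ?_, fun i => ?_, fun g i j => ?_⟩
  · rw [← map_star, ← sub_eq_zero, ← map_sub]
    exact hz _ (fun k => ent (star ((Q k).a i j) - (Q k).a j i)) (fun n => rfl) 0
      fun l => (hrel l).mono fun n hn _ => (hn.2.1 i j).2.1
  · have e : (if j = p then (∑ r, toC hJs (A r r)) * toC hJs (A i q) else 0) =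
        toC hJs (if j = p then (∑ r, A r r) * A i q else 0) := by
      split_ifs <;> simp [map_sum]
    rw [e, ← map_mul, ← sub_eq_zero, ← map_sub]
    refine hz _ (fun k => ent ((Q k).a i j * (Q k).a p q -
      if j = p then (∑ r, (Q k).a r r) * (Q k).a i q else 0)) (fun n => ?_) 0
      fun l => (hrel l).mono fun n hn _ => (hn.2.1 i j).2.2.2 p q
    show ent (A i j * A p q) n - ent (ite _ _ _) n = ent (_ * _) n - ent (ite _ _ _) n
    split_ifs
    · show ent (A i j) n * ent (A p q) n - ent (∑ r, A r r) n * ent (A i q) n =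
        _ * _ - ent (∑ r, (Q (lev n)).a r r) n * _
      rw [ent_sum, ent_sum]
    · rfl
  · rw [← map_star, ← map_mul, eq_comm, ← sub_eq_zero, ← map_sub]
    exact hz _ (fun k => ent (star ((Q k).x i) * (Q k).x i - (Q k).a i i)) (fun n => rfl) 0
      fun l => (hrel l).mono fun n hn _ => (hn.2.2 i).2
  · obtain ⟨e, rfl⟩ := hkG g
    rw [actC_toC, ← sub_eq_zero, ← map_sub]
    exact hz _ (fun k => ent (mapRel hJs (hαJ (kG e)) ((Q k).a i j) - (Q k).a i j)) (fun n => rfl) e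
      fun l => (hrel l).mono fun n hn he => (hn.2.1 i j).2.2.1 e he

omit [PartialOrder M] [StarOrderedRing M] in
/-- Exact units give a positive contraction representing the defect. -/
theorem exists_defect {N : ℕ} (E : Fin N → Fin N → CSeq J ω)
    (hstar : ∀ i j, star (E i j) = E j i)
    (hmul : ∀ i j k l, E i j * E k l = if j = k then (∑ r, E r r) * E i l else 0)
    (hnorm : ∀ i j, ‖E i j‖ ≤ 1) (y : Fin N → CSeq J ω) (hdiag : ∀ i, E i i = star (y i) * y i) :
    ∃ Y : relSeq J ω hJs, (∀ n, ‖ent Y n‖ ≤ 1) ∧ toC hJs (star Y * Y) = 1 - ∑ i, E i i := by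
  let _ : PartialOrder (CSeq J ω) := CStarAlgebra.spectralOrder _
  have _ : StarOrderedRing (CSeq J ω) := CStarAlgebra.spectralOrderedRing _
  have hp0 : (0 : CSeq J ω) ≤ ∑ i, E i i :=
    Finset.sum_nonneg fun i _ => hdiag i ▸ star_mul_self_nonneg _
  have hp1 : ∑ i, E i i ≤ 1 :=
    (CStarAlgebra.norm_le_one_iff_of_nonneg _ hp0).1 (AF.norm_sum_le_one _ (fun i => hstar i i)
      (fun i j hij => by rw [hmul, if_neg hij]) fun i => hnorm i i)
  obtain ⟨z, hz⟩ := CStarAlgebra.nonneg_iff_eq_star_mul_self.1 (sub_nonneg.2 hp1)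
  have hz1 : ‖z‖ ≤ 1 := by
    have h1 : ‖star z * z‖ ≤ 1 := hz ▸ (CStarAlgebra.norm_le_one_iff_of_nonneg _
      (sub_nonneg.2 hp1)).2 (sub_le_self _ hp0)
    rw [CStarRing.norm_star_mul_self] at h1
    nlinarith [norm_nonneg z]
  obtain ⟨Y, hY, hY1⟩ := exists_contraction_rep hJs hz1
  exact ⟨Y, hY1, by rw [map_mul, map_star, hY, hz]⟩

/-- The defect of the diagonal units is negligible at a compression. -/
theorem eventually_defect_le (hJ : IsBase J) {u : M} (hu : IsBdd J u) (hu0 : u ≠ 0) {h : M}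
    (hh : IsTri J h) {K : ℝ} (hK : ∀ T : ETr J, T.t u = 1 → T.val h 1 ≤ K) {N : ℕ}
    (X : Fin N → relSeq J ω hJs) (Y : relSeq J ω hJs)
    (hXY : toC hJs (star Y * Y) = 1 - ∑ i, star (toC hJs (X i)) * toC hJs (X i))
    {δ : ℕ → ℝ} (hδ : Tendsto δ (ω : Filter ℕ) (𝓝 0))
    (hX : ∀ᶠ n in (ω : Filter ℕ), ∀ T : ETr J, T.t u = 1 →
      T.val h 1 - ∑ i, T.val h (star (ent (X i) n) * ent (X i) n) ≤ δ n) {ε : ℝ} (hε : 0 < ε) :
    ∀ᶠ n in (ω : Filter ℕ), ∀ T : ETr J, T.t u = 1 →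
      T.val h (star (ent Y n) * ent Y n) ≤ ε := by
  have hJm' : ∀ a ∈ J, ∀ b ∈ J, a * b ∈ J := fun a _ b hb => hJ.mul_left a hb
  have hhb := hh.isBdd hJ
  obtain ⟨hh_nn, -, w, g, hw0, -, -, -, hwh, hgw, hgb⟩ := hh
  have hhs : star h = h := (IsSelfAdjoint.of_nonneg hh_nn).star_eq
  have hws : star w = w := (IsSelfAdjoint.of_nonneg hw0).star_eq
  have hwJ : w ∈ J := by rw [← hgw]; exact hJ.mul_right _ hgb.mem
  set z : relSeq J ω hJs := star Y * Y - (1 - ∑ i, star (X i) * X i) with hz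
  have hz0 : toC hJs z = 0 := by
    rw [hz, map_sub, hXY, map_sub, map_one, map_sum]
    simp only [map_mul, map_star, sub_self]
  rw [toC_eq_zero_iff hJm'] at hz0
  have hzw := (hz0 w hwJ).1.norm.mul_const K
  rw [norm_zero, zero_mul] at hzw
  filter_upwards [hX, hδ.eventually (eventually_le_nhds (half_pos hε)),
    hzw.eventually (eventually_le_nhds (half_pos hε))] with n hn hδn hzn T hT
  have hfh := T.star_mul_self_ne_top hJ hu hu0 hT hhb
  set f := T.loc hJ h hhb.mem hfh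
  have hval : ∀ b : M, (f (star b * b)).re = T.val h (star b * b) := fun b => by
    show ((T.loc hJ h hhb.mem hfh) _).re = _
    rw [ETr.loc_apply hJ hhb.mem hfh (star_mul_self_nonneg b), Complex.ofReal_re]
  have hone : (f 1).re = T.val h 1 := by simpa using hval 1
  have e : ent z n = star (ent Y n) * ent Y n -
      (1 - ∑ i, star (ent (X i) n) * ent (X i) n) := by
    rw [hz]
    show star (ent Y n) * ent Y n - (1 - ent (∑ i, star (X i) * X i) n) = _
    rw [ent_sum]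
    rfl
  have h1 : ‖f (ent z n)‖ ≤ ε / 2 :=
    ((norm_loc_le hJ hhb.mem hhs hws hwh hfh _).trans
      (mul_le_mul_of_nonneg_left (hK T hT) (norm_nonneg _))).trans hzn
  have h2 : (f (ent z n)).re = T.val h (star (ent Y n) * ent Y n) -
      (T.val h 1 - ∑ i, T.val h (star (ent (X i) n) * ent (X i) n)) := by
    rw [e, map_sub, map_sub, map_sum, Complex.sub_re, Complex.sub_re, Complex.re_sum, hone]
    simp only [hval]
  have h3 := hn T hT
  have h4 := (Complex.re_le_norm _).trans h1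
  rw [h2] at h4
  linarith

/-- **Exact units.** -/
theorem exists_exactUnits [Countable G] (hω : (ω : Filter ℕ) ≤ cofinite) (hJ : IsBase J)
    (hd : DropMapsOn J) (hG : IsAmenableGroup G) {u : M} (hu : IsBdd J u) (hu0 : u ≠ 0) (m : ℕ) :
    Nonempty (ExactUnits (ω := ω) hJs hJm hα hαJ u (2 ^ m)) := by
  classical
  set N := 2 ^ m
  have hωt : (ω : Filter ℕ) ≤ atTop := hω.trans Nat.cofinite_eq_atTop.le
  obtain ⟨d, hdJ, hdd⟩ := hJ.exists_dense_seq
  obtain ⟨kG, hkG⟩ := exists_surjective_nat G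
  obtain ⟨h, hh, hh0⟩ : ∃ h, IsTri J h ∧ h ≠ 0 := by
    have hpos : 0 < ‖u‖ := norm_pos_iff.2 hu0
    obtain ⟨v, hv, hvu⟩ := hJ.exists_tri {u} (by simpa using hu.mem) (half_pos hpos)
    refine ⟨v, hv, fun h0 => ?_⟩
    have := (hvu u (Finset.mem_singleton_self u)).1
    rw [h0, zero_mul, zero_sub, norm_neg] at this
    linarith
  obtain ⟨c₀, K, -, hcK⟩ := exists_tri_bounds hJ hu hu0 (hh.isBdd hJ) hh0
  have hK : ∀ T : ETr J, T.t u = 1 → T.val h 1 ≤ |K| := fun T hT =>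
    (hcK T hT).2.trans (le_abs_self K)
  have heps : ∀ k : ℕ, (0 : ℝ) < 1 / ((k : ℝ) + 1) := fun k => by positivity
  let Q := fun k : ℕ => Classical.choice (exists_approx (ω := ω) (hJs := hJs) (hJm := hJm)
    (hα := hα) (hαJ := hαJ) hω hJ hd hG m ((Finset.range (k + 1)).image kG) (heps k))
  let δ : ℕ → ℝ := fun k => |K| * ((N + 2) * (1 / ((k : ℝ) + 1)))
  let good : ℕ → ℕ → Prop := fun k n => (∀ l ≤ k, Rel d kG Q k l n) ∧
    ∀ T : ETr J, T.t u = 1 →
      T.val h 1 - ∑ i, T.val h (star (ent ((Q k).x i) n) * ent ((Q k).x i) n) ≤ δ k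
  have hev : ∀ k, ∀ᶠ n in (ω : Filter ℕ), good k n := fun k => by
    refine ((Set.finite_le_nat k).eventually_all.2 fun l _ =>
      eventually_rel hJs hJm hdJ kG Q k l).and ?_
    exact eventually_val_le hJ hu hu0 hh hh0 hK (Q k).x
      (by nlinarith [heps k]) (by positivity) (Q k).null
  let lev : ℕ → ℕ := fun n => Nat.findGreatest (fun k => good k n) n
  have key : ∀ k₀ : ℕ, ∀ᶠ n in (ω : Filter ℕ), k₀ ≤ lev n ∧ good (lev n) n := fun k₀ => by
    filter_upwards [hev k₀, hωt (eventually_ge_atTop k₀)] with n hn hk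
    exact ⟨Nat.le_findGreatest hk hn, Nat.findGreatest_spec (P := fun k => good k n) hk hn⟩
  have hlev : Tendsto lev (ω : Filter ℕ) atTop :=
    tendsto_atTop.2 fun k => (key k).mono fun n hn => hn.1
  obtain ⟨A, X, hA1, hX, hstar, hmul, hdiag, hinv⟩ := exists_diagonal (hJs := hJs) hdd hkG Q hlev
    fun l => (key l).mono fun n hn => ⟨hn.1, hn.2.1 l hn.1⟩
  have hnorm : ∀ i j, ‖toC hJs (A i j)‖ ≤ 1 := fun i j => norm_toC_le_one _ (hA1 i j)
  obtain ⟨Y, hY1, hY⟩ := exists_defect (hJs := hJs) (fun i j => toC hJs (A i j)) hstar hmul hnorm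
    (fun i => toC hJs (X i)) hdiag
  have hδ : Tendsto (fun n => δ (lev n)) (ω : Filter ℕ) (𝓝 0) := by
    have h0 := ((tendsto_one_div_add_atTop_nhds_zero_nat (𝕜 := ℝ)).comp hlev).const_mul
      ((N : ℝ) + 2) |>.const_mul |K|
    rw [mul_zero, mul_zero] at h0
    exact h0
  refine ⟨⟨fun i j => toC hJs (A i j), hstar, hmul, hnorm, fun i => ⟨_, hdiag i⟩, hinv,
    star Y * Y, fun n => ⟨star_mul_self_nonneg (ent Y n), ?_⟩, hY, ?_⟩⟩
  · show ‖star (ent Y n) * ent Y n‖ ≤ 1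
    rw [CStarRing.norm_star_mul_self]
    exact mul_le_one₀ (hY1 n) (norm_nonneg _) (hY1 n)
  refine uNull_of_one hJ hu hu0 hh hh0 Y fun ε hε => ?_
  refine eventually_defect_le hJ hu hu0 hh hK X Y (by simpa only [hdiag] using hY) hδ ?_ hε
  filter_upwards [key 0] with n hn T hT
  simp only [hX]
  exact hn.2.2 T hT

end Vale.Agent.P095.NU.Units
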