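import Vale.Agent.P095.NU.Traces

/-!
# P095: exact invariant matrix units in the relative central sequences
-/

open Filter Topology
open scoped ComplexOrder

set_option maxSynthPendingDepth 3

noncomputable section

namespace Vale.Agent.P095.NU

variable {M : Type*} [CStarAlgebra M] [PartialOrder M] {J : Set M} {ω : Ultrafilter ℕ}
variable (hJs : ∀ a ∈ J, star a ∈ J) (hJm : ∀ a ∈ J, ∀ b ∈ J, a * b ∈ J)

/-- A sequence negligible in all traces normalised at `u`, uniformly. -/
def UNull (J : Set M) (u : M) (l : Filter ℕ) (x : ℕ → M) : Prop :=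
  ∀ v, IsTri J v → ∀ ε : ℝ, 0 < ε → ∀ᶠ n in l, ∀ T : ETr J, T.t u = 1 → T.val v (x n) ≤ ε

/-- Invariant approximately unital matrix units of order zero in the relative central sequences,
with tracially negligible defect. -/
structure ExactUnits {G : Type*} [Group G] {α : G → M ≃⋆ₐ[ℂ] M}
    (hα : ∀ g h a, α (g * h) a = α g (α h a)) (hαJ : ∀ g a, α g a ∈ J ↔ a ∈ J) (u : M) (N : ℕ) where
  E : Fin N → Fin N → CSeq J ω
  star_E : ∀ i j, star (E i j) = E j i
  mul_E : ∀ i j k l, E i j * E k l = if j = k then (∑ r, E r r) * E i l else 0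
  norm_E : ∀ i j, ‖E i j‖ ≤ 1
  diag : ∀ i, ∃ y : CSeq J ω, E i i = star y * y
  inv : ∀ g i j, actC hJs hJm hα hαJ g (E i j) = E i j
  defect : relSeq J ω hJs
  defect_nonneg : ∀ n, 0 ≤ ent defect n ∧ ‖ent defect n‖ ≤ 1
  toC_defect : toC hJs defect = 1 - ∑ i, E i i
  null : UNull J u ω (ent defect)

end Vale.Agent.P095.NU
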