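import Vale.Agent.P095.NU.UnitsDefs
import Vale.Agent.P095.NU.SeqTools
import Vale.Agent.P095.AF.DropHom

/-!
# P095: tools for diagonal sequences in the relative central sequences

Contractive representatives, two-sided norm bounds, and the passage from one compression to all.
-/

open Filter Topology
open scoped ComplexOrder

set_option maxSynthPendingDepth 3

noncomputable section

namespace Vale.Agent.P095.NU

open P101.SeqAlg (SQ bseq toSQ)

variable {M : Type*} [CStarAlgebra M] {J : Set M} {ω : Ultrafilter ℕ}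
  {hJs : ∀ a ∈ J, star a ∈ J}

/-- A contraction of the relative central sequences is a class of contractions. -/
theorem exists_contraction_rep (hJs : ∀ a ∈ J, star a ∈ J) {z : CSeq J ω} (hz : ‖z‖ ≤ 1) :
    ∃ x : relSeq J ω hJs, toC hJs x = z ∧ ∀ n, ‖ent x n‖ ≤ 1 := by
  obtain ⟨zv, X₀, hX₀'⟩ := z
  have hX₀ : cornerHom J ω X₀ = zv := hX₀'
  let _ : PartialOrder (relComm J ω) := CStarAlgebra.spectralOrder _
  have _ : StarOrderedRing (relComm J ω) := CStarAlgebra.spectralOrderedRing _
  set f : ℝ → ℝ := fun t => (max 1 (Real.sqrt t))⁻¹ with hf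
  have hfc : Continuous f := (continuous_const.max Real.continuous_sqrt).inv₀ fun t =>
    ne_of_gt (lt_max_of_lt_left one_pos)
  have hsa : IsSelfAdjoint (star X₀ * X₀) := .star_mul_self X₀
  set q := cfc f (star X₀ * X₀) with hq
  set X := X₀ * q with hX
  have hXn : ‖X‖ ≤ 1 := by
    refine (sq_le_one_iff₀ (norm_nonneg _)).1 ?_
    have hqs : star q = q := (show IsSelfAdjoint q from cfc_predicate f _).star_eq
    rw [sq, ← CStarRing.norm_star_mul_self, hX, star_mul, hqs, mul_assoc q (star X₀),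
      ← mul_assoc (star X₀) X₀ q]
    conv_lhs => rw [← cfc_id' ℝ (star X₀ * X₀), hq, ← cfc_mul _ _ _ (by fun_prop) hfc.continuousOn,
      ← cfc_mul _ _ _ hfc.continuousOn (by fun_prop)]
    refine norm_cfc_le zero_le_one fun t htsp => ?_
    show |f t * (t * f t)| ≤ 1
    set a := max 1 (Real.sqrt t) with ha
    have ha1 : 1 ≤ a := le_max_left _ _
    have h : f t * (t * f t) = t / a ^ 2 := by simp [hf, ← ha]; ring
    rw [h, abs_div, abs_of_pos (by positivity : 0 < a ^ 2), div_le_one (by positivity)]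
    have ht : 0 ≤ t := spectrum_nonneg_of_nonneg (star_mul_self_nonneg X₀) htsp
    rw [abs_of_nonneg ht]
    nlinarith [Real.sq_sqrt ht, le_max_right 1 (Real.sqrt t), Real.sqrt_nonneg t]
  obtain ⟨x, hx⟩ : ∃ x : bseq M ω, toSQ x = (X : SQ M ω) := P101.SeqAlg.toSQ_surjective _
  set t : ℕ → ℝ := fun n => max 1 ‖(x : ℕ → M) n‖
  have ht1 : ∀ n, 1 ≤ t n := fun n => le_max_left _ _
  have htl : Tendsto t ω (𝓝 1) := by
    have h := tendsto_const_nhds (x := (1 : ℝ)) (f := (ω : Filter ℕ))
    have h2 := h.max (P101.SeqAlg.tendsto_norm_toSQ x)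
    rwa [hx, max_eq_left (show ‖(X : SQ M ω)‖ ≤ 1 from hXn)] at h2
  have hy1 : ∀ n, ‖(t n)⁻¹ • (x : ℕ → M) n‖ ≤ 1 := fun n => by
    rw [norm_smul, Real.norm_of_nonneg (inv_nonneg.2 (zero_le_one.trans (ht1 n))),
      inv_mul_le_iff₀ (zero_lt_one.trans_le (ht1 n)), mul_one]
    exact le_max_right _ _
  let y : bseq M ω := ⟨fun n => (t n)⁻¹ • (x : ℕ → M) n, 1, hy1⟩
  have hyx : toSQ y = (X : SQ M ω) := by
    rw [← hx, P101.SeqAlg.toSQ_eq_iff]
    refine squeeze_zero_norm (fun n => ?_) (by simpa using htl.sub_const 1)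
    show ‖(t n)⁻¹ • (x : ℕ → M) n - (x : ℕ → M) n‖ ≤ t n - 1
    have ht0 : 0 < t n := zero_lt_one.trans_le (ht1 n)
    rw [show (t n)⁻¹ • (x : ℕ → M) n - (x : ℕ → M) n = ((t n)⁻¹ - 1) • (x : ℕ → M) n by
      rw [sub_smul, one_smul], norm_smul,
      Real.norm_of_nonpos (sub_nonpos.2 (inv_le_one_of_one_le₀ (ht1 n))), neg_sub]
    refine (mul_le_mul_of_nonneg_left (le_max_right 1 ‖(x : ℕ → M) n‖)
      (sub_nonneg.2 (inv_le_one_of_one_le₀ (ht1 n)))).trans_eq ?_
    show (1 - (t n)⁻¹) * t n = t n - 1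
    rw [sub_mul, one_mul, inv_mul_cancel₀ ht0.ne']
  have hmem : y ∈ relSeq J ω hJs := fun a ha => by
    have h : toSQ ⟨fun _ => a, ‖a‖, fun _ => le_rfl⟩ * toSQ y =
        toSQ y * toSQ ⟨fun _ => a, ‖a‖, fun _ => le_rfl⟩ := by
      rw [hyx]; exact const_commute X.2 ha
    rwa [← P101.SeqAlg.toSQ_mul, ← P101.SeqAlg.toSQ_mul, P101.SeqAlg.toSQ_eq_iff] at h
  refine ⟨⟨y, hmem⟩, Subtype.ext ?_, hy1⟩
  show cornerHom J ω ⟨toSQ y, _⟩ = zv
  have : (⟨toSQ y, toSQ_mem_relComm (hJs := hJs) ⟨y, hmem⟩⟩ : relComm J ω) = X := Subtype.ext hyx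
  rw [this, hX, map_mul, hX₀, hq,
    StarAlgHomClass.map_cfc (cornerHom J ω) f _ hfc.continuousOn (continuous_hom _) hsa
      (hsa.map _)]
  have hn : ‖zv‖ ≤ 1 := hz
  rw [map_mul, map_star, hX₀]
  have h1 : cfc f (star zv * zv) = 1 := by
    rw [← cfc_one ℝ (star zv * zv) (IsSelfAdjoint.star_mul_self zv)]
    refine cfc_congr fun s hs => ?_
    rcases subsingleton_or_nontrivial (DoubleCentralizer ℂ (corner J ω)) with hT | hT
    · simp [spectrum.of_subsingleton] at hs
    have hs' := spectrum.norm_le_norm_of_mem hs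
    rw [Real.norm_eq_abs, CStarRing.norm_star_mul_self] at hs'
    have : Real.sqrt s ≤ 1 := Real.sqrt_le_one.2 ((le_abs_self s).trans
      (hs'.trans (mul_le_one₀ hn (norm_nonneg _) hn)))
    simp [hf, max_eq_left this]
  rw [h1, mul_one]

/-- The classes bound the compressions by elements of `J` on both sides. -/
theorem eventually_two_sided (hJs : ∀ a ∈ J, star a ∈ J) (hJm : ∀ a ∈ J, ∀ b ∈ J, a * b ∈ J)
    (x : relSeq J ω hJs) {ε : ℝ} (hε : 0 < ε) (hx : ‖toC hJs x‖ ≤ ε) {c : M} (hc : c ∈ J) :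
    ∀ᶠ n in (ω : Filter ℕ),
      ‖c * ent x n‖ ≤ ε * (‖c‖ + 1) ∧ ‖ent x n * c‖ ≤ ε * (‖c‖ + 1) := by
  have hlt : ∀ (y : relSeq J ω hJs) (d : M), ‖toC hJs y‖ ≤ ε →
      ‖toC hJs y‖ * ‖d‖ < ε * (‖d‖ + 1) := fun y d h => by
    nlinarith [mul_le_mul_of_nonneg_right h (norm_nonneg d)]
  have hs : ‖toC hJs (star x)‖ ≤ ε := by rwa [map_star, norm_star]
  filter_upwards [SeqTools.eventually_norm_lt hJm x hc (hlt x c hx),
    SeqTools.eventually_norm_lt hJm (star x) (hJs c hc) (hlt (star x) (star c) hs)] with n h1 h2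
  refine ⟨h1.le, ?_⟩
  rw [← norm_star, star_mul]
  simpa [norm_star] using h2.le

section Order

variable [PartialOrder M] [StarOrderedRing M]

/-- A sequence negligible at one nonzero compression is negligible at all. -/
theorem uNull_of_one (hJ : IsBase J) {u : M} (hu : IsBdd J u) (hu0 : u ≠ 0) {h : M}
    (hh : IsTri J h) (hh0 : h ≠ 0) (y : relSeq J ω hJs)
    (hy : ∀ ε : ℝ, 0 < ε → ∀ᶠ n in (ω : Filter ℕ), ∀ T : ETr J, T.t u = 1 →
      T.val h (star (ent y n) * ent y n) ≤ ε) :
    UNull J u ω fun n => star (ent y n) * ent y n := by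
  intro v hv ε hε
  have hvb := hv.isBdd hJ
  have hhb := hh.isBdd hJ
  obtain ⟨hv0, -, w, g, hw0, -, hg0, -, hwv, hgw, hgb⟩ := hv
  obtain ⟨hh_nn, -, h₀, gh, hh₀0, -, hgh0, -, hh₀h, hghh₀, hghb⟩ := hh
  have hvs : star v = v := (IsSelfAdjoint.of_nonneg hv0).star_eq
  have hhs : star h = h := (IsSelfAdjoint.of_nonneg hh_nn).star_eq
  have hh₀s : star h₀ = h₀ := (IsSelfAdjoint.of_nonneg hh₀0).star_eq
  have hws : star w = w := (IsSelfAdjoint.of_nonneg hw0).star_eq
  have hwJ : w ∈ J := by rw [← hgw]; exact hJ.mul_right _ hgb.mem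
  have hh2 : h * h ≠ 0 := fun h' => hh0 (norm_eq_zero.1 (mul_self_eq_zero.1 (by
    rw [← CStarRing.norm_star_mul_self, hhs, h', norm_zero])))
  have hv2 : 0 ≤ v * v := by simpa [hvs] using star_mul_self_nonneg v
  obtain ⟨L, s, hs⟩ : ∃ (L : ℕ) (s : Fin L → M), v * v ≤ ∑ j, star (s j) * (h * h) * s j :=
    ((hvb.conj hJ (CFC.sqrt v)).of_le hJ hv2 (le_of_eq (by
      rw [(IsSelfAdjoint.of_nonneg (CFC.sqrt_nonneg v)).star_eq]
      have hq := CFC.sqrt_mul_sqrt_self v hv0
      generalize CFC.sqrt v = q at hq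
      subst hq
      simp only [mul_assoc]))).2.2 _ (hJ.mul_left h hhb.mem)
        (by simpa [hhs] using star_mul_self_nonneg h) hh2
  have hvw : v * w = v := by simpa [hvs, hws] using congrArg star hwv
  set S : Fin L → M := fun j => h₀ * s j * w with hS
  have hSJ : ∀ j, S j ∈ J := fun j => hJ.mul_left _ hwJ
  have hhh₀ : h * h₀ = h := by simpa [hhs, hh₀s] using congrArg star hh₀h
  have hvS : v * v ≤ ∑ j, star (S j) * (h * h) * S j := by
    have h1 := star_left_conjugate_le_conjugate hs w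
    rw [hws, show w * (v * v) * w = (w * v) * (v * w) by simp only [mul_assoc], hwv, hvw] at h1
    refine h1.trans_eq ?_
    rw [Finset.mul_sum, Finset.sum_mul]
    refine Finset.sum_congr rfl fun j _ => ?_
    simp only [hS, star_mul, hws, hh₀s]
    rw [show w * (star (s j) * h₀) * (h * h) * (h₀ * s j * w) =
      w * (star (s j) * ((h₀ * h) * (h * h₀)) * s j) * w by simp only [mul_assoc], hh₀h, hhh₀]
  obtain ⟨c, K, -, hK⟩ := exists_tri_bounds hJ hu hu0 hhb hh0
  set B : ℝ := ∑ j, ‖S j‖ ^ 2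
  have hB : 0 ≤ B := Finset.sum_nonneg fun j _ => sq_nonneg _
  obtain ⟨C, hC⟩ := (y : bseq M ω).2
  have hcom : Tendsto (fun n => ∑ j, ‖S j * (star (ent y n) * ent y n) * star (S j) -
      star (ent y n) * (S j * star (S j)) * ent y n‖) ω (𝓝 0) := by
    suffices hj : ∀ j ∈ (Finset.univ : Finset (Fin L)), Tendsto (fun n =>
        ‖S j * (star (ent y n) * ent y n) * star (S j) -
          star (ent y n) * (S j * star (S j)) * ent y n‖) ω (𝓝 0) by
      simpa using tendsto_finsetSum _ hj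
    intro j _
    have h1 := ((star y : relSeq J ω hJs).2 (S j) (hSJ j)).norm.const_mul (‖S j‖ * C)
    have h2 := (y.2 (star (S j)) (hJs _ (hSJ j))).norm.const_mul (‖S j‖ * C)
    refine squeeze_zero_norm (a := fun n => ‖S j‖ * C * ‖S j * ent (star y) n -
      ent (star y) n * S j‖ + ‖S j‖ * C * ‖star (S j) * ent y n - ent y n * star (S j)‖) (fun n => ?_)
      (by simpa [ent] using h1.add h2)
    rw [Real.norm_eq_abs, abs_norm]
    have hn : ‖ent y n‖ ≤ C := hC n
    rw [show S j * (star (ent y n) * ent y n) * star (S j) -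
        star (ent y n) * (S j * star (S j)) * ent y n =
      (S j * star (ent y n) - star (ent y n) * S j) * (ent y n * star (S j)) +
        -(star (ent y n) * S j * (star (S j) * ent y n - ent y n * star (S j))) by noncomm_ring]
    refine (norm_add_le _ _).trans (add_le_add ?_ ?_)
    · refine (norm_mul_le _ _).trans ?_
      rw [mul_comm]
      refine mul_le_mul_of_nonneg_right ((norm_mul_le _ _).trans ?_) (norm_nonneg _)
      rw [norm_star, mul_comm]
      exact mul_le_mul_of_nonneg_left hn (norm_nonneg _)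
    · rw [norm_neg]
      refine (norm_mul_le _ _).trans (mul_le_mul_of_nonneg_right ((norm_mul_le _ _).trans ?_)
        (norm_nonneg _))
      rw [norm_star, mul_comm]
      exact mul_le_mul_of_nonneg_left hn (norm_nonneg _)
  filter_upwards [hy (ε / (2 * (B + 1))) (by positivity),
    hcom.eventually (eventually_le_nhds (show (0 : ℝ) < ε / (2 * (|K| + 1)) by positivity))]
    with n h1 h2 T hT
  set a := ent y n
  have hfh := T.star_mul_self_ne_top hJ hu hu0 hT hhb
  set fh := T.loc hJ h hhb.mem hfh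
  have hpos : ∀ b, 0 ≤ fh (star b * b) := ETr.loc_nonneg hJ hhb.mem hfh
  have hterm : ∀ j, 0 ≤ a * (star (S j) * (h * h) * S j) * star a ∧
      a * (star (S j) * (h * h) * S j) * star a ∈ J := fun j => ⟨by
    have := mul_star_self_nonneg (a * star (S j) * h)
    simpa [star_mul, hhs, mul_assoc] using this,
    hJ.mul_right _ (hJ.mul_left _ (hJ.mul_left _ (hSJ j)))⟩
  have hle : T.t (v * (star a * a) * v) ≤ T.t (∑ j, a * (star (S j) * (h * h) * S j) * star a) := by
    have hc := T.comm (a * v) (hJ.mul_left _ hvb.mem)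
    rw [show v * (star a * a) * v = star (a * v) * (a * v) by
      simp only [star_mul, hvs, mul_assoc], hc]
    refine T.mono _ _ (hJ.mul_right _ (hJ.mul_left _ hvb.mem)) (hJ.sum_mem _ fun j _ => (hterm j).2)
      (mul_star_self_nonneg _) ?_
    have := star_right_conjugate_le_conjugate hvS a
    rw [Finset.mul_sum, Finset.sum_mul] at this
    simpa [star_mul, hvs, mul_assoc] using this
  have hsum : ∀ j, T.t (a * (star (S j) * (h * h) * S j) * star a) =
      T.t (star h * (S j * (star a * a) * star (S j)) * h) := fun j => by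
    have hc := T.comm (h * S j * star a) (hJ.mul_right _ (hJ.mul_left _ (hSJ j)))
    simp only [star_mul, star_star, hhs, mul_assoc] at hc ⊢
    exact hc
  have hfin : ∀ b : M, 0 ≤ b → T.t (star h * b * h) ≠ ⊤ :=
    fun b hb => ETr.compress_ne_top hJ hhb.mem hfh hb
  have hp : ∀ j, 0 ≤ S j * (star a * a) * star (S j) := fun j =>
    star_right_conjugate_nonneg (star_mul_self_nonneg a) _
  show (T.t (star v * (star a * a) * v)).toReal ≤ ε
  rw [hvs]
  rw [T.map_sum hJ _ (fun j _ => (hterm j).2) (fun j _ => (hterm j).1)] at hle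
  simp only [hsum] at hle
  refine (ENNReal.toReal_mono (ENNReal.sum_ne_top.2 fun j _ => hfin _ (hp j)) hle).trans ?_
  rw [ENNReal.toReal_sum fun j _ => hfin _ (hp j)]
  have hj : ∀ j, (T.t (star h * (S j * (star a * a) * star (S j)) * h)).toReal ≤
      ‖S j‖ ^ 2 * T.val h (star a * a) +
        ‖S j * (star a * a) * star (S j) - star a * (S j * star (S j)) * a‖ * |K| := fun j => by
    have hq : (0 : M) ≤ star a * (S j * star (S j)) * a :=
      star_left_conjugate_nonneg (mul_star_self_nonneg _) _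
    have e1 : (fh (S j * (star a * a) * star (S j))).re =
        (T.t (star h * (S j * (star a * a) * star (S j)) * h)).toReal := by
      show ((T.loc hJ h hhb.mem hfh) _).re = _
      rw [ETr.loc_apply hJ hhb.mem hfh (hp j)]
      rfl
    have e2 : (fh (star a * (S j * star (S j)) * a)).re ≤ ‖S j‖ ^ 2 * T.val h (star a * a) := by
      refine (re_mono_of_pos hpos (CStarAlgebra.star_left_conjugate_le_norm_smul
        (hb := IsSelfAdjoint.mul_star_self (S j)))).trans_eq ?_
      rw [CStarRing.norm_self_mul_star, ← sq, ← Complex.coe_smul, map_smul, smul_eq_mul,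
        Complex.re_ofReal_mul]
      show _ * ((T.loc hJ h hhb.mem hfh) _).re = _
      rw [ETr.loc_apply hJ hhb.mem hfh (star_mul_self_nonneg a), Complex.ofReal_re]
    have e3 : |(fh (S j * (star a * a) * star (S j) - star a * (S j * star (S j)) * a)).re| ≤
        ‖S j * (star a * a) * star (S j) - star a * (S j * star (S j)) * a‖ * |K| := by
      refine (Complex.abs_re_le_norm _).trans ((norm_apply_le_of_pos hpos _).trans
        (mul_le_mul_of_nonneg_left ?_ (norm_nonneg _)))
      show ((T.loc hJ h hhb.mem hfh) 1).re ≤ |K|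
      rw [ETr.loc_apply hJ hhb.mem hfh zero_le_one, Complex.ofReal_re]
      exact ((hK T hT).2).trans (le_abs_self K)
    rw [← e1]
    rw [map_sub, Complex.sub_re] at e3
    linarith [le_abs_self ((fh (S j * (star a * a) * star (S j))).re -
      (fh (star a * (S j * star (S j)) * a)).re)]
  refine (Finset.sum_le_sum fun j _ => hj j).trans ?_
  rw [Finset.sum_add_distrib, ← Finset.sum_mul, ← Finset.sum_mul]
  have hv0' : 0 ≤ T.val h (star a * a) := ENNReal.toReal_nonneg
  have b1 : B * T.val h (star a * a) ≤ ε / 2 := by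
    have h1' := h1 T hT
    rw [le_div_iff₀ (by positivity)] at h1'
    linarith
  have b2 : (∑ j, ‖S j * (star a * a) * star (S j) - star a * (S j * star (S j)) * a‖) * |K| ≤
      ε / 2 := by
    have h2' := h2
    rw [le_div_iff₀ (by positivity)] at h2'
    have : 0 ≤ ∑ j, ‖S j * (star a * a) * star (S j) - star a * (S j * star (S j)) * a‖ :=
      Finset.sum_nonneg fun _ _ => norm_nonneg _
    linarith
  linarith

end Order

end Vale.Agent.P095.NU
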