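import Vale.Agent.P095.NU.UnitsRep

/-!
# P095: from a countable dense subset of `J`, and from limit traces to uniform bounds
-/

open Filter Topology
open scoped ComplexOrder

set_option maxSynthPendingDepth 3

noncomputable section

namespace Vale.Agent.P095.NU

variable {M : Type*} [CStarAlgebra M] {J : Set M}

/-- A dense sequence in `J`. -/
theorem IsBase.exists_dense_seq (hJ : IsBase J) :
    ∃ d : ℕ → M, (∀ i, d i ∈ J) ∧ J ⊆ closure (Set.range d) := by
  obtain ⟨S, hSc, hSJ, hS⟩ := hJ.separable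
  obtain ⟨d, hd⟩ := (hSc.insert 0).exists_eq_range (Set.insert_nonempty _ _)
  refine ⟨d, fun i => ?_, fun x hx => closure_mono ?_ (hS hx)⟩
  · have : d i ∈ Set.range d := ⟨i, rfl⟩
    rw [← hd] at this
    rcases this with h | h
    · rw [h]; exact hJ.zero_mem
    · exact hSJ h
  · rw [← hd]; exact Set.subset_insert 0 S

/-- A condition linear in `c` tends to zero on `J` if it does so on a dense sequence. -/
theorem tendsto_of_dense_seq {d : ℕ → M} (hd : J ⊆ closure (Set.range d)) {l : Filter ℕ}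
    (F : ℕ → M → M) (hsub : ∀ n a b, F n (a - b) = F n a - F n b) {C : ℝ}
    (hF : ∀ n a, ‖F n a‖ ≤ C * ‖a‖) (h : ∀ i, Tendsto (fun n => F n (d i)) l (𝓝 0)) {c : M}
    (hc : c ∈ J) : Tendsto (fun n => F n c) l (𝓝 0) := by
  rw [Metric.tendsto_nhds]
  intro ε hε
  obtain ⟨_, ⟨i, rfl⟩, hi⟩ := Metric.mem_closure_iff.1 (hd hc) (ε / (2 * (|C| + 1))) (by positivity)
  filter_upwards [Metric.tendsto_nhds.1 (h i) (ε / 2) (half_pos hε)] with n hn
  rw [dist_zero_right] at hn ⊢
  rw [dist_eq_norm, lt_div_iff₀ (by positivity)] at hi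
  have h1 : ‖F n c‖ ≤ ‖F n (d i)‖ + ‖F n (c - d i)‖ := by
    rw [hsub]
    exact norm_le_norm_add_norm_sub' (F n c) (F n (d i))
  nlinarith [hF n (c - d i), le_abs_self C, norm_nonneg (c - d i)]

variable {ω : Ultrafilter ℕ} {hJs : ∀ a ∈ J, star a ∈ J}

theorem ent_sum {ι : Type*} (s : Finset ι) (x : ι → relSeq J ω hJs) (n : ℕ) :
    ent (∑ i ∈ s, x i) n = ∑ i ∈ s, ent (x i) n := by
  simp [ent, AddSubmonoidClass.coe_finsetSum, Finset.sum_apply]

/-- Classes of contractions are contractions. -/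
theorem norm_toC_le_one (x : relSeq J ω hJs) (hx : ∀ n, ‖ent x n‖ ≤ 1) : ‖toC hJs x‖ ≤ 1 :=
  (NonUnitalStarAlgHom.norm_apply_le (cornerHom J ω) _).trans
    (P101.SeqAlg.norm_toSQ_le_of_eventually (.of_forall hx))

variable [PartialOrder M] [StarOrderedRing M]

/-- A compressed trace of a sequence null on `J` is small, uniformly. -/
theorem norm_loc_le (hJ : IsBase J) {T : ETr J} {v w : M} (hvJ : v ∈ J) (hvs : star v = v)
    (hws : star w = w) (hwv : w * v = v) (hfv : T.t (star v * v) ≠ ⊤) (z : M) :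
    ‖T.loc hJ v hvJ hfv z‖ ≤ ‖z * w‖ * T.val v 1 := by
  have hpos : ∀ a, 0 ≤ T.loc hJ v hvJ hfv (star a * a) := ETr.loc_nonneg hJ hvJ hfv
  have h1 : T.loc hJ v hvJ hfv 1 = (T.val v 1 : ℂ) := ETr.loc_apply hJ hvJ hfv zero_le_one
  have h0 : 0 ≤ T.val v 1 := ENNReal.toReal_nonneg
  have hvw : v * w = v := by simpa [hvs, hws] using congrArg star hwv
  have e : T.loc hJ v hvJ hfv (star z * z) = T.loc hJ v hvJ hfv (star (z * w) * (z * w)) := by
    rw [ETr.loc_apply hJ hvJ hfv (star_mul_self_nonneg z),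
      ETr.loc_apply hJ hvJ hfv (star_mul_self_nonneg (z * w))]
    simp only [ETr.val, hvs, star_mul, hws]
    congr 3
    rw [show v * (w * star z * (z * w)) * v = (v * w) * (star z * z) * (w * v) by
      simp only [mul_assoc], hvw, hwv]
  have h2 : (T.loc hJ v hvJ hfv (star z * z)).re ≤ ‖z * w‖ ^ 2 * T.val v 1 := by
    rw [e]
    refine (Complex.re_le_norm _).trans ((norm_apply_le_of_pos hpos _).trans_eq ?_)
    rw [CStarRing.norm_star_mul_self, h1, Complex.ofReal_re, sq]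
  refine (sq_le_sq₀ (norm_nonneg _) (by positivity)).1 ((sq_norm_apply_le hpos z).trans ?_)
  rw [h1, Complex.ofReal_re]
  nlinarith [mul_le_mul_of_nonneg_left h2 h0]

/-- A bound in all tracial states of the relative central sequences gives a uniform bound on the
compressed traces of `J`. -/
theorem eventually_val_le (hJ : IsBase J) {u : M} (hu : IsBdd J u) (hu0 : u ≠ 0) {v : M}
    (hv : IsTri J v) (hv0 : v ≠ 0) {K : ℝ} (hK : ∀ T : ETr J, T.t u = 1 → T.val v 1 ≤ K)
    {ι : Type*} [Fintype ι] (x : ι → relSeq J ω hJs) {η η' : ℝ} (hηη' : η < η') (hη : 0 ≤ η)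
    (hτ : ∀ τ : CSeq J ω →ₗ[ℂ] ℂ, IsTracial τ →
      1 - (∑ i, τ (toC hJs (star (x i) * x i))).re ≤ η) :
    ∀ᶠ n in (ω : Filter ℕ), ∀ T : ETr J, T.t u = 1 →
      T.val v 1 - ∑ i, T.val v (star (ent (x i) n) * ent (x i) n) ≤ K * η' := by
  classical
  by_contra hcon
  rw [← Ultrafilter.eventually_not] at hcon
  obtain ⟨n₀, hn₀⟩ := hcon.exists
  push Not at hn₀
  obtain ⟨T₀, hT₀, -⟩ := hn₀
  have hsel : ∀ n, ∃ T : ETr J, T.t u = 1 ∧
      ((¬∀ T : ETr J, T.t u = 1 →
        T.val v 1 - ∑ i, T.val v (star (ent (x i) n) * ent (x i) n) ≤ K * η') →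
        K * η' < T.val v 1 - ∑ i, T.val v (star (ent (x i) n) * ent (x i) n)) := fun n => by
    by_cases h : ∀ T : ETr J, T.t u = 1 →
        T.val v 1 - ∑ i, T.val v (star (ent (x i) n) * ent (x i) n) ≤ K * η'
    · exact ⟨T₀, hT₀, fun h' => absurd h h'⟩
    · push Not at h
      obtain ⟨T, hT, hlt⟩ := h
      exact ⟨T, hT, fun _ => hlt⟩
  choose T hT hlt using hsel
  obtain ⟨τ, hτ1, hlim⟩ := exists_trace (ω := ω) (hJs := hJs) hJ hu hu0 hv hv0 hT
  obtain ⟨c, _, hc, hcK⟩ := exists_tri_bounds hJ hu hu0 (hv.isBdd hJ) hv0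
  have h1 : Tendsto (fun n => 1 - ∑ i, (T n).val v (star (ent (x i) n) * ent (x i) n) /
      (T n).val v 1) ω (𝓝 (1 - (∑ i, τ (toC hJs (star (x i) * x i))).re)) := by
    rw [Complex.re_sum]
    refine (tendsto_finsetSum _ fun i _ => ?_).const_sub 1
    have h := ((Complex.continuous_re.tendsto _).comp
      (hlim (star (x i) * x i) fun n => star_mul_self_nonneg (ent (x i) n)))
    simpa [Function.comp_def, ent] using h
  obtain ⟨n, hn1, hn2⟩ := (hcon.and (h1.eventually (eventually_lt_nhds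
    (lt_of_le_of_lt (hτ τ hτ1) hηη')))).exists
  have hpos : 0 < (T n).val v 1 := hc.trans_le (hcK _ (hT n)).1
  rw [← Finset.sum_div, sub_lt_iff_lt_add, ← sub_lt_iff_lt_add', lt_div_iff₀ hpos] at hn2
  have h3 := mul_le_mul_of_nonneg_right (hK _ (hT n)) (le_trans hη hηη'.le)
  have h4 := hlt n hn1
  linarith

end Vale.Agent.P095.NU
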